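import Crest.Agent.R101.Defs
import Crest.Agent.R101.Reg
import Mathlib
import Crest.Agent.Lib.InjHolo
import Crest.Agent.Lib.Bieberbach

-- ▼ part R101/Growth
section

/-! Row 101, P2: growth of `U - U 0` at the critical point. -/

set_option autoImplicit false

open MeasureTheory Metric Set Complex ComplexConjugate Filter Topology
open scoped ContDiff

namespace Crest.Agent.R101

lemma contDiffOn_rho {φ : ℂ → ℂ} (hφ : DifferentiableOn ℂ φ (ball 0 1)) :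
    ContDiffOn ℝ 1 (rho φ) (ball 0 1) := by
  have h1 : ContDiffOn ℂ ω (deriv φ) (ball 0 1) :=
    ((hφ.analyticOnNhd isOpen_ball).deriv).analyticOn.contDiffOn
      (isOpen_ball.uniqueDiffOn)
  have h2 : ContDiffOn ℝ 1 (deriv φ) (ball 0 1) := (h1.of_le le_top).restrict_scalars ℝ
  unfold rho
  exact h2.norm_sq ℝ

/-- P2 (regularity at the critical point). -/
theorem growth {φ : ℂ → ℂ} {U : ℂ → ℝ} {μ : ℝ} (h : Setting φ U μ) :
    ∃ C r : ℝ, 0 < r ∧ r < 1 ∧ ∀ z ∈ ball (0 : ℂ) r,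
      |U z - U 0| ≤ C * ‖z‖ ^ 2 ∧ |dx U z| ≤ C * ‖z‖ ∧ |dy U z| ≤ C * ‖z‖ := by
  have hρ := contDiffOn_rho h.conf.holo
  have hU := h.adm.c1
  have hU' : ContDiffOn ℝ 1 (fun z => U z - U 0) (ball 0 1) := hU.sub contDiffOn_const
  have hf : ContDiffOn ℝ 1 (fun z => μ * (rho φ z * U z)) (ball 0 1) :=
    contDiffOn_const.mul (hρ.mul hU)
  have hfd : ∀ z, fderiv ℝ (fun z => U z - U 0) z = fderiv ℝ U z := fun z => fderiv_sub_const _
  have hw : Reg.WeakEq (ball 0 1) (fun z => U z - U 0) (fun z => μ * (rho φ z * U z)) := by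
    intro v hv hc hs
    have hvc := hv.continuous
    have hv' : Continuous (fderiv ℝ v) := hv.continuous_fderiv one_ne_zero
    have hdx : Continuous (dx v) := by unfold dx; fun_prop
    have hdy : Continuous (dy v) := by unfold dy; fun_prop
    have hv0 : ∀ z, z ∉ ball (0:ℂ) 1 → v z = 0 := fun z hz =>
      image_eq_zero_of_notMem_tsupport fun hz' => hz (hs hz')
    have hfv0 : ∀ z, z ∉ ball (0:ℂ) 1 → fderiv ℝ v z = 0 := fun z hz =>
      image_eq_zero_of_notMem_tsupport fun hz' => hz (hs (tsupport_fderiv_subset ℝ hz'))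
    have hadm : Adm φ v := by
      refine ⟨hv.contDiffOn, ?_, ?_⟩
      · have := Reg.integrable_mul_of_tsupport isOpen_ball (u := rho φ) (g := fun z => v z ^ 2)
          hρ.continuousOn (by fun_prop) ?_ ?_
        · exact this.integrableOn
        · exact hc.comp_left (g := fun s : ℝ => s ^ 2) (by norm_num)
        · refine (closure_mono ?_).trans hs
          intro z hz
          simp only [Function.mem_support, ne_eq] at hz ⊢
          intro h0; exact hz (by rw [h0]; norm_num)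
      · have c1 : HasCompactSupport (dx v) := hc.fderiv_apply (𝕜 := ℝ) 1
        have c2 : HasCompactSupport (dy v) := hc.fderiv_apply (𝕜 := ℝ) I
        have d1 : HasCompactSupport (fun z => dx v z ^ 2) :=
          c1.comp_left (g := fun s : ℝ => s ^ 2) (by norm_num)
        have d2 : HasCompactSupport (fun z => dy v z ^ 2) :=
          c2.comp_left (g := fun s : ℝ => s ^ 2) (by norm_num)
        have i1 : Integrable (fun z => dx v z ^ 2) :=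
          (by fun_prop : Continuous fun z => dx v z ^ 2).integrable_of_hasCompactSupport d1
        have i2 : Integrable (fun z => dy v z ^ 2) :=
          (by fun_prop : Continuous fun z => dy v z ^ 2).integrable_of_hasCompactSupport d2
        exact (i1.add i2).integrableOn
    have key := h.weak v hadm
    have e1 : ∫ z in ball (0:ℂ) 1, ip U v z =
        ∫ y, (fderiv ℝ (fun z => U z - U 0) y 1 * fderiv ℝ v y 1 +
          fderiv ℝ (fun z => U z - U 0) y I * fderiv ℝ v y I) := by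
      simp only [hfd]
      refine setIntegral_eq_integral_of_forall_compl_eq_zero fun z hz => ?_
      simp [ip, dx, dy, hfv0 z hz]
    have e2 : μ * ∫ z in ball (0:ℂ) 1, rho φ z * U z * v z =
        ∫ y, μ * (rho φ y * U y) * v y := by
      have : ∫ z in ball (0:ℂ) 1, rho φ z * U z * v z = ∫ z, rho φ z * U z * v z := by
        refine setIntegral_eq_integral_of_forall_compl_eq_zero fun z hz => ?_
        rw [hv0 z hz, mul_zero]
      rw [this, ← integral_const_mul]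
      refine integral_congr_ae (Eventually.of_forall fun y => ?_)
      simp only
      ring
    rw [← e1, ← e2]
    exact key
  obtain ⟨C, hC0, r, hr0, hr1, hC⟩ := Reg.second_order one_pos hU' hf hw (by simp)
    (by rw [hfd]; exact h.crit)
  refine ⟨C, r, hr0, hr1, fun z hz => ?_⟩
  rw [mem_ball_zero_iff] at hz
  obtain ⟨h1, h2⟩ := hC z hz
  rw [hfd] at h2
  refine ⟨h1, ?_, ?_⟩
  · have := (fderiv ℝ U z).le_opNorm 1
    rw [Real.norm_eq_abs, norm_one, mul_one] at this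
    exact this.trans h2
  · have := (fderiv ℝ U z).le_opNorm I
    rw [Real.norm_eq_abs, Complex.norm_I, mul_one] at this
    exact this.trans h2

end Crest.Agent.R101
end

-- ▼ part R101/NullInt
section

/-!
# Null identities on the upper half plane

`integral_dbar_eq_zero`: if `G` is real-differentiable on the upper half plane with partial
derivatives `GX, GY` integrable, and `‖G ξ‖ ≤ C * ξ.im / (1+‖ξ‖)^4`, then `∫ (GX + I GY) = 0`.
-/

set_option autoImplicit false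

open MeasureTheory Set Filter Complex
open scoped Topology ComplexConjugate

namespace Crest.Agent.R101

/-- The open upper half plane. -/
def HP : Set ℂ := {ξ : ℂ | 0 < ξ.im}

theorem isOpen_HP : IsOpen HP := isOpen_lt continuous_const Complex.continuous_im

theorem measurableSet_HP : MeasurableSet HP := isOpen_HP.measurableSet

theorem mem_HP {ξ : ℂ} : ξ ∈ HP ↔ 0 < ξ.im := Iff.rfl

/-- `x + y I` -/
def pt (x y : ℝ) : ℂ := ⟨x, y⟩

@[simp] theorem pt_re (x y : ℝ) : (pt x y).re = x := rfl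
@[simp] theorem pt_im (x y : ℝ) : (pt x y).im = y := rfl

theorem pt_eq (x y : ℝ) : pt x y = x + y * I := by
  apply Complex.ext <;> simp

theorem integrable_HP_iff {f : ℂ → ℂ} :
    IntegrableOn f HP ↔ IntegrableOn (fun p : ℝ × ℝ => f (pt p.1 p.2)) (univ ×ˢ Ioi 0) := by
  have h := (Complex.volume_preserving_equiv_real_prod.symm).integrableOn_comp_preimage
    (Complex.measurableEquivRealProd.symm.measurableEmbedding) (f := f) (s := HP)
  have hs : Complex.measurableEquivRealProd.symm ⁻¹' HP = (univ ×ˢ Ioi 0 : Set (ℝ × ℝ)) := by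
    ext p; simp [HP, Complex.measurableEquivRealProd_symm_apply]
  rw [hs] at h
  rw [← h]
  rfl

theorem integral_HP_eq {f : ℂ → ℂ} :
    ∫ ξ in HP, f ξ = ∫ p in (univ ×ˢ Ioi 0 : Set (ℝ × ℝ)), f (pt p.1 p.2) := by
  have h := (Complex.volume_preserving_equiv_real_prod.symm).setIntegral_preimage_emb
    (Complex.measurableEquivRealProd.symm.measurableEmbedding) f HP
  have hs : Complex.measurableEquivRealProd.symm ⁻¹' HP = (univ ×ˢ Ioi 0 : Set (ℝ × ℝ)) := by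
    ext p; simp [HP, Complex.measurableEquivRealProd_symm_apply]
  rw [hs] at h
  rw [← h]
  rfl

theorem norm_pt_ge_re (x y : ℝ) : |x| ≤ ‖pt x y‖ := by
  simpa using Complex.abs_re_le_norm (pt x y)

theorem norm_pt_ge_im (x y : ℝ) : |y| ≤ ‖pt x y‖ := by
  simpa using Complex.abs_im_le_norm (pt x y)

/-- integral of the `x`-derivative vanishes -/
theorem integral_GX {G GX : ℂ → ℂ} {C : ℝ}
    (hG : ∀ ξ ∈ HP, HasDerivAt (fun t : ℝ => G (pt t ξ.im)) (GX ξ) ξ.re)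
    (hb : ∀ ξ : ℂ, 0 ≤ ξ.im → ‖G ξ‖ ≤ C * ξ.im / (1 + ‖ξ‖) ^ 4)
    (hi : IntegrableOn GX HP) : ∫ ξ in HP, GX ξ = 0 := by
  rw [integral_HP_eq]
  rw [integrable_HP_iff] at hi
  have hprod : (volume : Measure (ℝ × ℝ)).restrict (univ ×ˢ Ioi 0) =
      ((volume : Measure ℝ).restrict univ).prod ((volume : Measure ℝ).restrict (Ioi 0)) := by
    rw [Measure.prod_restrict]; rfl
  have hi' : Integrable (fun p : ℝ × ℝ => GX (pt p.1 p.2))
      (((volume : Measure ℝ).restrict univ).prod ((volume : Measure ℝ).restrict (Ioi 0))) := by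
    rw [← hprod]; exact hi
  rw [hprod, integral_prod_symm _ hi']
  have hae := hi'.prod_left_ae
  have hae' : ∀ᵐ y ∂((volume : Measure ℝ).restrict (Ioi 0)), 0 < y :=
    ae_restrict_mem measurableSet_Ioi
  have key : (fun y : ℝ => ∫ x, GX (pt x y) ∂((volume : Measure ℝ).restrict univ))
      =ᵐ[(volume : Measure ℝ).restrict (Ioi 0)] fun _ => (0 : ℂ) := by
    filter_upwards [hae, hae'] with y hy hy0
    rw [Measure.restrict_univ] at hy ⊢
    have hC : Tendsto (fun x : ℝ => C * y / (1 + |x|) ^ 4) atTop (𝓝 0) := by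
      apply Tendsto.div_atTop tendsto_const_nhds
      apply (tendsto_pow_atTop (by norm_num)).comp
      exact tendsto_atTop_add_const_left _ _ tendsto_abs_atTop_atTop
    have hC' : Tendsto (fun x : ℝ => C * y / (1 + |x|) ^ 4) atBot (𝓝 0) := by
      apply Tendsto.div_atTop tendsto_const_nhds
      apply (tendsto_pow_atTop (by norm_num)).comp
      exact tendsto_atTop_add_const_left _ _ tendsto_abs_atBot_atTop
    have hCy : 0 ≤ C * y := by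
      have h0 := (norm_nonneg _).trans (hb (pt 0 y) (by simpa using hy0.le))
      simp only [pt_im] at h0
      by_contra hcon
      push Not at hcon
      have : C * y / (1 + ‖pt 0 y‖) ^ 4 < 0 := div_neg_of_neg_of_pos hcon (by positivity)
      linarith
    have hle : ∀ x : ℝ, ‖G (pt x y)‖ ≤ C * y / (1 + |x|) ^ 4 := by
      intro x
      refine (hb (pt x y) (by simpa using hy0.le)).trans ?_
      simp only [pt_im]
      apply div_le_div_of_nonneg_left hCy (by positivity)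
      have := norm_pt_ge_re x y
      gcongr
    have h1 : Tendsto (fun x : ℝ => G (pt x y)) atTop (𝓝 0) :=
      squeeze_zero_norm hle hC
    have h2 : Tendsto (fun x : ℝ => G (pt x y)) atBot (𝓝 0) :=
      squeeze_zero_norm hle hC'
    have h3 : ∀ x : ℝ, HasDerivAt (fun t : ℝ => G (pt t y)) (GX (pt x y)) x := by
      intro x
      exact hG (pt x y) (by simpa [HP] using hy0)
    have := integral_of_hasDerivAt_of_tendsto h3 hy h2 h1
    simpa using this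
  rw [integral_congr_ae key]; simp

/-- integral of the `y`-derivative vanishes -/
theorem integral_GY {G GY : ℂ → ℂ} {C : ℝ}
    (hG : ∀ ξ ∈ HP, HasDerivAt (fun t : ℝ => G (pt ξ.re t)) (GY ξ) ξ.im)
    (hb : ∀ ξ : ℂ, 0 ≤ ξ.im → ‖G ξ‖ ≤ C * ξ.im / (1 + ‖ξ‖) ^ 4)
    (hi : IntegrableOn GY HP) : ∫ ξ in HP, GY ξ = 0 := by
  rw [integral_HP_eq]
  rw [integrable_HP_iff] at hi
  have hprod : (volume : Measure (ℝ × ℝ)).restrict (univ ×ˢ Ioi 0) =
      ((volume : Measure ℝ).restrict univ).prod ((volume : Measure ℝ).restrict (Ioi 0)) := by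
    rw [Measure.prod_restrict]; rfl
  have hi' : Integrable (fun p : ℝ × ℝ => GY (pt p.1 p.2))
      (((volume : Measure ℝ).restrict univ).prod ((volume : Measure ℝ).restrict (Ioi 0))) := by
    rw [← hprod]; exact hi
  rw [hprod, integral_prod _ hi']
  have hC0 : 0 ≤ C := by
    have h0 := (norm_nonneg _).trans (hb (pt 0 1) (by simp))
    simp only [pt_im, mul_one] at h0
    by_contra hcon
    push Not at hcon
    have : C / (1 + ‖pt 0 1‖) ^ 4 < 0 := div_neg_of_neg_of_pos hcon (by positivity)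
    linarith
  have key : (fun x : ℝ => ∫ y, GY (pt x y) ∂((volume : Measure ℝ).restrict (Ioi 0)))
      =ᵐ[(volume : Measure ℝ).restrict univ] fun _ => (0 : ℂ) := by
    filter_upwards [hi'.prod_right_ae] with x hx
    have hle : ∀ y : ℝ, 0 ≤ y → ‖G (pt x y)‖ ≤ C * y / (1 + |y|) ^ 4 := by
      intro y hy
      refine (hb (pt x y) (by simpa using hy)).trans ?_
      simp only [pt_im]
      apply div_le_div_of_nonneg_left (by positivity) (by positivity)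
      have := norm_pt_ge_im x y
      gcongr
    have hle2 : ∀ y : ℝ, 0 ≤ y → ‖G (pt x y)‖ ≤ C / (1 + |y|) ^ 3 := by
      intro y hy
      refine (hle y hy).trans ?_
      rw [div_le_div_iff₀ (by positivity) (by positivity)]
      have h1 : y ≤ 1 + |y| := by linarith [le_abs_self y]
      have h2 : 0 ≤ C * (1 + |y|) ^ 3 := by positivity
      nlinarith [mul_le_mul_of_nonneg_left h1 h2]
    have hG0 : G (pt x 0) = 0 := by
      have := hle 0 le_rfl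
      simpa using this
    have h1 : Tendsto (fun y : ℝ => G (pt x y)) atTop (𝓝 0) := by
      apply squeeze_zero_norm' (a := fun y : ℝ => C / (1 + |y|) ^ 3)
      · filter_upwards [eventually_ge_atTop (0:ℝ)] with y hy using hle2 y hy
      · apply Tendsto.div_atTop tendsto_const_nhds
        apply (tendsto_pow_atTop (by norm_num)).comp
        exact tendsto_atTop_add_const_left _ _ tendsto_abs_atTop_atTop
    have hcont : ContinuousWithinAt (fun y : ℝ => G (pt x y)) (Ici 0) 0 := by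
      rw [ContinuousWithinAt, hG0]
      apply squeeze_zero_norm' (a := fun y : ℝ => C * y / (1 + |y|) ^ 4)
      · filter_upwards [self_mem_nhdsWithin] with y hy using hle y hy
      · have : Tendsto (fun y : ℝ => C * y / (1 + |y|) ^ 4) (𝓝 0)
            (𝓝 (C * 0 / (1 + |(0:ℝ)|) ^ 4)) := by
          apply ContinuousAt.tendsto
          have : (1 + |(0:ℝ)|) ^ 4 ≠ 0 := by simp
          fun_prop (disch := exact this)
        simpa using this.mono_left nhdsWithin_le_nhds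
    have h3 : ∀ y ∈ Ioi (0:ℝ), HasDerivAt (fun t : ℝ => G (pt x t)) (GY (pt x y)) y := by
      intro y hy
      exact hG (pt x y) (by simpa [HP] using hy)
    have := integral_Ioi_of_hasDerivAt_of_tendsto hcont h3 hx h1
    rw [this, hG0]; simp
  rw [integral_congr_ae key]; simp

/-- The `∂̄`-integral vanishes. -/
theorem integral_dbar_eq_zero {G GX GY : ℂ → ℂ} {C : ℝ}
    (hGX : ∀ ξ ∈ HP, HasDerivAt (fun t : ℝ => G (pt t ξ.im)) (GX ξ) ξ.re)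
    (hGY : ∀ ξ ∈ HP, HasDerivAt (fun t : ℝ => G (pt ξ.re t)) (GY ξ) ξ.im)
    (hb : ∀ ξ : ℂ, 0 ≤ ξ.im → ‖G ξ‖ ≤ C * ξ.im / (1 + ‖ξ‖) ^ 4)
    (hiX : IntegrableOn GX HP) (hiY : IntegrableOn GY HP) :
    ∫ ξ in HP, (GX ξ + I * GY ξ) = 0 := by
  rw [integral_add hiX (hiY.const_mul I), integral_const_mul, integral_GX hGX hb hiX,
    integral_GY hGY hb hiY]
  simp

end Crest.Agent.R101
end

-- ▼ part R101/NullZ
section

/-!
# Null identities for a nonvanishing holomorphic function `z` on the upper half plane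

`l = Y z'/z`, `e = Y (z''/z' - 2 z'/z)`.
-/

set_option autoImplicit false

open MeasureTheory Set Filter Complex
open scoped Topology ComplexConjugate

namespace Crest.Agent.R101

/-- The data on the upper half plane. -/
structure ZData (z : ℂ → ℂ) (C : ℝ) : Prop where
  diff : DifferentiableOn ℂ z HP
  ne : ∀ ξ ∈ HP, z ξ ≠ 0
  dne : ∀ ξ ∈ HP, deriv z ξ ≠ 0
  bd : ∀ ξ ∈ HP, ‖z ξ‖ ≤ C / (1 + ‖ξ‖)
  b1 : ∀ ξ ∈ HP, ‖(ξ.im : ℂ) * (deriv (deriv z) ξ / deriv z ξ) - I‖ ≤ 2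
  b2 : ∀ ξ ∈ HP, ‖(ξ.im : ℂ) * (deriv (deriv z) ξ / deriv z ξ - 2 * (deriv z ξ / z ξ)) - I‖ ≤ 2

/-- `l = Y z'/z` -/
noncomputable def lz (z : ℂ → ℂ) (ξ : ℂ) : ℂ := (ξ.im : ℂ) * (deriv z ξ / z ξ)

/-- `e = Y (z''/z' - 2 z'/z)` -/
noncomputable def ez (z : ℂ → ℂ) (ξ : ℂ) : ℂ :=
  (ξ.im : ℂ) * (deriv (deriv z) ξ / deriv z ξ - 2 * (deriv z ξ / z ξ))

/-- the null density of the monomial `l^a * conj l ^ b * e ^ c`:
`(i/2)(F + l F_l + l̄ F_l̄ + e F_e) + 2 l̄ F + (l̄^2 + l̄ ē) F_l̄` -/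
noncomputable def nullD (a b c : ℕ) (l e : ℂ) : ℂ :=
  I / 2 * (1 + a + b + c) * (l ^ a * conj l ^ b * e ^ c)
    + (2 + b) * (l ^ a * conj l ^ (b + 1) * e ^ c)
    + b * (l ^ a * conj l ^ b * e ^ c * conj e)

variable {z : ℂ → ℂ} {C : ℝ}

theorem ZData.lz_le (h : ZData z C) {ξ : ℂ} (hξ : ξ ∈ HP) : ‖lz z ξ‖ ≤ 2 := by
  have h1 := h.b1 ξ hξ
  have h2 := h.b2 ξ hξ
  have e1 : 2 * lz z ξ = ((ξ.im : ℂ) * (deriv (deriv z) ξ / deriv z ξ) - I)
      - ((ξ.im : ℂ) * (deriv (deriv z) ξ / deriv z ξ - 2 * (deriv z ξ / z ξ)) - I) := by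
    rw [lz]; ring
  have e2 : ‖2 * lz z ξ‖ ≤ 2 + 2 := by
    rw [e1]; exact (norm_sub_le _ _).trans (add_le_add h1 h2)
  rw [norm_mul] at e2
  simp only [Complex.norm_ofNat] at e2
  linarith

theorem ZData.ez_sub (h : ZData z C) {ξ : ℂ} (hξ : ξ ∈ HP) : ‖ez z ξ - I‖ ≤ 2 := h.b2 ξ hξ

theorem ZData.ez_sub' (h : ZData z C) {ξ : ℂ} (hξ : ξ ∈ HP) :
    ‖ez z ξ + 2 * lz z ξ - I‖ ≤ 2 := by
  have h1 := h.b1 ξ hξ
  have e1 : ez z ξ + 2 * lz z ξ - I = (ξ.im : ℂ) * (deriv (deriv z) ξ / deriv z ξ) - I := by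
    rw [ez, lz]; ring
  rw [e1]; exact h1

theorem ZData.ez_le (h : ZData z C) {ξ : ℂ} (hξ : ξ ∈ HP) : ‖ez z ξ‖ ≤ 3 := by
  have h1 := h.ez_sub hξ
  calc ‖ez z ξ‖ = ‖(ez z ξ - I) + I‖ := by ring_nf
    _ ≤ ‖ez z ξ - I‖ + ‖I‖ := norm_add_le _ _
    _ ≤ 2 + 1 := by gcongr; simp
    _ = 3 := by norm_num


theorem integrableOn_HP_of_bound {E : Type*} [NormedAddCommGroup E] {f : ℂ → E} {K : ℝ}
    (hf : ContinuousOn f HP)
    (hb : ∀ ξ ∈ HP, ‖f ξ‖ ≤ K / (1 + ‖ξ‖) ^ 4) : IntegrableOn f HP := by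
  have h1 : Integrable (fun ξ : ℂ => K * (1 + ‖ξ‖) ^ (-(4:ℝ))) volume := by
    apply Integrable.const_mul
    apply integrable_one_add_norm
    rw [Complex.finrank_real_complex]; norm_num
  apply Integrable.mono' h1.integrableOn
  · exact hf.aestronglyMeasurable measurableSet_HP
  · filter_upwards [ae_restrict_mem measurableSet_HP] with ξ hξ
    refine (hb ξ hξ).trans (le_of_eq ?_)
    rw [Real.rpow_neg (by positivity), div_eq_mul_inv]
    congr 2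
    exact_mod_cast (Real.rpow_natCast (1 + ‖ξ‖) 4).symm

/-- `q = z''/z' - 2 z'/z` -/
noncomputable def qz (z : ℂ → ℂ) (ξ : ℂ) : ℂ :=
  deriv (deriv z) ξ / deriv z ξ - 2 * (deriv z ξ / z ξ)

/-- holomorphic factor -/
noncomputable def Af (z : ℂ → ℂ) (a c : ℕ) (ξ : ℂ) : ℂ :=
  z ξ ^ 2 * (deriv z ξ / z ξ) ^ a * qz z ξ ^ c

/-- derivative of the holomorphic factor -/
noncomputable def dAf (z : ℂ → ℂ) (a c : ℕ) (ξ : ℂ) : ℂ :=
  z ξ ^ 2 * (deriv z ξ / z ξ) ^ a *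
    ((2 * (deriv z ξ / z ξ) + a * (qz z ξ + deriv z ξ / z ξ)) * qz z ξ ^ c
      + c * qz z ξ ^ (c - 1) * deriv (qz z) ξ)

theorem ZData.analyticAt (h : ZData z C) {ξ : ℂ} (hξ : ξ ∈ HP) : AnalyticAt ℂ z ξ :=
  h.diff.analyticAt (isOpen_HP.mem_nhds hξ)

theorem ZData.hasDerivAt_z (h : ZData z C) {ξ : ℂ} (hξ : ξ ∈ HP) :
    HasDerivAt z (deriv z ξ) ξ := (h.analyticAt hξ).differentiableAt.hasDerivAt

theorem ZData.hasDerivAt_dz (h : ZData z C) {ξ : ℂ} (hξ : ξ ∈ HP) :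
    HasDerivAt (deriv z) (deriv (deriv z) ξ) ξ :=
  (h.analyticAt hξ).deriv.differentiableAt.hasDerivAt

theorem ZData.analyticAt_qz (h : ZData z C) {ξ : ℂ} (hξ : ξ ∈ HP) : AnalyticAt ℂ (qz z) ξ := by
  have h1 := h.analyticAt hξ
  have h2 := h1.deriv
  have h3 := h2.deriv
  exact (h3.div h2 (h.dne ξ hξ)).sub (analyticAt_const.mul (h2.div h1 (h.ne ξ hξ)))

theorem ZData.hasDerivAt_qz (h : ZData z C) {ξ : ℂ} (hξ : ξ ∈ HP) :
    HasDerivAt (qz z) (deriv (qz z) ξ) ξ := (h.analyticAt_qz hξ).differentiableAt.hasDerivAt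

theorem ez_eq (z : ℂ → ℂ) (ξ : ℂ) : ez z ξ = (ξ.im : ℂ) * qz z ξ := rfl

theorem norm_imc {ξ : ℂ} (hξ : ξ ∈ HP) : ‖(ξ.im : ℂ)‖ = ξ.im := by
  rw [Complex.norm_real, Real.norm_eq_abs, abs_of_pos hξ]

theorem ZData.qz_le (h : ZData z C) {ξ : ℂ} (hξ : ξ ∈ HP) : ‖qz z ξ‖ ≤ 3 / ξ.im := by
  have h1 := h.ez_le hξ
  rw [ez_eq, norm_mul, norm_imc hξ] at h1
  rw [le_div_iff₀ hξ, mul_comm]; exact h1

theorem ZData.dqz_le (h : ZData z C) {ξ : ℂ} (hξ : ξ ∈ HP) :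
    ‖(ξ.im : ℂ) * ((ξ.im : ℂ) * deriv (qz z) ξ)‖ ≤ 12 := by
  have hY : 0 < ξ.im := hξ
  have hr : 0 < ξ.im / 2 := by positivity
  have hball : ∀ w ∈ Metric.closedBall ξ (ξ.im / 2), ξ.im / 2 ≤ w.im := by
    intro w hw
    rw [Metric.mem_closedBall, dist_eq_norm] at hw
    have h1 := (Complex.abs_im_le_norm (w - ξ)).trans hw
    rw [Complex.sub_im] at h1
    have h2 := (abs_le.1 h1).1
    linarith
  have hmem : ∀ w ∈ Metric.closedBall ξ (ξ.im / 2), w ∈ HP := by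
    intro w hw
    have := hball w hw
    exact lt_of_lt_of_le hr this
  have hdiff : DiffContOnCl ℂ (qz z) (Metric.ball ξ (ξ.im / 2)) := by
    apply DifferentiableOn.diffContOnCl
    rw [closure_ball _ (ne_of_gt hr)]
    intro w hw
    exact (h.analyticAt_qz (hmem w hw)).differentiableAt.differentiableWithinAt
  have h1 : ‖deriv (qz z) ξ‖ ≤ (6 / ξ.im) / (ξ.im / 2) := by
    apply Complex.norm_deriv_le_of_forall_mem_sphere_norm_le hr hdiff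
    intro w hw
    have hw' := Metric.sphere_subset_closedBall hw
    have h2 := h.qz_le (hmem w hw')
    have h3 := hball w hw'
    refine h2.trans ?_
    rw [div_le_div_iff₀ (lt_of_lt_of_le hr h3) hY]
    linarith
  rw [norm_mul, norm_mul, norm_imc hξ]
  calc ξ.im * (ξ.im * ‖deriv (qz z) ξ‖) ≤ ξ.im * (ξ.im * ((6 / ξ.im) / (ξ.im / 2))) := by gcongr
    _ = 12 := by field_simp; norm_num

theorem ZData.hasDerivAt_Af (h : ZData z C) (a c : ℕ) {ξ : ℂ} (hξ : ξ ∈ HP) :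
    HasDerivAt (Af z a c) (dAf z a c ξ) ξ := by
  have h1 := h.hasDerivAt_z hξ
  have h2 := h.hasDerivAt_dz hξ
  have h5 := h.hasDerivAt_qz hξ
  have hz := h.ne ξ hξ
  have hdz := h.dne ξ hξ
  have h3 := ((h1.pow 2).mul ((h2.div h1 hz).pow a)).mul (h5.pow c)
  refine h3.congr_deriv ?_
  have hq : deriv (deriv z) ξ * z ξ - deriv z ξ * deriv z ξ
      = deriv z ξ * z ξ * (qz z ξ + deriv z ξ / z ξ) := by
    rw [qz]; field_simp; ring
  simp only [dAf, Pi.div_apply, Pi.pow_apply, Pi.mul_apply, hq]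
  generalize deriv (qz z) ξ = dq
  generalize qz z ξ = q
  rcases Nat.eq_zero_or_pos a with rfl | ha
  · simp only [pow_zero, Nat.cast_zero, zero_mul, mul_zero, add_zero, mul_one, Nat.cast_ofNat]
    field_simp
    ring
  · obtain ⟨k, rfl⟩ : ∃ k, a = k + 1 := ⟨a - 1, by omega⟩
    simp only [Nat.add_sub_cancel, Nat.cast_add, Nat.cast_one, pow_succ (deriv z ξ / z ξ) k,
      Nat.cast_ofNat]
    generalize (deriv z ξ / z ξ) ^ k = Q
    field_simp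
    ring

theorem ZData.continuousOn_Af (h : ZData z C) (a c : ℕ) : ContinuousOn (Af z a c) HP :=
  fun _ hξ => (h.hasDerivAt_Af a c hξ).continuousAt.continuousWithinAt

theorem ZData.continuousOn_z (h : ZData z C) : ContinuousOn z HP :=
  fun _ hξ => (h.hasDerivAt_z hξ).continuousAt.continuousWithinAt

theorem ZData.continuousOn_dz (h : ZData z C) : ContinuousOn (deriv z) HP :=
  fun _ hξ => (h.hasDerivAt_dz hξ).continuousAt.continuousWithinAt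

theorem ZData.continuousOn_qz (h : ZData z C) : ContinuousOn (qz z) HP :=
  fun _ hξ => (h.analyticAt_qz hξ).continuousAt.continuousWithinAt

theorem ZData.continuousOn_dqz (h : ZData z C) : ContinuousOn (deriv (qz z)) HP :=
  fun _ hξ => (h.analyticAt_qz hξ).deriv.continuousAt.continuousWithinAt

theorem ZData.continuousOn_q (h : ZData z C) :
    ContinuousOn (fun ξ => deriv z ξ / z ξ) HP :=
  h.continuousOn_dz.div h.continuousOn_z h.ne

theorem continuousOn_imc : ContinuousOn (fun ξ : ℂ => (ξ.im : ℂ)) HP := by fun_prop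

theorem ZData.continuousOn_lz (h : ZData z C) : ContinuousOn (lz z) HP :=
  continuousOn_imc.mul h.continuousOn_q


theorem ZData.continuousOn_dAf (h : ZData z C) (a c : ℕ) : ContinuousOn (dAf z a c) HP :=
  ((h.continuousOn_z.pow 2).mul (h.continuousOn_q.pow a)).mul
    ((((continuousOn_const.mul h.continuousOn_q).add
      (continuousOn_const.mul (h.continuousOn_qz.add h.continuousOn_q))).mul
        (h.continuousOn_qz.pow c)).add
      ((continuousOn_const.mul (h.continuousOn_qz.pow _)).mul h.continuousOn_dqz))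

/-- derivative along horizontal lines -/
theorem hasDerivAt_horiz {f : ℂ → ℂ} {f' ξ : ℂ} (hf : HasDerivAt f f' ξ) :
    HasDerivAt (fun t : ℝ => f (pt t ξ.im)) f' ξ.re := by
  have h1 : HasDerivAt (fun t : ℝ => pt t ξ.im) 1 ξ.re := by
    have : (fun t : ℝ => pt t ξ.im) = fun t : ℝ => (t : ℂ) + ξ.im * I := by
      funext t; rw [pt_eq]
    rw [this]
    exact (Complex.ofRealCLM.hasDerivAt (x := ξ.re)).add_const _
  have h2 : pt ξ.re ξ.im = ξ := by apply Complex.ext <;> simp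
  have := HasDerivAt.comp_of_eq (h₂ := f) (h := fun t : ℝ => pt t ξ.im) ξ.re hf h1 h2
  rw [mul_one] at this
  exact this

/-- derivative along vertical lines -/
theorem hasDerivAt_vert {f : ℂ → ℂ} {f' ξ : ℂ} (hf : HasDerivAt f f' ξ) :
    HasDerivAt (fun t : ℝ => f (pt ξ.re t)) (I * f') ξ.im := by
  have h1 : HasDerivAt (fun t : ℝ => pt ξ.re t) I ξ.im := by
    have : (fun t : ℝ => pt ξ.re t) = fun t : ℝ => (ξ.re : ℂ) + (t : ℂ) * I := by
      funext t; rw [pt_eq]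
    rw [this]
    have h0 := (Complex.ofRealCLM.hasDerivAt (x := ξ.im)).mul_const I
    simpa using h0.const_add (ξ.re : ℂ)
  have h2 : pt ξ.re ξ.im = ξ := by apply Complex.ext <;> simp
  have := HasDerivAt.comp_of_eq (h₂ := f) (h := fun t : ℝ => pt ξ.re t) ξ.im hf h1 h2
  rw [mul_comm] at this
  exact this

theorem hasDerivAt_conj_real {f : ℝ → ℂ} {f' : ℂ} {t : ℝ} (hf : HasDerivAt f f' t) :
    HasDerivAt (fun s => conj (f s)) (conj f') t := by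
  have := (Complex.conjCLE.toContinuousLinearMap.hasFDerivAt (x := f t)).comp_hasDerivAt t hf
  exact this

/-- the primitive -/
noncomputable def Gf (z : ℂ → ℂ) (a b c : ℕ) (ξ : ℂ) : ℂ :=
  (ξ.im : ℂ) ^ (1 + a + b + c) * Af z a c ξ * conj (Af z b 0 ξ)

noncomputable def GfX (z : ℂ → ℂ) (a b c : ℕ) (ξ : ℂ) : ℂ :=
  (ξ.im : ℂ) ^ (1 + a + b + c) *
    (dAf z a c ξ * conj (Af z b 0 ξ) + Af z a c ξ * conj (dAf z b 0 ξ))

noncomputable def GfY (z : ℂ → ℂ) (a b c : ℕ) (ξ : ℂ) : ℂ :=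
  (1 + a + b + c) * (ξ.im : ℂ) ^ (a + b + c) * Af z a c ξ * conj (Af z b 0 ξ)
  + (ξ.im : ℂ) ^ (1 + a + b + c) *
    (I * dAf z a c ξ * conj (Af z b 0 ξ) - I * Af z a c ξ * conj (dAf z b 0 ξ))

theorem ZData.hasDerivAt_GfX (h : ZData z C) (a b c : ℕ) {ξ : ℂ} (hξ : ξ ∈ HP) :
    HasDerivAt (fun t : ℝ => Gf z a b c (pt t ξ.im)) (GfX z a b c ξ) ξ.re := by
  have h1 := hasDerivAt_horiz (h.hasDerivAt_Af a c hξ)
  have h2 := hasDerivAt_conj_real (hasDerivAt_horiz (h.hasDerivAt_Af b 0 hξ))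
  have h3 := (h1.mul h2).const_mul ((ξ.im : ℂ) ^ (1 + a + b + c))
  have e : (fun t : ℝ => Gf z a b c (pt t ξ.im)) = fun t : ℝ => (ξ.im : ℂ) ^ (1 + a + b + c) *
      (((fun t : ℝ => Af z a c (pt t ξ.im)) * fun s : ℝ => conj (Af z b 0 (pt s ξ.im))) t) := by
    funext t; simp only [Gf, pt_im, Pi.mul_apply]; ring
  rw [e]
  refine h3.congr_deriv ?_
  have h4 : pt ξ.re ξ.im = ξ := by apply Complex.ext <;> simp
  simp only [GfX, h4]

theorem ZData.hasDerivAt_GfY (h : ZData z C) (a b c : ℕ) {ξ : ℂ} (hξ : ξ ∈ HP) :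
    HasDerivAt (fun t : ℝ => Gf z a b c (pt ξ.re t)) (GfY z a b c ξ) ξ.im := by
  have h1 := hasDerivAt_vert (h.hasDerivAt_Af a c hξ)
  have h2 := hasDerivAt_conj_real (hasDerivAt_vert (h.hasDerivAt_Af b 0 hξ))
  have h0 : HasDerivAt (fun t : ℝ => ((t : ℂ)) ^ (1 + a + b + c))
      ((1 + a + b + c) * (ξ.im : ℂ) ^ (a + b + c)) ξ.im := by
    have h00 := (Complex.ofRealCLM.hasDerivAt (x := ξ.im)).pow (1 + a + b + c)
    have e1 : 1 + a + b + c - 1 = a + b + c := by omega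
    refine h00.congr_deriv ?_
    simp [e1]
  have h3 := h0.mul (h1.mul h2)
  have e : (fun t : ℝ => Gf z a b c (pt ξ.re t)) = (fun t : ℝ => (t : ℂ) ^ (1 + a + b + c)) *
      ((fun t : ℝ => Af z a c (pt ξ.re t)) * fun s : ℝ => conj (Af z b 0 (pt ξ.re s))) := by
    funext t; simp only [Gf, pt_im, Pi.mul_apply]; ring
  rw [e]
  refine h3.congr_deriv ?_
  have h4 : pt ξ.re ξ.im = ξ := by apply Complex.ext <;> simp
  simp only [GfY, h4, Pi.mul_apply, map_mul, Complex.conj_I]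
  ring

theorem continuousOn_conj_comp {f : ℂ → ℂ} (hf : ContinuousOn f HP) :
    ContinuousOn (fun ξ => conj (f ξ)) HP := Complex.continuous_conj.comp_continuousOn hf

theorem ZData.continuousOn_GfX (h : ZData z C) (a b c : ℕ) : ContinuousOn (GfX z a b c) HP := by
  have h1 := h.continuousOn_Af a c
  have h2' := continuousOn_conj_comp (h.continuousOn_Af b 0)
  have h3 := h.continuousOn_dAf a c
  have h4' := continuousOn_conj_comp (h.continuousOn_dAf b 0)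
  exact (continuousOn_imc.pow _).mul ((h3.mul h2').add (h1.mul h4'))

theorem ZData.continuousOn_GfY (h : ZData z C) (a b c : ℕ) : ContinuousOn (GfY z a b c) HP := by
  have h1 := h.continuousOn_Af a c
  have h2' := continuousOn_conj_comp (h.continuousOn_Af b 0)
  have h3 := h.continuousOn_dAf a c
  have h4' := continuousOn_conj_comp (h.continuousOn_dAf b 0)
  exact (((continuousOn_const.mul (continuousOn_imc.pow _)).mul h1).mul h2').add
    ((continuousOn_imc.pow _).mul (((continuousOn_const.mul h3).mul h2').sub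
      ((continuousOn_const.mul h1).mul h4')))

/-- `Y^(a+c) Af = z^2 l^a e^c` -/
theorem pow_mul_Af (z : ℂ → ℂ) (a c : ℕ) (ξ : ℂ) :
    (ξ.im : ℂ) ^ (a + c) * Af z a c ξ = z ξ ^ 2 * lz z ξ ^ a * ez z ξ ^ c := by
  rw [Af, lz, ez_eq, mul_pow, mul_pow]; ring

theorem pow_mul_Af0 (z : ℂ → ℂ) (b : ℕ) (ξ : ℂ) :
    (ξ.im : ℂ) ^ b * Af z b 0 ξ = z ξ ^ 2 * lz z ξ ^ b := by
  simpa using pow_mul_Af z b 0 ξ

/-- `Y^(b+1) * dAf_b = z^2 l^b ((2+b) l + b e)` -/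
theorem im_mul_dAf0 (z : ℂ → ℂ) (b : ℕ) (ξ : ℂ) :
    (ξ.im : ℂ) ^ (b + 1) * dAf z b 0 ξ =
      z ξ ^ 2 * lz z ξ ^ b * ((2 + b) * lz z ξ + b * ez z ξ) := by
  rw [dAf, lz, ez_eq, mul_pow]
  simp only [pow_zero, Nat.cast_zero, zero_mul, mul_one, add_zero]
  ring

theorem im_mul_dAf (z : ℂ → ℂ) (a c : ℕ) (ξ : ℂ) :
    (ξ.im : ℂ) ^ (a + c + 1) * dAf z a c ξ =
      z ξ ^ 2 * lz z ξ ^ a * (((2 + a) * lz z ξ + a * ez z ξ) * ez z ξ ^ c
        + c * ez z ξ ^ (c - 1) * ((ξ.im : ℂ) * ((ξ.im : ℂ) * deriv (qz z) ξ))) := by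
  rcases Nat.eq_zero_or_pos c with rfl | hc
  · simp only [add_zero, pow_zero, mul_one, Nat.cast_zero, zero_mul]
    exact im_mul_dAf0 z a ξ
  · obtain ⟨k, rfl⟩ : ∃ k, c = k + 1 := ⟨c - 1, by omega⟩
    rw [dAf, lz, ez_eq]
    simp only [Nat.add_sub_cancel, mul_pow]
    ring

theorem ZData.norm_Af (h : ZData z C) (a c : ℕ) {ξ : ℂ} (hξ : ξ ∈ HP) :
    ‖(ξ.im : ℂ) ^ (a + c) * Af z a c ξ‖ ≤ 2 ^ a * 3 ^ c * ‖z ξ‖ ^ 2 := by
  rw [pow_mul_Af, norm_mul, norm_mul, norm_pow, norm_pow, norm_pow]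
  have h1 := h.lz_le hξ
  have h2 := h.ez_le hξ
  calc ‖z ξ‖ ^ 2 * ‖lz z ξ‖ ^ a * ‖ez z ξ‖ ^ c ≤ ‖z ξ‖ ^ 2 * 2 ^ a * 3 ^ c := by gcongr
    _ = _ := by ring

theorem ZData.norm_Af0 (h : ZData z C) (b : ℕ) {ξ : ℂ} (hξ : ξ ∈ HP) :
    ‖(ξ.im : ℂ) ^ b * Af z b 0 ξ‖ ≤ 2 ^ b * ‖z ξ‖ ^ 2 := by
  simpa using h.norm_Af b 0 hξ

/-- an explicit bound for the derivative factor -/
noncomputable def Kd (a c : ℕ) : ℝ := 2 ^ a * ((4 + 5 * a) * 3 ^ c + c * 3 ^ (c - 1) * 12)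

theorem Kd_nonneg (a c : ℕ) : 0 ≤ Kd a c := by unfold Kd; positivity

theorem ZData.norm_dAf (h : ZData z C) (a c : ℕ) {ξ : ℂ} (hξ : ξ ∈ HP) :
    ‖(ξ.im : ℂ) ^ (a + c + 1) * dAf z a c ξ‖ ≤ Kd a c * ‖z ξ‖ ^ 2 := by
  rw [im_mul_dAf, norm_mul, norm_mul, norm_pow, norm_pow]
  have h2 := h.lz_le hξ
  have h3 := h.ez_le hξ
  have h6 := h.dqz_le hξ
  have h4 : ‖(2 + (a:ℂ)) * lz z ξ + a * ez z ξ‖ ≤ 4 + 5 * a := by
    calc ‖(2 + (a:ℂ)) * lz z ξ + a * ez z ξ‖ ≤ ‖(2 + (a:ℂ)) * lz z ξ‖ + ‖a * ez z ξ‖ :=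
          norm_add_le _ _
      _ ≤ (2 + a) * 2 + a * 3 := by
          rw [norm_mul, norm_mul]
          have : ‖(2 + (a:ℂ))‖ ≤ 2 + a := by
            refine (norm_add_le _ _).trans ?_
            simp
          have h5 : ‖(a:ℂ)‖ = a := by simp
          rw [h5]
          gcongr
      _ = 4 + 5 * a := by ring
  have h7 : ‖((2 + a) * lz z ξ + a * ez z ξ) * ez z ξ ^ c
        + c * ez z ξ ^ (c - 1) * ((ξ.im : ℂ) * ((ξ.im : ℂ) * deriv (qz z) ξ))‖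
      ≤ (4 + 5 * a) * 3 ^ c + c * 3 ^ (c - 1) * 12 := by
    refine (norm_add_le _ _).trans ?_
    rw [norm_mul, norm_pow, norm_mul, norm_mul, norm_pow]
    have h5 : ‖(c:ℂ)‖ = c := by simp
    rw [h5]
    gcongr
  calc ‖z ξ‖ ^ 2 * ‖lz z ξ‖ ^ a * ‖((2 + a) * lz z ξ + a * ez z ξ) * ez z ξ ^ c
        + c * ez z ξ ^ (c - 1) * ((ξ.im : ℂ) * ((ξ.im : ℂ) * deriv (qz z) ξ))‖
      ≤ ‖z ξ‖ ^ 2 * 2 ^ a * ((4 + 5 * a) * 3 ^ c + c * 3 ^ (c - 1) * 12) := by gcongr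
    _ = _ := by unfold Kd; ring

theorem ZData.norm_dAf0 (h : ZData z C) (b : ℕ) {ξ : ℂ} (hξ : ξ ∈ HP) :
    ‖(ξ.im : ℂ) ^ (b + 1) * dAf z b 0 ξ‖ ≤ Kd b 0 * ‖z ξ‖ ^ 2 := by
  simpa using h.norm_dAf b 0 hξ

theorem ZData.z4_le (h : ZData z C) {ξ : ℂ} (hξ : ξ ∈ HP) :
    ‖z ξ‖ ^ 2 * ‖z ξ‖ ^ 2 ≤ C ^ 4 / (1 + ‖ξ‖) ^ 4 := by
  have h1 := h.bd ξ hξ
  calc ‖z ξ‖ ^ 2 * ‖z ξ‖ ^ 2 = ‖z ξ‖ ^ 4 := by ring
    _ ≤ (C / (1 + ‖ξ‖)) ^ 4 := by gcongr
    _ = _ := by rw [div_pow]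

theorem ZData.norm_Gf (h : ZData z C) (a b c : ℕ) {ξ : ℂ} (hξ : 0 ≤ ξ.im) :
    ‖Gf z a b c ξ‖ ≤ (2 ^ a * 3 ^ c * 2 ^ b * C ^ 4) * ξ.im / (1 + ‖ξ‖) ^ 4 := by
  rcases hξ.eq_or_lt with h0 | hpos
  · have : Gf z a b c ξ = 0 := by
      rw [Gf, ← h0]
      simp
    rw [this, ← h0]; simp
  · have hmem : ξ ∈ HP := hpos
    have e : Gf z a b c ξ = (ξ.im : ℂ) * ((ξ.im : ℂ) ^ (a + c) * Af z a c ξ) *
        conj ((ξ.im : ℂ) ^ b * Af z b 0 ξ) := by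
      rw [Gf, map_mul, map_pow, Complex.conj_ofReal]; ring
    rw [e, norm_mul, norm_mul, norm_imc hmem, RCLike.norm_conj]
    have h1 := h.norm_Af a c hmem
    have h2 := h.norm_Af0 b hmem
    have h3 := h.z4_le hmem
    calc ξ.im * ‖(ξ.im : ℂ) ^ (a + c) * Af z a c ξ‖ * ‖(ξ.im : ℂ) ^ b * Af z b 0 ξ‖
        ≤ ξ.im * (2 ^ a * 3 ^ c * ‖z ξ‖ ^ 2) * (2 ^ b * ‖z ξ‖ ^ 2) := by gcongr
      _ = 2 ^ a * 3 ^ c * 2 ^ b * ξ.im * (‖z ξ‖ ^ 2 * ‖z ξ‖ ^ 2) := by ring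
      _ ≤ 2 ^ a * 3 ^ c * 2 ^ b * ξ.im * (C ^ 4 / (1 + ‖ξ‖) ^ 4) := by gcongr
      _ = _ := by ring

theorem ZData.norm_part (h : ZData z C) (a b c : ℕ) {ξ : ℂ} (hξ : ξ ∈ HP) :
    ‖(ξ.im : ℂ) ^ (1 + a + b + c) * (dAf z a c ξ * conj (Af z b 0 ξ))‖
      ≤ (Kd a c * 2 ^ b * C ^ 4) / (1 + ‖ξ‖) ^ 4 := by
  have e : (ξ.im : ℂ) ^ (1 + a + b + c) * (dAf z a c ξ * conj (Af z b 0 ξ))
      = ((ξ.im : ℂ) ^ (a + c + 1) * dAf z a c ξ) * conj ((ξ.im : ℂ) ^ b * Af z b 0 ξ) := by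
    rw [map_mul, map_pow, Complex.conj_ofReal]; ring
  rw [e, norm_mul, RCLike.norm_conj]
  have h1 := h.norm_dAf a c hξ
  have h2 := h.norm_Af0 b hξ
  have h3 := h.z4_le hξ
  have h4 := Kd_nonneg a c
  calc ‖(ξ.im : ℂ) ^ (a + c + 1) * dAf z a c ξ‖ * ‖(ξ.im : ℂ) ^ b * Af z b 0 ξ‖
      ≤ (Kd a c * ‖z ξ‖ ^ 2) * (2 ^ b * ‖z ξ‖ ^ 2) := by gcongr
    _ = Kd a c * 2 ^ b * (‖z ξ‖ ^ 2 * ‖z ξ‖ ^ 2) := by ring
    _ ≤ Kd a c * 2 ^ b * (C ^ 4 / (1 + ‖ξ‖) ^ 4) := by gcongr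
    _ = _ := by ring

theorem ZData.norm_part' (h : ZData z C) (a b c : ℕ) {ξ : ℂ} (hξ : ξ ∈ HP) :
    ‖(ξ.im : ℂ) ^ (1 + a + b + c) * (Af z a c ξ * conj (dAf z b 0 ξ))‖
      ≤ (2 ^ a * 3 ^ c * Kd b 0 * C ^ 4) / (1 + ‖ξ‖) ^ 4 := by
  have e : (ξ.im : ℂ) ^ (1 + a + b + c) * (Af z a c ξ * conj (dAf z b 0 ξ))
      = ((ξ.im : ℂ) ^ (a + c) * Af z a c ξ) * conj ((ξ.im : ℂ) ^ (b + 1) * dAf z b 0 ξ) := by
    rw [map_mul, map_pow, Complex.conj_ofReal]; ring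
  rw [e, norm_mul, RCLike.norm_conj]
  have h1 := h.norm_Af a c hξ
  have h2 := h.norm_dAf0 b hξ
  have h3 := h.z4_le hξ
  have h4 := Kd_nonneg b 0
  calc ‖(ξ.im : ℂ) ^ (a + c) * Af z a c ξ‖ * ‖(ξ.im : ℂ) ^ (b + 1) * dAf z b 0 ξ‖
      ≤ (2 ^ a * 3 ^ c * ‖z ξ‖ ^ 2) * (Kd b 0 * ‖z ξ‖ ^ 2) := by gcongr
    _ = 2 ^ a * 3 ^ c * Kd b 0 * (‖z ξ‖ ^ 2 * ‖z ξ‖ ^ 2) := by ring
    _ ≤ 2 ^ a * 3 ^ c * Kd b 0 * (C ^ 4 / (1 + ‖ξ‖) ^ 4) := by gcongr
    _ = _ := by ring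

theorem ZData.norm_part0 (h : ZData z C) (a b c : ℕ) {ξ : ℂ} (hξ : ξ ∈ HP) :
    ‖(1 + a + b + c) * (ξ.im : ℂ) ^ (a + b + c) * Af z a c ξ * conj (Af z b 0 ξ)‖
      ≤ ((1 + a + b + c) * (2 ^ a * 3 ^ c * 2 ^ b) * C ^ 4) / (1 + ‖ξ‖) ^ 4 := by
  have e : (1 + a + b + c) * (ξ.im : ℂ) ^ (a + b + c) * Af z a c ξ * conj (Af z b 0 ξ)
      = (1 + a + b + c) * (((ξ.im : ℂ) ^ (a + c) * Af z a c ξ) *
        conj ((ξ.im : ℂ) ^ b * Af z b 0 ξ)) := by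
    rw [map_mul, map_pow, Complex.conj_ofReal]; ring
  have e2 : ‖(1 + a + b + c : ℂ)‖ = 1 + a + b + c := by
    have : (1 + a + b + c : ℂ) = ((1 + a + b + c : ℕ) : ℂ) := by push_cast; ring
    rw [this, Complex.norm_natCast]; push_cast; ring
  rw [e, norm_mul, norm_mul, RCLike.norm_conj, e2]
  have h1 := h.norm_Af a c hξ
  have h2 := h.norm_Af0 b hξ
  have h3 := h.z4_le hξ
  calc (1 + a + b + c) * (‖(ξ.im : ℂ) ^ (a + c) * Af z a c ξ‖ * ‖(ξ.im : ℂ) ^ b * Af z b 0 ξ‖)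
      ≤ (1 + a + b + c) * ((2 ^ a * 3 ^ c * ‖z ξ‖ ^ 2) * (2 ^ b * ‖z ξ‖ ^ 2)) := by gcongr
    _ = (1 + a + b + c) * (2 ^ a * 3 ^ c * 2 ^ b) * (‖z ξ‖ ^ 2 * ‖z ξ‖ ^ 2) := by ring
    _ ≤ (1 + a + b + c) * (2 ^ a * 3 ^ c * 2 ^ b) * (C ^ 4 / (1 + ‖ξ‖) ^ 4) := by gcongr
    _ = _ := by ring

theorem ZData.integrableOn_GfX (h : ZData z C) (a b c : ℕ) : IntegrableOn (GfX z a b c) HP := by
  apply integrableOn_HP_of_bound (h.continuousOn_GfX a b c)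
    (K := Kd a c * 2 ^ b * C ^ 4 + 2 ^ a * 3 ^ c * Kd b 0 * C ^ 4)
  intro ξ hξ
  rw [GfX, mul_add, add_div]
  exact (norm_add_le _ _).trans (add_le_add (h.norm_part a b c hξ) (h.norm_part' a b c hξ))

theorem ZData.integrableOn_GfY (h : ZData z C) (a b c : ℕ) : IntegrableOn (GfY z a b c) HP := by
  apply integrableOn_HP_of_bound (h.continuousOn_GfY a b c)
    (K := (1 + a + b + c) * (2 ^ a * 3 ^ c * 2 ^ b) * C ^ 4 +
      (Kd a c * 2 ^ b * C ^ 4 + 2 ^ a * 3 ^ c * Kd b 0 * C ^ 4))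
  intro ξ hξ
  rw [GfY, add_div, add_div]
  refine (norm_add_le _ _).trans (add_le_add (h.norm_part0 a b c hξ) ?_)
  have e : (ξ.im : ℂ) ^ (1 + a + b + c) *
      (I * dAf z a c ξ * conj (Af z b 0 ξ) - I * Af z a c ξ * conj (dAf z b 0 ξ))
      = I * ((ξ.im : ℂ) ^ (1 + a + b + c) * (dAf z a c ξ * conj (Af z b 0 ξ)))
        - I * ((ξ.im : ℂ) ^ (1 + a + b + c) * (Af z a c ξ * conj (dAf z b 0 ξ))) := by ring
  rw [e]
  refine (norm_sub_le _ _).trans ?_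
  have e3 : ∀ x : ℂ, ‖I * x‖ = ‖x‖ := fun x => by rw [norm_mul, Complex.norm_I, one_mul]
  rw [e3, e3]
  exact add_le_add (h.norm_part a b c hξ) (h.norm_part' a b c hξ)

theorem nullD_eq (z : ℂ → ℂ) (a b c : ℕ) (ξ : ℂ) :
    GfX z a b c ξ + I * GfY z a b c ξ
      = 2 * (((‖z ξ‖ ^ 4 : ℝ) : ℂ) * nullD a b c (lz z ξ) (ez z ξ)) := by
  have hz4 : ((‖z ξ‖ ^ 4 : ℝ) : ℂ) = z ξ ^ 2 * conj (z ξ ^ 2) := by
    rw [Complex.mul_conj, Complex.normSq_eq_norm_sq, norm_pow]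
    push_cast; ring
  have h1 : GfX z a b c ξ + I * GfY z a b c ξ
      = 2 * ((ξ.im : ℂ) ^ (1 + a + b + c) * (Af z a c ξ * conj (dAf z b 0 ξ)))
        + I * ((1 + a + b + c) * (ξ.im : ℂ) ^ (a + b + c) * Af z a c ξ * conj (Af z b 0 ξ)) := by
    rw [GfX, GfY]
    linear_combination ((ξ.im : ℂ) ^ (1 + a + b + c) * dAf z a c ξ * conj (Af z b 0 ξ)
      - (ξ.im : ℂ) ^ (1 + a + b + c) * Af z a c ξ * conj (dAf z b 0 ξ)) * Complex.I_mul_I
  have h2 : (ξ.im : ℂ) ^ (1 + a + b + c) * (Af z a c ξ * conj (dAf z b 0 ξ))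
      = (z ξ ^ 2 * lz z ξ ^ a * ez z ξ ^ c) *
        conj (z ξ ^ 2 * lz z ξ ^ b * ((2 + b) * lz z ξ + b * ez z ξ)) := by
    rw [← pow_mul_Af, ← im_mul_dAf0]
    simp only [map_mul, map_pow, Complex.conj_ofReal]; ring
  have h3 : (ξ.im : ℂ) ^ (a + b + c) * Af z a c ξ * conj (Af z b 0 ξ)
      = (z ξ ^ 2 * lz z ξ ^ a * ez z ξ ^ c) * conj (z ξ ^ 2 * lz z ξ ^ b) := by
    rw [← pow_mul_Af, ← pow_mul_Af0]
    simp only [map_mul, map_pow, Complex.conj_ofReal]; ring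
  rw [h1, h2]
  have h4 : I * ((1 + a + b + c) * (ξ.im : ℂ) ^ (a + b + c) * Af z a c ξ * conj (Af z b 0 ξ))
      = I * (1 + a + b + c) *
        ((z ξ ^ 2 * lz z ξ ^ a * ez z ξ ^ c) * conj (z ξ ^ 2 * lz z ξ ^ b)) := by
    rw [← h3]; ring
  rw [h4, hz4, nullD]
  simp only [map_mul, map_pow, map_add, Complex.conj_natCast, Complex.conj_ofNat]
  ring

theorem ZData.integral_nullD (h : ZData z C) (a b c : ℕ) :
    ∫ ξ in HP, ((‖z ξ‖ ^ 4 : ℝ) : ℂ) * nullD a b c (lz z ξ) (ez z ξ) = 0 := by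
  have h1 := integral_dbar_eq_zero (fun ξ hξ => h.hasDerivAt_GfX a b c hξ)
    (fun ξ hξ => h.hasDerivAt_GfY a b c hξ) (fun ξ hξ => h.norm_Gf a b c hξ)
    (h.integrableOn_GfX a b c) (h.integrableOn_GfY a b c)
  have h2 : ∫ ξ in HP, (GfX z a b c ξ + I * GfY z a b c ξ)
      = ∫ ξ in HP, 2 * (((‖z ξ‖ ^ 4 : ℝ) : ℂ) * nullD a b c (lz z ξ) (ez z ξ)) := by
    apply setIntegral_congr_fun measurableSet_HP
    intro ξ hξ
    exact nullD_eq z a b c ξ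
  rw [h1, integral_const_mul] at h2
  have h3 : (2:ℂ) ≠ 0 := two_ne_zero
  exact (mul_eq_zero.1 h2.symm).resolve_left h3

theorem ZData.integrable_nullD (h : ZData z C) (a b c : ℕ) :
    IntegrableOn (fun ξ => ((‖z ξ‖ ^ 4 : ℝ) : ℂ) * nullD a b c (lz z ξ) (ez z ξ)) HP := by
  have h1 : IntegrableOn (fun ξ => (1/2 : ℂ) * (GfX z a b c ξ + I * GfY z a b c ξ)) HP :=
    ((h.integrableOn_GfX a b c).add ((h.integrableOn_GfY a b c).const_mul I)).const_mul _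
  refine h1.congr_fun ?_ measurableSet_HP
  intro ξ hξ
  have h2 := nullD_eq z a b c ξ
  simp only
  rw [h2]; ring

/-- the null density of a polynomial `F = ∑ cf (a,b,c) l^a l̄^b e^c` -/
noncomputable def nullP (s : Finset (ℕ × ℕ × ℕ)) (cf : ℕ × ℕ × ℕ → ℂ) (l e : ℂ) : ℂ :=
  ∑ p ∈ s, cf p * nullD p.1 p.2.1 p.2.2 l e

/-- the real part of a finite linear combination of null densities -/
theorem ZData.integral_null_sum (h : ZData z C) (s : Finset (ℕ × ℕ × ℕ))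
    (cf : ℕ × ℕ × ℕ → ℂ) :
    IntegrableOn (fun ξ => ‖z ξ‖ ^ 4 * (nullP s cf (lz z ξ) (ez z ξ)).re) HP ∧
    ∫ ξ in HP, ‖z ξ‖ ^ 4 * (nullP s cf (lz z ξ) (ez z ξ)).re = 0 := by
  have hI : IntegrableOn (fun ξ => ∑ p ∈ s, cf p * (((‖z ξ‖ ^ 4 : ℝ) : ℂ) *
      nullD p.1 p.2.1 p.2.2 (lz z ξ) (ez z ξ))) HP := by
    apply integrable_finsetSum
    intro p _
    exact (h.integrable_nullD p.1 p.2.1 p.2.2).const_mul _
  have hval : ∫ ξ in HP, ∑ p ∈ s, cf p * (((‖z ξ‖ ^ 4 : ℝ) : ℂ) *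
      nullD p.1 p.2.1 p.2.2 (lz z ξ) (ez z ξ)) = 0 := by
    rw [integral_finsetSum]
    · apply Finset.sum_eq_zero
      intro p _
      rw [integral_const_mul, h.integral_nullD p.1 p.2.1 p.2.2, mul_zero]
    · intro p _
      exact (h.integrable_nullD p.1 p.2.1 p.2.2).const_mul _
  have e : ∀ ξ, ‖z ξ‖ ^ 4 * (nullP s cf (lz z ξ) (ez z ξ)).re
      = RCLike.re (∑ p ∈ s, cf p * (((‖z ξ‖ ^ 4 : ℝ) : ℂ) *
      nullD p.1 p.2.1 p.2.2 (lz z ξ) (ez z ξ))) := by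
    intro ξ
    have : ∑ p ∈ s, cf p * (((‖z ξ‖ ^ 4 : ℝ) : ℂ) * nullD p.1 p.2.1 p.2.2 (lz z ξ) (ez z ξ))
        = ((‖z ξ‖ ^ 4 : ℝ) : ℂ) * nullP s cf (lz z ξ) (ez z ξ) := by
      rw [nullP, Finset.mul_sum]; apply Finset.sum_congr rfl; intro p _; ring
    rw [this]
    simp only [RCLike.re_eq_complex_re]
    rw [Complex.re_ofReal_mul]
  simp_rw [e]
  refine ⟨hI.re, ?_⟩
  rw [integral_re hI, hval]; simp

/-- the density of `N0` -/
noncomputable def nDens (l : ℂ) : ℝ :=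
  l.im ^ 2 - l.re ^ 2 - 2 * (l.re ^ 2 + l.im ^ 2) * l.im + (l.re ^ 2 + l.im ^ 2) ^ 2 / 2

theorem ZData.integrable_nDens (h : ZData z C) :
    IntegrableOn (fun ξ => ‖z ξ‖ ^ 4 * nDens (lz z ξ)) HP := by
  have hc : Continuous nDens := by unfold nDens; fun_prop
  apply integrableOn_HP_of_bound (K := C ^ 4 * 28)
  · exact (h.continuousOn_z.norm.pow 4).mul (hc.comp_continuousOn h.continuousOn_lz)
  · intro ξ hξ
    have h1 := h.z4_le hξ
    have h2 := h.lz_le hξ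
    have h3 : (lz z ξ).re ^ 2 + (lz z ξ).im ^ 2 ≤ 4 := by
      have := Complex.sq_norm (lz z ξ)
      rw [Complex.normSq_apply] at this
      nlinarith [norm_nonneg (lz z ξ)]
    have h4 : |nDens (lz z ξ)| ≤ 28 := by
      unfold nDens
      set x := (lz z ξ).re
      set y := (lz z ξ).im
      have hy : y ^ 2 ≤ 4 := by nlinarith [sq_nonneg x]
      have hy1 : |y| ≤ 2 := abs_le_of_sq_le_sq (by nlinarith) (by norm_num)
      have hy2 := abs_le.1 hy1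
      have hx : 0 ≤ x ^ 2 := sq_nonneg x
      have hy0 : 0 ≤ y ^ 2 := sq_nonneg y
      have hp : 0 ≤ x ^ 2 + y ^ 2 := by positivity
      have h5 : (x ^ 2 + y ^ 2) * y ≤ 8 := by nlinarith
      have h6 : -8 ≤ (x ^ 2 + y ^ 2) * y := by nlinarith
      have h7 : (x ^ 2 + y ^ 2) ^ 2 ≤ 16 := by nlinarith
      have h8 : 0 ≤ (x ^ 2 + y ^ 2) ^ 2 := by positivity
      rw [abs_le]
      constructor <;> nlinarith
    rw [norm_mul, norm_pow, norm_norm, Real.norm_eq_abs]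
    have h5 : ‖z ξ‖ ^ 4 ≤ C ^ 4 / (1 + ‖ξ‖) ^ 4 := by
      calc ‖z ξ‖ ^ 4 = ‖z ξ‖ ^ 2 * ‖z ξ‖ ^ 2 := by ring
        _ ≤ _ := h1
    calc ‖z ξ‖ ^ 4 * |nDens (lz z ξ)| ≤ C ^ 4 / (1 + ‖ξ‖) ^ 4 * 28 := by
          gcongr
      _ = _ := by ring

/-- If the polynomial certificate holds pointwise, then `∫ |z|^4 n(l) < 0`. -/
theorem ZData.N0_neg (h : ZData z C) (s : Finset (ℕ × ℕ × ℕ)) (cf : ℕ × ℕ × ℕ → ℂ)
    (hcert : ∀ l e : ℂ, ‖e - I‖ ≤ 2 → ‖e + 2 * l - I‖ ≤ 2 →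
      nDens l + (nullP s cf l e).re < 0) :
    ∫ ξ in HP, ‖z ξ‖ ^ 4 * nDens (lz z ξ) < 0 := by
  obtain ⟨h1, h2⟩ := h.integral_null_sum s cf
  have h3 := h.integrable_nDens
  have h4 : ∫ ξ in HP, ‖z ξ‖ ^ 4 * nDens (lz z ξ)
      = ∫ ξ in HP, ‖z ξ‖ ^ 4 * (nDens (lz z ξ) + (nullP s cf (lz z ξ) (ez z ξ)).re) := by
    have : (fun ξ => ‖z ξ‖ ^ 4 * (nDens (lz z ξ) + (nullP s cf (lz z ξ) (ez z ξ)).re))
        = fun ξ => ‖z ξ‖ ^ 4 * nDens (lz z ξ) + ‖z ξ‖ ^ 4 * (nullP s cf (lz z ξ) (ez z ξ)).re := by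
      funext ξ; ring
    rw [this, integral_add h3 h1, h2, add_zero]
  rw [h4]
  have h5 : IntegrableOn (fun ξ => -(‖z ξ‖ ^ 4 *
      (nDens (lz z ξ) + (nullP s cf (lz z ξ) (ez z ξ)).re))) HP := by
    have := (h3.add h1).neg
    refine this.congr_fun ?_ measurableSet_HP
    intro ξ _
    simp only [Pi.neg_apply, Pi.add_apply]; ring
  have hpos : ∀ ξ ∈ HP, 0 < -(‖z ξ‖ ^ 4 *
      (nDens (lz z ξ) + (nullP s cf (lz z ξ) (ez z ξ)).re)) := by
    intro ξ hξ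
    have h6 := hcert (lz z ξ) (ez z ξ) (h.ez_sub hξ) (h.ez_sub' hξ)
    have h7 : 0 < ‖z ξ‖ ^ 4 := by
      have := norm_pos_iff.2 (h.ne ξ hξ)
      positivity
    nlinarith
  have h8 : 0 < ∫ ξ in HP, -(‖z ξ‖ ^ 4 *
      (nDens (lz z ξ) + (nullP s cf (lz z ξ) (ez z ξ)).re)) := by
    rw [setIntegral_pos_iff_support_of_nonneg_ae]
    · have hsub : HP ⊆ Function.support (fun ξ => -(‖z ξ‖ ^ 4 *
          (nDens (lz z ξ) + (nullP s cf (lz z ξ) (ez z ξ)).re))) ∩ HP := by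
        intro ξ hξ
        exact ⟨(hpos ξ hξ).ne', hξ⟩
      refine lt_of_lt_of_le ?_ (measure_mono hsub)
      exact isOpen_HP.measure_pos _ ⟨I, by simp [HP]⟩
    · filter_upwards [ae_restrict_mem measurableSet_HP] with ξ hξ using (hpos ξ hξ).le
    · exact h5
  rw [integral_neg] at h8
  linarith

end Crest.Agent.R101
end

-- ▼ part R101/N0
section

/-!
# `N0 < 0` on the disc

The Joukowski map `J ζ = ζ + 1/ζ` maps the lower half disc onto the upper half plane; the integral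
of `n0 φ 1` over the lower half disc becomes `∫_HP |z|^4 nDens(lz z)` with `z = φ ∘ J⁻¹`.
-/

set_option autoImplicit false

open MeasureTheory Set Filter Complex Metric
open scoped Topology ComplexConjugate

namespace Crest.Agent.R101

/-- Bieberbach's inequality transported to the upper half plane. -/
def BieberbachHP : Prop := ∀ v : ℂ → ℂ, DifferentiableOn ℂ v HP → InjOn v HP →
  ∀ ξ ∈ HP, ‖(ξ.im : ℂ) * (deriv (deriv v) ξ / deriv v ξ) - I‖ ≤ 2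

/-- Joukowski -/
noncomputable def Jk (ζ : ℂ) : ℂ := ζ + 1 / ζ

/-- lower half disc -/
def Dm : Set ℂ := {ζ : ℂ | ‖ζ‖ < 1 ∧ ζ.im < 0}

theorem isOpen_Dm : IsOpen Dm :=
  (isOpen_lt continuous_norm continuous_const).inter
    (isOpen_lt Complex.continuous_im continuous_const)

theorem Dm_ne_zero {ζ : ℂ} (h : ζ ∈ Dm) : ζ ≠ 0 := by
  rintro rfl; simpa using h.2

theorem Jk_im (ζ : ℂ) (h : ζ ≠ 0) : (Jk ζ).im = ζ.im * (1 - 1 / ‖ζ‖ ^ 2) := by
  have hn : ‖ζ‖ ^ 2 ≠ 0 := by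
    have := norm_pos_iff.2 h
    positivity
  rw [Jk, Complex.add_im, one_div, Complex.inv_im, Complex.normSq_eq_norm_sq]
  field_simp
  ring

theorem Jk_maps : MapsTo Jk Dm HP := by
  intro ζ hζ
  have h0 := Dm_ne_zero hζ
  have hn := norm_pos_iff.2 h0
  rw [mem_HP, Jk_im ζ h0]
  have h1 : ‖ζ‖ ^ 2 < 1 := by
    have := hζ.1
    nlinarith
  have h2 : 1 < 1 / ‖ζ‖ ^ 2 := by
    rw [lt_div_iff₀ (by positivity)]; linarith
  nlinarith [hζ.2]

theorem Jk_inj : InjOn Jk Dm := by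
  intro a ha b hb hab
  have ha0 := Dm_ne_zero ha
  have hb0 := Dm_ne_zero hb
  by_contra hne
  have h1 : (a - b) * (1 - 1 / (a * b)) = 0 := by
    have : Jk a - Jk b = 0 := by rw [hab, sub_self]
    rw [← this, Jk, Jk]
    field_simp
    ring
  rcases mul_eq_zero.1 h1 with h2 | h2
  · exact hne (sub_eq_zero.1 h2)
  · have h3 : a * b = 1 := by
      have : a * b ≠ 0 := mul_ne_zero ha0 hb0
      field_simp at h2
      linear_combination h2
    have h4 : ‖a‖ * ‖b‖ = 1 := by rw [← norm_mul, h3, norm_one]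
    have := ha.1
    have := hb.1
    nlinarith [norm_nonneg a, norm_nonneg b]

theorem Jk_surj : SurjOn Jk Dm HP := by
  intro ξ hξ
  obtain ⟨s, hs⟩ : ∃ s : ℂ, s ^ 2 = ξ ^ 2 - 4 := ⟨_, Complex.cpow_nat_inv_pow _ two_ne_zero⟩
  set r1 := (ξ + s) / 2 with hr1
  set r2 := (ξ - s) / 2 with hr2
  have hprod : r1 * r2 = 1 := by
    rw [hr1, hr2]; linear_combination (-1/4 : ℂ) * hs
  have hsum : r1 + r2 = ξ := by rw [hr1, hr2]; ring
  have h1 : r1 ≠ 0 := left_ne_zero_of_mul_eq_one hprod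
  have h2 : r2 ≠ 0 := right_ne_zero_of_mul_eq_one hprod
  have key : ∀ a b : ℂ, a * b = 1 → a + b = ξ → ‖a‖ < 1 → a ∈ Dm ∧ Jk a = ξ := by
    intro a b hab hs hn
    have ha : a ≠ 0 := left_ne_zero_of_mul_eq_one hab
    have hJ : Jk a = ξ := by
      rw [Jk, ← hs]
      have : b = 1 / a := by field_simp; linear_combination hab
      rw [this]
    refine ⟨⟨hn, ?_⟩, hJ⟩
    have h3 := Jk_im a ha
    rw [hJ] at h3
    have hξ' : 0 < ξ.im := hξ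
    have hna := norm_pos_iff.2 ha
    have h4 : 1 < 1 / ‖a‖ ^ 2 := by
      rw [lt_div_iff₀ (by positivity)]; nlinarith
    by_contra hcon
    push Not at hcon
    nlinarith
  rcases lt_trichotomy ‖r1‖ 1 with h | h | h
  · obtain ⟨hm, hJ⟩ := key r1 r2 hprod hsum h
    exact ⟨r1, hm, hJ⟩
  · exfalso
    have hJ : Jk r1 = ξ := by
      rw [Jk, ← hsum]
      have : r2 = 1 / r1 := by field_simp; linear_combination hprod
      rw [this]
    have h3 := Jk_im r1 h1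
    rw [hJ, h] at h3
    have hξ' : 0 < ξ.im := hξ
    norm_num at h3
    linarith
  · have h3 : ‖r1‖ * ‖r2‖ = 1 := by rw [← norm_mul, hprod, norm_one]
    have h4 : ‖r2‖ < 1 := by nlinarith [norm_pos_iff.2 h2]
    obtain ⟨hm, hJ⟩ := key r2 r1 (by rw [mul_comm]; exact hprod) (by rw [add_comm]; exact hsum) h4
    exact ⟨r2, hm, hJ⟩

theorem Jk_image : Jk '' Dm = HP := Subset.antisymm Jk_maps.image_subset Jk_surj

theorem Jk_hasDerivAt {ζ : ℂ} (h : ζ ≠ 0) : HasDerivAt Jk (MM' 1 ζ) ζ := by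
  have h1 : HasDerivAt (fun x : ℂ => x + x⁻¹) (1 + -(ζ ^ 2)⁻¹) ζ :=
    (hasDerivAt_id ζ).add (hasDerivAt_inv h)
  have e : Jk = fun x : ℂ => x + x⁻¹ := by funext x; rw [Jk, one_div]
  rw [e]
  refine h1.congr_deriv ?_
  rw [MM', map_one]; rw [neg_div, one_div]; ring

theorem Jk_diff : DifferentiableOn ℂ Jk Dm := fun _ hζ =>
  (Jk_hasDerivAt (Dm_ne_zero hζ)).differentiableAt.differentiableWithinAt

theorem MM'_ne {ζ : ℂ} (h : ‖ζ‖ < 1) (h0 : ζ ≠ 0) : MM' 1 ζ ≠ 0 := by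
  intro hc
  rw [MM', map_one] at hc
  have h1 : ζ ^ 2 = 1 := by
    field_simp at hc
    linear_combination hc
  have h2 : ‖ζ‖ ^ 2 = 1 := by rw [← norm_pow, h1, norm_one]
  nlinarith [norm_nonneg ζ]

theorem Jk_norm_bound {ζ : ℂ} (h : ‖ζ‖ < 1) (h0 : ζ ≠ 0) : ‖ζ‖ ≤ 3 / (1 + ‖Jk ζ‖) := by
  have hn := norm_pos_iff.2 h0
  rw [le_div_iff₀ (by positivity)]
  have h1 : ‖Jk ζ‖ ≤ ‖ζ‖ + 1 / ‖ζ‖ := by
    rw [Jk]
    refine (norm_add_le _ _).trans ?_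
    rw [norm_div, norm_one]
  calc ‖ζ‖ * (1 + ‖Jk ζ‖) ≤ ‖ζ‖ * (1 + (‖ζ‖ + 1 / ‖ζ‖)) := by gcongr
    _ = ‖ζ‖ + ‖ζ‖ ^ 2 + 1 := by field_simp; ring
    _ ≤ 3 := by nlinarith

/-- Schwarz -/
theorem schwarz_bound {φ : ℂ → ℂ} (hφ : DifferentiableOn ℂ φ (ball 0 1)) (h0 : φ 0 = 0) {C : ℝ}
    (hb : ∀ ζ ∈ ball (0:ℂ) 1, ‖φ ζ‖ ≤ C) {ζ : ℂ} (hζ : ζ ∈ ball (0:ℂ) 1) :
    ‖φ ζ‖ ≤ (C + 1) * ‖ζ‖ := by
  have hC : 0 ≤ C := (norm_nonneg _).trans (hb 0 (by simp))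
  have hmaps : MapsTo φ (ball 0 1) (closedBall (φ 0) (C + 1)) := by
    intro w hw
    rw [h0, mem_closedBall_zero_iff]
    have := hb w hw
    linarith
  have := Complex.dist_le_div_mul_dist_of_mapsTo_ball hφ hmaps hζ
  rw [h0, dist_zero_right, dist_zero_right] at this
  simpa using this

/-- the data for the half plane -/
theorem zdata_of (hD : BieberbachHP) {φ : ℂ → ℂ} (hφ : DifferentiableOn ℂ φ (ball 0 1))
    (hinj : InjOn φ (ball 0 1)) (h0 : φ 0 = 0) {C : ℝ} (hb : ∀ ζ ∈ ball (0:ℂ) 1, ‖φ ζ‖ ≤ C)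
    {g : ℂ → ℂ} (hg : DifferentiableOn ℂ g HP) (hginj : InjOn g HP) (hgm : g '' HP = Dm)
    (hgf : ∀ ξ ∈ HP, Jk (g ξ) = ξ) : ZData (φ ∘ g) ((C + 1) * 3) := by
  have hC : 0 ≤ C := (norm_nonneg _).trans (hb 0 (by simp))
  have hmaps : ∀ ξ ∈ HP, g ξ ∈ Dm := fun ξ hξ => by
    rw [← hgm]; exact mem_image_of_mem g hξ
  have hmaps' : MapsTo g HP (ball 0 1) := fun ξ hξ => by
    rw [mem_ball_zero_iff]; exact (hmaps ξ hξ).1
  have hd : DifferentiableOn ℂ (φ ∘ g) HP := hφ.comp hg hmaps'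
  have hi : InjOn (φ ∘ g) HP := hinj.comp hginj hmaps'
  have hne : ∀ ξ ∈ HP, (φ ∘ g) ξ ≠ 0 := by
    intro ξ hξ hc
    have h1 := hinj (hmaps' hξ) (by simp : (0:ℂ) ∈ ball (0:ℂ) 1) (by rw [h0]; exact hc)
    exact Dm_ne_zero (hmaps ξ hξ) h1
  have hdne : ∀ ξ ∈ HP, deriv (φ ∘ g) ξ ≠ 0 := fun ξ hξ =>
    Crest.Agent.Lib.deriv_ne_zero_of_injOn isOpen_HP hd hi hξ
  refine ⟨hd, hne, hdne, ?_, ?_, ?_⟩
  · intro ξ hξ
    have h1 := schwarz_bound hφ h0 hb (hmaps' hξ)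
    have h2 := Jk_norm_bound (hmaps ξ hξ).1 (Dm_ne_zero (hmaps ξ hξ))
    rw [hgf ξ hξ] at h2
    calc ‖(φ ∘ g) ξ‖ ≤ (C + 1) * ‖g ξ‖ := h1
      _ ≤ (C + 1) * (3 / (1 + ‖ξ‖)) := by gcongr
      _ = _ := by ring
  · exact fun ξ hξ => hD _ hd hi ξ hξ
  · intro ξ hξ
    set z := φ ∘ g with hz
    have hv : DifferentiableOn ℂ (fun x => (z x)⁻¹) HP := hd.inv hne
    have hvi : InjOn (fun x => (z x)⁻¹) HP := by
      intro a ha b hb' hab
      exact hi ha hb' (inv_injective hab)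
    have h1 := hD _ hv hvi ξ hξ
    have hzan : ∀ x ∈ HP, AnalyticAt ℂ z x := fun x hx => hd.analyticAt (isOpen_HP.mem_nhds hx)
    have hd1 : ∀ x ∈ HP, deriv (fun x => (z x)⁻¹) x = -deriv z x / z x ^ 2 := by
      intro x hx
      exact ((hzan x hx).differentiableAt.hasDerivAt.inv (hne x hx)).deriv
    have hd2 : deriv (deriv (fun x => (z x)⁻¹)) ξ =
        deriv (fun x => -deriv z x / z x ^ 2) ξ := by
      apply Filter.EventuallyEq.deriv_eq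
      filter_upwards [isOpen_HP.mem_nhds hξ] with x hx using hd1 x hx
    have hzξ := hne ξ hξ
    have hdzξ := hdne ξ hξ
    have h3 : HasDerivAt (fun x => -deriv z x / z x ^ 2)
        ((-(deriv (deriv z) ξ) * z ξ ^ 2 - -(deriv z ξ) * (2 * z ξ ^ (2-1) * deriv z ξ)) /
          (z ξ ^ 2) ^ 2) ξ := by
      have h4 := (hzan ξ hξ).deriv.differentiableAt.hasDerivAt.neg
      have h5 := (hzan ξ hξ).differentiableAt.hasDerivAt.pow 2
      have := h4.div h5 (pow_ne_zero 2 hzξ)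
      exact this
    rw [hd2, h3.deriv, hd1 ξ hξ] at h1
    have e : ((-(deriv (deriv z) ξ) * z ξ ^ 2 - -(deriv z ξ) * (2 * z ξ ^ (2-1) * deriv z ξ)) /
          (z ξ ^ 2) ^ 2) / (-deriv z ξ / z ξ ^ 2)
        = deriv (deriv z) ξ / deriv z ξ - 2 * (deriv z ξ / z ξ) := by
      field_simp
      ring
    rw [e] at h1
    exact h1

/-- multiplication by `c` as a real linear map has determinant `‖c‖²` -/
theorem det_smulRight (c : ℂ) :
    (((1 : ℂ →L[ℂ] ℂ).smulRight c).restrictScalars ℝ : ℂ →L[ℝ] ℂ).det = ‖c‖ ^ 2 := by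
  have h1 : ((((1 : ℂ →L[ℂ] ℂ).smulRight c).restrictScalars ℝ : ℂ →L[ℝ] ℂ) : ℂ →ₗ[ℝ] ℂ)
      = Algebra.lmul ℝ ℂ c := by
    ext x; simp [mul_comm]
  rw [ContinuousLinearMap.det, h1, ← Algebra.norm_apply, Algebra.norm_complex_apply,
    Complex.normSq_eq_norm_sq]

/-- the key algebraic identity -/
theorem n0_alg (p dp J' : ℂ) (R : ℝ) (hp : p ≠ 0) (hJ : J' ≠ 0) :
    ‖J'‖ ^ 2 * (‖p‖ ^ 4 * nDens ((R : ℂ) * ((dp / J') / p)))
      = R ^ 2 * (‖dp‖ ^ 2 * R + 2 * (J' * p * conj dp).im) ^ 2 / (2 * ‖J'‖ ^ 2)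
        - R ^ 2 * ‖p‖ ^ 2 * ‖dp‖ ^ 2 := by
  have hp' := norm_pos_iff.2 hp
  have hJ' := norm_pos_iff.2 hJ
  set l := (R : ℂ) * ((dp / J') / p) with hl
  have h1 : l.re ^ 2 + l.im ^ 2 = R ^ 2 * ‖dp‖ ^ 2 / (‖J'‖ ^ 2 * ‖p‖ ^ 2) := by
    have : l.re ^ 2 + l.im ^ 2 = ‖l‖ ^ 2 := by
      rw [Complex.sq_norm, Complex.normSq_apply]; ring
    rw [this, hl, norm_mul, norm_div, norm_div, Complex.norm_real, Real.norm_eq_abs, mul_pow,
      sq_abs, div_pow, div_pow]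
    field_simp
  have h2 : l.im = - (R * (J' * p * conj dp).im / (‖J'‖ ^ 2 * ‖p‖ ^ 2)) := by
    have e : l = ((R / (‖J'‖ ^ 2 * ‖p‖ ^ 2) : ℝ) : ℂ) * conj (J' * p * conj dp) := by
      rw [hl]
      have e1 : ((‖J'‖ ^ 2 : ℝ) : ℂ) = J' * conj J' := by
        rw [Complex.mul_conj, Complex.normSq_eq_norm_sq]
      have e2 : ((‖p‖ ^ 2 : ℝ) : ℂ) = p * conj p := by
        rw [Complex.mul_conj, Complex.normSq_eq_norm_sq]
      rw [Complex.ofReal_div, Complex.ofReal_mul, e1, e2]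
      have h3 : conj J' ≠ 0 := (map_ne_zero _).2 hJ
      have h4 : conj p ≠ 0 := (map_ne_zero _).2 hp
      simp only [map_mul, Complex.conj_conj]
      field_simp
    rw [e, Complex.im_ofReal_mul, Complex.conj_im]
    ring
  have h3 : nDens l = (l.re ^ 2 + l.im ^ 2 - 2 * l.im) ^ 2 / 2 - (l.re ^ 2 + l.im ^ 2) := by
    unfold nDens; ring
  rw [h3, h1, h2]
  generalize (J' * p * conj dp).im = t
  field_simp
  ring

theorem Jk_eq_MM (ζ : ℂ) : Jk ζ = MM 1 ζ := by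
  rw [Jk, MM, map_one]; ring

/-- change of variables -/
theorem n0_lower (hD : BieberbachHP) (s : Finset (ℕ × ℕ × ℕ)) (cf : ℕ × ℕ × ℕ → ℂ)
    (hcert : ∀ l e : ℂ, ‖e - I‖ ≤ 2 → ‖e + 2 * l - I‖ ≤ 2 → nDens l + (nullP s cf l e).re < 0)
    {φ : ℂ → ℂ} (hφ : DifferentiableOn ℂ φ (ball 0 1))
    (hinj : InjOn φ (ball 0 1)) (h0 : φ 0 = 0) {C : ℝ} (hb : ∀ ζ ∈ ball (0:ℂ) 1, ‖φ ζ‖ ≤ C) :
    IntegrableOn (n0 φ 1) Dm ∧ ∫ ζ in Dm, n0 φ 1 ζ < 0 := by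
  obtain ⟨g, hg, hgi, hgm, hgf, hfg⟩ :=
    Crest.Agent.Lib.exists_holomorphic_inverse isOpen_Dm Jk_diff Jk_inj
  rw [Jk_image] at hg hgi hgm hfg
  have hz := zdata_of hD hφ hinj h0 hb hg hgi hgm hfg
  have hDmball : ∀ ζ ∈ Dm, ζ ∈ ball (0:ℂ) 1 := fun ζ hζ => by
    rw [mem_ball_zero_iff]; exact hζ.1
  have hf' : ∀ x ∈ Dm, HasFDerivWithinAt Jk
      (((1 : ℂ →L[ℂ] ℂ).smulRight (MM' 1 x)).restrictScalars ℝ) Dm x := by
    intro x hx
    exact ((Jk_hasDerivAt (Dm_ne_zero hx)).hasFDerivAt.restrictScalars ℝ).hasFDerivWithinAt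
  have hpt : ∀ ζ ∈ Dm, |(((1 : ℂ →L[ℂ] ℂ).smulRight (MM' 1 ζ)).restrictScalars ℝ
      : ℂ →L[ℝ] ℂ).det| • (‖(φ ∘ g) (Jk ζ)‖ ^ 4 * nDens (lz (φ ∘ g) (Jk ζ))) = n0 φ 1 ζ := by
    intro ζ hζ
    have hζ0 := Dm_ne_zero hζ
    rw [det_smulRight, abs_of_nonneg (by positivity), smul_eq_mul]
    have h1 : (φ ∘ g) (Jk ζ) = φ ζ := by simp only [Function.comp_apply, hgf ζ hζ]
    have hJn : MM' 1 ζ ≠ 0 := MM'_ne hζ.1 hζ0
    have hder : deriv (φ ∘ g) (Jk ζ) = deriv φ ζ / MM' 1 ζ := by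
      have h2 : HasDerivAt (φ ∘ g) (deriv (φ ∘ g) (Jk ζ)) (Jk ζ) :=
        hz.hasDerivAt_z (Jk_maps hζ)
      have h3 := h2.comp ζ (Jk_hasDerivAt hζ0)
      have h4 : (φ ∘ g) ∘ Jk =ᶠ[𝓝 ζ] φ := by
        filter_upwards [isOpen_Dm.mem_nhds hζ] with x hx
        simp only [Function.comp_apply, hgf x hx]
      have h5 := (h3.congr_of_eventuallyEq h4.symm).deriv
      rw [h5]; field_simp
    have hφ0 : φ ζ ≠ 0 := by
      rw [← h1]; exact hz.ne _ (Jk_maps hζ)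
    have h2 : lz (φ ∘ g) (Jk ζ) = ((RR 1 ζ : ℝ) : ℂ) * ((deriv φ ζ / MM' 1 ζ) / φ ζ) := by
      rw [lz, hder, h1, RR, Jk_eq_MM]
    rw [h1, h2, n0_alg (φ ζ) (deriv φ ζ) (MM' 1 ζ) (RR 1 ζ) hφ0 hJn]
    rfl
  have hint : IntegrableOn (n0 φ 1) Dm := by
    have h1 := (integrableOn_image_iff_integrableOn_abs_det_fderiv_smul volume
      isOpen_Dm.measurableSet hf' Jk_inj
      (fun ξ => ‖(φ ∘ g) ξ‖ ^ 4 * nDens (lz (φ ∘ g) ξ))).1 (by
        rw [Jk_image]; exact hz.integrable_nDens)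
    exact h1.congr_fun hpt isOpen_Dm.measurableSet
  refine ⟨hint, ?_⟩
  have h2 := integral_image_eq_integral_abs_det_fderiv_smul volume
      isOpen_Dm.measurableSet hf' Jk_inj
      (fun ξ => ‖(φ ∘ g) ξ‖ ^ 4 * nDens (lz (φ ∘ g) ξ))
  rw [Jk_image, setIntegral_congr_fun isOpen_Dm.measurableSet hpt] at h2
  rw [← h2]
  exact hz.N0_neg s cf hcert

/-- rotation identity -/
theorem n0_rot (φ : ℂ → ℂ) (β : ℂ) {ω : ℂ} (hω : ‖ω‖ = 1) (ζ : ℂ) :
    n0 φ β (ω * ζ) = n0 (fun x => φ (ω * x)) (conj ω * β) ζ := by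
  have hω0 : ω ≠ 0 := by rintro rfl; simp at hω
  have hωω : ω * conj ω = 1 := by
    rw [Complex.mul_conj, Complex.normSq_eq_norm_sq, hω]; simp
  have hinv : conj ω = ω⁻¹ := eq_inv_of_mul_eq_one_right hωω
  have hder : deriv (fun x => φ (ω * x)) ζ = ω * deriv φ (ω * ζ) := by
    have := deriv_comp_mul_left ω φ ζ
    simpa using this
  have hMM : MM (conj ω * β) ζ = MM β (ω * ζ) := by
    rw [MM, MM, map_mul, Complex.conj_conj, hinv]
    field_simp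
  have hMM' : MM' (conj ω * β) ζ = ω * MM' β (ω * ζ) := by
    rw [MM', MM', map_mul, Complex.conj_conj, hinv]
    field_simp
  have hRR : RR (conj ω * β) ζ = RR β (ω * ζ) := by rw [RR, RR, hMM]
  have hrho : rho (fun x => φ (ω * x)) ζ = rho φ (ω * ζ) := by
    rw [rho, rho, hder, norm_mul, hω, one_mul]
  have hkap : kap (fun x => φ (ω * x)) (conj ω * β) ζ = kap φ β (ω * ζ) := by
    rw [kap, kap, hrho, hRR, hMM', hder, map_mul]
    have : ω * MM' β (ω * ζ) * φ (ω * ζ) * (conj ω * conj (deriv φ (ω * ζ)))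
        = (ω * conj ω) * (MM' β (ω * ζ) * φ (ω * ζ) * conj (deriv φ (ω * ζ))) := by ring
    rw [this, hωω, one_mul]
  rw [n0, n0, hRR, hkap, hrho, hMM', norm_mul, hω, one_mul]

theorem n0_neg_beta (φ : ℂ → ℂ) (β : ℂ) : n0 φ (-β) = n0 φ β := by
  funext ζ
  have h1 : MM (-β) ζ = -MM β ζ := by rw [MM, MM, map_neg]; ring
  have h2 : MM' (-β) ζ = -MM' β ζ := by rw [MM', MM', map_neg]; ring
  have h3 : RR (-β) ζ = -RR β ζ := by rw [RR, RR, h1, Complex.neg_im]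
  have h4 : kap φ (-β) ζ = -kap φ β ζ := by
    rw [kap, kap, h3, h2]
    have : -MM' β ζ * φ ζ * conj (deriv φ ζ) = -(MM' β ζ * φ ζ * conj (deriv φ ζ)) := by ring
    rw [this, Complex.neg_im]; ring
  rw [n0, n0, h3, h4, h2, norm_neg]; ring

/-- multiplication by a unit as a measure preserving equivalence -/
theorem mp_unit {ω : ℂ} (hω : ‖ω‖ = 1) : MeasurePreserving (fun x : ℂ => ω * x) volume volume := by
  let u : Circle := ⟨ω, mem_sphere_zero_iff_norm.2 hω⟩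
  exact (rotation u).measurePreserving

theorem me_unit {ω : ℂ} (hω : ‖ω‖ = 1) : MeasurableEmbedding (fun x : ℂ => ω * x) := by
  let u : Circle := ⟨ω, mem_sphere_zero_iff_norm.2 hω⟩
  exact (rotation u).toHomeomorph.measurableEmbedding

/-- upper half disc -/
def Dp : Set ℂ := {ζ : ℂ | ‖ζ‖ < 1 ∧ 0 < ζ.im}

theorem isOpen_Dp : IsOpen Dp :=
  (isOpen_lt continuous_norm continuous_const).inter
    (isOpen_lt continuous_const Complex.continuous_im)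

theorem volume_im_eq_zero : (volume : Measure ℂ) {ζ : ℂ | ζ.im = 0} = 0 := by
  have hms : MeasurableSet {ζ : ℂ | ζ.im = 0} :=
    (isClosed_eq Complex.continuous_im continuous_const).measurableSet
  rw [← (Complex.volume_preserving_equiv_real_prod.symm).measure_preimage
    hms.nullMeasurableSet]
  have hs : Complex.measurableEquivRealProd.symm ⁻¹' {ζ : ℂ | ζ.im = 0}
      = (univ ×ˢ {0} : Set (ℝ × ℝ)) := by
    ext p; simp [Complex.measurableEquivRealProd_symm_apply]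
  rw [hs, Measure.volume_eq_prod, Measure.prod_prod]
  simp

theorem ball_ae_eq : (ball (0:ℂ) 1 : Set ℂ) =ᵐ[volume] (Dm ∪ Dp : Set ℂ) := by
  have h0 : ∀ᵐ ζ ∂(volume : Measure ℂ), ζ.im ≠ 0 := by
    rw [ae_iff]; simpa using volume_im_eq_zero
  filter_upwards [h0] with ζ hζ
  apply propext
  show ζ ∈ ball (0:ℂ) 1 ↔ ζ ∈ (Dm ∪ Dp : Set ℂ)
  rw [mem_ball_zero_iff]
  constructor
  · intro h
    rcases lt_or_gt_of_ne hζ with h1 | h1
    · exact Or.inl ⟨h, h1⟩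
    · exact Or.inr ⟨h, h1⟩
  · rintro (h | h)
    · exact h.1
    · exact h.1

theorem neg_preimage_Dp : (fun x : ℂ => (-1 : ℂ) * x) ⁻¹' Dp = Dm := by
  ext ζ
  simp only [mem_preimage, Dp, Dm, mem_ofPred_eq, neg_mul, one_mul, norm_neg, Complex.neg_im,
    Left.neg_pos_iff]

/-- both halves, `β = 1` -/
theorem n0_one (hD : BieberbachHP) (s : Finset (ℕ × ℕ × ℕ)) (cf : ℕ × ℕ × ℕ → ℂ)
    (hcert : ∀ l e : ℂ, ‖e - I‖ ≤ 2 → ‖e + 2 * l - I‖ ≤ 2 → nDens l + (nullP s cf l e).re < 0)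
    {φ : ℂ → ℂ} (hφ : DifferentiableOn ℂ φ (ball 0 1))
    (hinj : InjOn φ (ball 0 1)) (h0 : φ 0 = 0) {C : ℝ} (hb : ∀ ζ ∈ ball (0:ℂ) 1, ‖φ ζ‖ ≤ C) :
    IntegrableOn (n0 φ 1) (ball 0 1) ∧ ∫ ζ in ball (0:ℂ) 1, n0 φ 1 ζ < 0 := by
  obtain ⟨h1, h2⟩ := n0_lower hD s cf hcert hφ hinj h0 hb
  have hneg : ‖(-1 : ℂ)‖ = 1 := by simp
  have hmball : ∀ x : ℂ, x ∈ ball (0:ℂ) 1 → (-1 : ℂ) * x ∈ ball (0:ℂ) 1 := by
    intro x hx
    rw [mem_ball_zero_iff] at hx ⊢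
    rw [norm_mul, hneg, one_mul]; exact hx
  have hφ' : DifferentiableOn ℂ (fun x => φ ((-1 : ℂ) * x)) (ball 0 1) := by
    apply hφ.comp (f := fun x : ℂ => (-1 : ℂ) * x)
    · fun_prop
    · exact hmball
  have hinj' : InjOn (fun x => φ ((-1 : ℂ) * x)) (ball 0 1) := by
    intro a ha b hb' hab
    have := hinj (hmball a ha) (hmball b hb') hab
    simpa using this
  obtain ⟨h3, h4⟩ := n0_lower hD s cf hcert hφ' hinj' (by simpa using h0)
    (C := C) (fun ζ hζ => hb _ (hmball ζ hζ))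
  have hrot : ∀ ζ : ℂ, n0 (fun x => φ ((-1 : ℂ) * x)) 1 ζ = n0 φ 1 ((-1 : ℂ) * ζ) := by
    intro ζ
    rw [n0_rot φ 1 hneg ζ]
    have : conj (-1 : ℂ) * 1 = -1 := by simp
    rw [this, n0_neg_beta]
  have h5 : IntegrableOn (n0 φ 1) Dp := by
    have h6 := (mp_unit hneg).integrableOn_comp_preimage (me_unit hneg) (f := n0 φ 1) (s := Dp)
    rw [neg_preimage_Dp] at h6
    rw [← h6]
    refine h3.congr_fun ?_ isOpen_Dm.measurableSet
    intro ζ _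
    exact hrot ζ
  have h7 : ∫ ζ in Dp, n0 φ 1 ζ < 0 := by
    have h6 := (mp_unit hneg).setIntegral_preimage_emb (me_unit hneg) (n0 φ 1) Dp
    rw [neg_preimage_Dp] at h6
    rw [← h6]
    simp_rw [hrot] at h4
    exact h4
  have hdisj : Disjoint Dm Dp := by
    rw [Set.disjoint_left]
    intro ζ ha hb'
    have := ha.2
    have := hb'.2
    linarith
  constructor
  · rw [IntegrableOn, Measure.restrict_congr_set ball_ae_eq]
    exact h1.union h5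
  · rw [setIntegral_congr_set ball_ae_eq, setIntegral_union hdisj isOpen_Dp.measurableSet h1 h5]
    linarith

theorem ball_preimage {ω : ℂ} (hω : ‖ω‖ = 1) :
    (fun x : ℂ => ω * x) ⁻¹' (ball 0 1) = ball (0:ℂ) 1 := by
  ext ζ
  simp [hω]

/-- general `β` -/
theorem n0_neg_of (hD : BieberbachHP) (s : Finset (ℕ × ℕ × ℕ)) (cf : ℕ × ℕ × ℕ → ℂ)
    (hcert : ∀ l e : ℂ, ‖e - I‖ ≤ 2 → ‖e + 2 * l - I‖ ≤ 2 → nDens l + (nullP s cf l e).re < 0)
    {φ : ℂ → ℂ} (hφ : Conf φ) {β : ℂ} (hβ : ‖β‖ = 1) :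
    IntegrableOn (n0 φ β) (ball 0 1) ∧ ∫ ζ in ball (0 : ℂ) 1, n0 φ β ζ < 0 := by
  obtain ⟨C, hb⟩ := hφ.bdd
  have hmball : ∀ x : ℂ, x ∈ ball (0:ℂ) 1 → β * x ∈ ball (0:ℂ) 1 := by
    intro x hx
    rw [mem_ball_zero_iff] at hx ⊢
    rw [norm_mul, hβ, one_mul]; exact hx
  have hβ0 : β ≠ 0 := by rintro rfl; simp at hβ
  have hφ' : DifferentiableOn ℂ (fun x => φ (β * x)) (ball 0 1) := by
    apply hφ.holo.comp (f := fun x : ℂ => β * x)
    · fun_prop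
    · exact hmball
  have hinj' : InjOn (fun x => φ (β * x)) (ball 0 1) := by
    intro a ha b hb' hab
    have := hφ.inj (hmball a ha) (hmball b hb') hab
    exact mul_left_cancel₀ hβ0 this
  obtain ⟨h3, h4⟩ := n0_one hD s cf hcert hφ' hinj' (by simpa using hφ.zero)
    (C := C) (fun ζ hζ => hb _ (hmball ζ hζ))
  have hrot : ∀ ζ : ℂ, n0 (fun x => φ (β * x)) 1 ζ = n0 φ β (β * ζ) := by
    intro ζ
    rw [n0_rot φ β hβ ζ]
    have : conj β * β = 1 := by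
      rw [mul_comm, Complex.mul_conj, Complex.normSq_eq_norm_sq, hβ]; simp
    rw [this]
  constructor
  · have h6 := (mp_unit hβ).integrableOn_comp_preimage (me_unit hβ) (f := n0 φ β) (s := ball 0 1)
    rw [ball_preimage hβ] at h6
    rw [← h6]
    refine h3.congr_fun ?_ isOpen_ball.measurableSet
    intro ζ _
    exact hrot ζ
  · have h6 := (mp_unit hβ).setIntegral_preimage_emb (me_unit hβ) (n0 φ β) (ball 0 1)
    rw [ball_preimage hβ] at h6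
    rw [← h6]
    simp_rw [hrot] at h4
    exact h4

end Crest.Agent.R101
end

-- ▼ part R101/Cert
section

/-!
# The pointwise certificate (E) for row 101

Only the constraint `‖e - I‖ ≤ 2` is used.
-/

set_option autoImplicit false

open Complex
open scoped ComplexConjugate

namespace Crest.Agent.R101

/-- support of the certificate -/
def certS : Finset (ℕ × ℕ × ℕ) :=
  {(0, 0, 0), (1, 0, 0), (2, 0, 0), (1, 1, 0), (2, 1, 0), (1, 2, 0), (3, 0, 0), (0, 0, 1)}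

/-- coefficients of the certificate -/
noncomputable def certF (m : ℕ × ℕ × ℕ) : ℂ :=
  if m = (0, 0, 0) then 1 / 20 * I
  else if m = (1, 0, 0) then -(9 / 200)
  else if m = (2, 0, 0) then -(133 / 200) * I
  else if m = (1, 1, 0) then 9 / 50 * I
  else if m = (2, 1, 0) then -(8 / 25)
  else if m = (1, 2, 0) then 9 / 200
  else if m = (3, 0, 0) then -(1 / 50)
  else if m = (0, 0, 1) then 3 / 200
  else 0

/-- the sum of squares identity in real variables -/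
theorem cert_real (p q x y : ℝ) (h : x ^ 2 + y ^ 2 ≤ 4) :
    1 / 5 ≤ 200 * (p ^ 2 - q ^ 2 - (p ^ 2 + q ^ 2) ^ 2)
      + 10 * (1 - 4 * p)
      - 9 * (2 * p - 4 * (p ^ 2 + q ^ 2))
      - 67 * (3 * (p ^ 2 - q ^ 2) - 4 * p * (p ^ 2 + q ^ 2))
      + 36 * (3 * (p ^ 2 + q ^ 2) - 6 * p * (p ^ 2 + q ^ 2) - 2 * (1 + x) * (p ^ 2 + q ^ 2))
      - 64 * (4 * p * (p ^ 2 + q ^ 2) - 6 * (p ^ 2 + q ^ 2) ^ 2
          - 2 * (p ^ 2 + q ^ 2) * ((1 + x) * p + y * q))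
      - 9 * (4 * p * (p ^ 2 + q ^ 2) - 8 * (p ^ 2 + q ^ 2) * (p ^ 2 - q ^ 2)
          - 4 * (p ^ 2 + q ^ 2) * ((1 + x) * p - y * q))
      + 4 * (4 * (p ^ 3 - 3 * p * q ^ 2) - 4 * (p ^ 2 + q ^ 2) * (p ^ 2 - q ^ 2))
      + 3 * (2 * (1 + x) - 4 * ((1 + x) * p + y * q)) := by
  have hs : 0 ≤ (62 / 5 - 378 / 5 * p + 593 / 5 * p ^ 2 + 391 / 5 * q ^ 2)
      * (1 - (x ^ 2 + y ^ 2) / 4) := by
    apply mul_nonneg
    · nlinarith [sq_nonneg (p - 189 / 593), sq_nonneg q]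
    · linarith
  have key : 200 * (p ^ 2 - q ^ 2 - (p ^ 2 + q ^ 2) ^ 2)
      + 10 * (1 - 4 * p)
      - 9 * (2 * p - 4 * (p ^ 2 + q ^ 2))
      - 67 * (3 * (p ^ 2 - q ^ 2) - 4 * p * (p ^ 2 + q ^ 2))
      + 36 * (3 * (p ^ 2 + q ^ 2) - 6 * p * (p ^ 2 + q ^ 2) - 2 * (1 + x) * (p ^ 2 + q ^ 2))
      - 64 * (4 * p * (p ^ 2 + q ^ 2) - 6 * (p ^ 2 + q ^ 2) ^ 2
          - 2 * (p ^ 2 + q ^ 2) * ((1 + x) * p + y * q))
      - 9 * (4 * p * (p ^ 2 + q ^ 2) - 8 * (p ^ 2 + q ^ 2) * (p ^ 2 - q ^ 2)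
          - 4 * (p ^ 2 + q ^ 2) * ((1 + x) * p - y * q))
      + 4 * (4 * (p ^ 3 - 3 * p * q ^ 2) - 4 * (p ^ 2 + q ^ 2) * (p ^ 2 - q ^ 2))
      + 3 * (2 * (1 + x) - 4 * ((1 + x) * p + y * q)) - 1 / 5
      - (62 / 5 - 378 / 5 * p + 593 / 5 * p ^ 2 + 391 / 5 * q ^ 2) * (1 - (x ^ 2 + y ^ 2) / 4)
      = (17/5)*(1 + (14/17)*p + (-133/17)*p^2 + (-78/17)*q^2 + (15/17)*x + (-47/17)*(p*x)
          + (-22/17)*(q*y))^2
    + (56/17)*(p + (-86/35)*p^2 + (-8/35)*q^2 + (79/280)*x + (-209/280)*(p*x) + (19/280)*(q*y))^2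
    + (2101/175)*(p^2 + (998/2101)*q^2 + (-8/2101)*x + (423/2101)*(p*x) + (967/2101)*(q*y))^2
    + (562464/10505)*(q^2 + (-23123/562464)*x + (52109/562464)*(p*x) + (6781/15624)*(q*y))^2
    + (56275/562464)*(x + (-700313/281375)*(p*x) + (550224/281375)*(q*y))^2
    + (1465691/5627500)*(p*x + (-992068/1465691)*(q*y))^2
    + (8324625/11725528)*(q*y)^2
    + 26*(q + (-121/65)*(p*q) + (-99/130)*(q*x) + (-4/65)*y + (29/130)*(p*y))^2
    + (6078/325)*(p*q + (-757/3039)*(q*x) + (-874/3039)*y + (2827/3039)*(p*y))^2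
    + (201251/60780)*(q*x + (124100/201251)*y + (-355538/201251)*(p*y))^2
    + (393781/2012510)*(y + (-1942911/787562)*(p*y))^2
    + (10204947/15751240)*(p*y)^2 := by
    ring
  have hpos : 0 ≤ (17/5)*(1 + (14/17)*p + (-133/17)*p^2 + (-78/17)*q^2 + (15/17)*x + (-47/17)*(p*x)
          + (-22/17)*(q*y))^2
    + (56/17)*(p + (-86/35)*p^2 + (-8/35)*q^2 + (79/280)*x + (-209/280)*(p*x) + (19/280)*(q*y))^2
    + (2101/175)*(p^2 + (998/2101)*q^2 + (-8/2101)*x + (423/2101)*(p*x) + (967/2101)*(q*y))^2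
    + (562464/10505)*(q^2 + (-23123/562464)*x + (52109/562464)*(p*x) + (6781/15624)*(q*y))^2
    + (56275/562464)*(x + (-700313/281375)*(p*x) + (550224/281375)*(q*y))^2
    + (1465691/5627500)*(p*x + (-992068/1465691)*(q*y))^2
    + (8324625/11725528)*(q*y)^2
    + 26*(q + (-121/65)*(p*q) + (-99/130)*(q*x) + (-4/65)*y + (29/130)*(p*y))^2
    + (6078/325)*(p*q + (-757/3039)*(q*x) + (-874/3039)*y + (2827/3039)*(p*y))^2
    + (201251/60780)*(q*x + (124100/201251)*y + (-355538/201251)*(p*y))^2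
    + (393781/2012510)*(y + (-1942911/787562)*(p*y))^2
    + (10204947/15751240)*(p*y)^2 := by
    positivity
  linarith

theorem certSum (l e : ℂ) : nullP certS certF l e =
    1 / 20 * I * nullD 0 0 0 l e + (-(9 / 200)) * nullD 1 0 0 l e
    + (-(133 / 200) * I) * nullD 2 0 0 l e + 9 / 50 * I * nullD 1 1 0 l e
    + (-(8 / 25)) * nullD 2 1 0 l e + 9 / 200 * nullD 1 2 0 l e
    + (-(1 / 50)) * nullD 3 0 0 l e + 3 / 200 * nullD 0 0 1 l e := by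
  simp [nullP, certS, certF]
  ring

/-- The certificate: only `‖e - I‖ ≤ 2` is used. -/
theorem cert' (l e : ℂ) (h : ‖e - I‖ ≤ 2) : nDens l + (nullP certS certF l e).re ≤ -(1 / 2000) := by
  have h1 : (e.im - 1) ^ 2 + (-e.re) ^ 2 ≤ 4 := by
    have h2 : ‖e - I‖ ^ 2 ≤ 2 ^ 2 := by gcongr
    rw [← Complex.normSq_eq_norm_sq, Complex.normSq_apply] at h2
    simp only [sub_re, I_re, sub_zero, sub_im, I_im] at h2
    nlinarith
  have h3 := cert_real l.im (-l.re) (e.im - 1) (-e.re) h1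
  have h4 : nDens l + (nullP certS certF l e).re = -(1 / 400) * (200 * (l.im ^ 2 - (-l.re) ^ 2 - (l.im ^ 2 + (-l.re) ^ 2) ^ 2)
      + 10 * (1 - 4 * l.im)
      - 9 * (2 * l.im - 4 * (l.im ^ 2 + (-l.re) ^ 2))
      - 67 * (3 * (l.im ^ 2 - (-l.re) ^ 2) - 4 * l.im * (l.im ^ 2 + (-l.re) ^ 2))
      + 36 * (3 * (l.im ^ 2 + (-l.re) ^ 2) - 6 * l.im * (l.im ^ 2 + (-l.re) ^ 2) - 2 * (1 + (e.im - 1)) * (l.im ^ 2 + (-l.re) ^ 2))
      - 64 * (4 * l.im * (l.im ^ 2 + (-l.re) ^ 2) - 6 * (l.im ^ 2 + (-l.re) ^ 2) ^ 2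
          - 2 * (l.im ^ 2 + (-l.re) ^ 2) * ((1 + (e.im - 1)) * l.im + (-e.re) * (-l.re)))
      - 9 * (4 * l.im * (l.im ^ 2 + (-l.re) ^ 2) - 8 * (l.im ^ 2 + (-l.re) ^ 2) * (l.im ^ 2 - (-l.re) ^ 2)
          - 4 * (l.im ^ 2 + (-l.re) ^ 2) * ((1 + (e.im - 1)) * l.im - (-e.re) * (-l.re)))
      + 4 * (4 * (l.im ^ 3 - 3 * l.im * (-l.re) ^ 2) - 4 * (l.im ^ 2 + (-l.re) ^ 2) * (l.im ^ 2 - (-l.re) ^ 2))
      + 3 * (2 * (1 + (e.im - 1)) - 4 * ((1 + (e.im - 1)) * l.im + (-e.re) * (-l.re)))) := by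
    rw [certSum]
    obtain ⟨a, b⟩ := l
    obtain ⟨c, d⟩ := e
    simp only [nDens, nullD, pow_succ, pow_zero, one_mul, mul_one, Nat.cast_zero, Nat.cast_one,
      Nat.cast_ofNat, add_zero, zero_mul, mul_zero, zero_add, add_re, add_im, mul_re, mul_im,
      conj_re, conj_im, I_re, I_im, neg_re, neg_im, div_ofNat_re, div_ofNat_im, re_ofNat, im_ofNat,
      one_re, one_im]
    ring
  rw [h4]
  linarith

/-- The certificate in the form used by `ZData.N0_neg`. -/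
theorem cert (l e : ℂ) (h : ‖e - I‖ ≤ 2) (_h' : ‖e + 2 * l - I‖ ≤ 2) :
    nDens l + (nullP certS certF l e).re < 0 := by
  have := cert' l e h
  linarith

end Crest.Agent.R101
end

-- ▼ part R101/N0Neg
section

/-! Row 101: the final form of `n0_neg` (statement as in `Iface.lean`). -/

set_option autoImplicit false

open MeasureTheory Metric Set Complex ComplexConjugate Filter Topology

namespace Crest.Agent.R101

theorem bieberbachHP : BieberbachHP := by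
  intro v hv hi ξ hξ
  have h := Crest.Agent.Lib.Bieberbach.bieberbach_halfplane' (v := v) hv hi (x := ξ) hξ
  rwa [mul_div_assoc] at h

/-- N0 < 0. -/
theorem n0_neg {φ : ℂ → ℂ} (hφ : Conf φ) {β : ℂ} (hβ : ‖β‖ = 1) :
    IntegrableOn (n0 φ β) (ball 0 1) ∧ ∫ ζ in ball (0 : ℂ) 1, n0 φ β ζ < 0 :=
  n0_neg_of bieberbachHP certS certF cert hφ hβ

end Crest.Agent.R101
end

-- ▼ part R101/Assemble

/-! Row 101, combination step: `Setting φ U μ` is impossible, given `energy_le`, `parseval`,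
`n0_neg` and `growth` (statements as in `Iface.lean`, as explicit hypotheses here). -/

set_option autoImplicit false

open MeasureTheory Metric Set Complex ComplexConjugate Filter Topology

namespace Crest.Agent.R101

/-- statement of `growth`. -/
def GrowthStmt : Prop := ∀ {φ : ℂ → ℂ} {U : ℂ → ℝ} {μ : ℝ}, Setting φ U μ →
    ∃ C r : ℝ, 0 < r ∧ r < 1 ∧ ∀ z ∈ ball (0 : ℂ) r,
      |U z - U 0| ≤ C * ‖z‖ ^ 2 ∧ |dx U z| ≤ C * ‖z‖ ∧ |dy U z| ≤ C * ‖z‖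

/-- statement of `energy_le`. -/
def EnergyStmt : Prop := ∀ {φ : ℂ → ℂ} {U W : ℂ → ℝ} {μ c0 : ℝ}, Setting φ U μ →
    WSet φ W μ c0 → ∀ {β : ℂ}, ‖β‖ = 1 →
    IntegrableOn (fun ζ => c0 ^ 2 * (RR β ζ ^ 2 * ‖φ ζ‖ ^ 2 * rho φ ζ)
      + 2 * (W ζ ^ 2 * ‖MM' β ζ‖ ^ 2) - 2 * c0 * (RR β ζ * kap φ β ζ * W ζ)) (ball 0 1) ∧
    μ * ∫ ζ in ball (0 : ℂ) 1, (c0 ^ 2 * (RR β ζ ^ 2 * ‖φ ζ‖ ^ 2 * rho φ ζ)
      + 2 * (W ζ ^ 2 * ‖MM' β ζ‖ ^ 2) - 2 * c0 * (RR β ζ * kap φ β ζ * W ζ)) ≤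
    c0 ^ 2 * (∫ ζ in ball (0 : ℂ) 1, ‖hp φ β ζ‖ ^ 2) +
      c0 * μ * ∫ ζ in ball (0 : ℂ) 1, rho φ ζ * W ζ * (MM β ζ ^ 2).re

/-- statement of `parseval`. -/
def ParsevalStmt : Prop := ∀ {φ : ℂ → ℂ}, Conf φ →
    IntegrableOn (fun ζ => ‖hp φ 1 ζ‖ ^ 2) (ball 0 1) ∧
    IntegrableOn (fun ζ => ‖hp φ I ζ‖ ^ 2) (ball 0 1) ∧
    (∫ ζ in ball (0 : ℂ) 1, ‖hp φ 1 ζ‖ ^ 2) + (∫ ζ in ball (0 : ℂ) 1, ‖hp φ I ζ‖ ^ 2) =
      4 * ∫ ζ in ball (0 : ℂ) 1, rho φ ζ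

/-- statement of `n0_neg`. -/
def N0Stmt : Prop := ∀ {φ : ℂ → ℂ}, Conf φ → ∀ {β : ℂ}, ‖β‖ = 1 →
    IntegrableOn (n0 φ β) (ball 0 1) ∧ ∫ ζ in ball (0 : ℂ) 1, n0 φ β ζ < 0

namespace Assemble

lemma MM'_ne {β ζ : ℂ} (hβ : ‖β‖ = 1) (hζ : ζ ∈ ball (0 : ℂ) 1) : MM' β ζ ≠ 0 := by
  intro h
  unfold MM' at h
  rw [mem_ball_zero_iff] at hζ
  rcases eq_or_ne ζ 0 with rfl | h0
  · simp at h
    rw [h] at hβ
    simp at hβ
  · have h1 : conj β = β / ζ ^ 2 := by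
      have : conj β = β / ζ ^ 2 + (-β / ζ ^ 2 + conj β) := by ring
      rw [this, h, add_zero]
    have h2 : ‖conj β‖ = ‖β‖ / ‖ζ‖ ^ 2 := by
      rw [h1, norm_div, norm_pow]
    rw [RCLike.norm_conj, hβ] at h2
    have h3 : 0 < ‖ζ‖ := norm_pos_iff.mpr h0
    have h4 : ‖ζ‖ ^ 2 = 1 := by
      field_simp at h2
      exact h2
    nlinarith

lemma norm_MM_le {β ζ : ℂ} (hβ : ‖β‖ = 1) (h0 : ζ ≠ 0) (hζ : ‖ζ‖ ≤ 1) :
    ‖MM β ζ‖ ≤ 2 / ‖ζ‖ := by
  have h3 : 0 < ‖ζ‖ := norm_pos_iff.mpr h0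
  unfold MM
  calc ‖β / ζ + conj β * ζ‖ ≤ ‖β / ζ‖ + ‖conj β * ζ‖ := norm_add_le _ _
    _ = 1 / ‖ζ‖ + ‖ζ‖ := by rw [norm_div, norm_mul, RCLike.norm_conj, hβ, one_mul]
    _ ≤ 1 / ‖ζ‖ + 1 / ‖ζ‖ := by
        have : ‖ζ‖ ≤ 1 / ‖ζ‖ := by
          rw [le_div_iff₀ h3]; nlinarith
        linarith
    _ = 2 / ‖ζ‖ := by ring

lemma re_sq_sum {ζ : ℂ} (h0 : ζ ≠ 0) : (MM 1 ζ ^ 2).re + (MM I ζ ^ 2).re = 4 := by
  rw [← Complex.add_re]
  have : MM 1 ζ ^ 2 + MM I ζ ^ 2 = 4 := by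
    unfold MM
    simp only [map_one, Complex.conj_I]
    field_simp
    ring_nf
    simp only [Complex.I_sq]
    ring
  rw [this]; norm_num

lemma ae_restrict_of_ae_ne {s : Set ℂ} (hs : MeasurableSet s) {P : ℂ → Prop}
    (h : ∀ z ∈ s, z ≠ 0 → P z) : ∀ᵐ z ∂(volume.restrict s), P z := by
  rw [ae_restrict_iff' hs]
  have : ∀ᵐ z : ℂ ∂volume, z ≠ 0 := by
    rw [ae_iff]
    simp
  filter_upwards [this] with z hz hzs using h z hzs hz

/-- `ρ v` is integrable if `ρ v²` is. -/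
lemma rho_mul_integrable {φ : ℂ → ℂ} {v : ℂ → ℝ} (hφ : Conf φ) (hv : Adm φ v) :
    IntegrableOn (fun z => rho φ z * v z) (ball 0 1) := by
  have hd : ContinuousOn (deriv φ) (ball 0 1) :=
    (hφ.holo.deriv isOpen_ball).continuousOn
  have hρc : ContinuousOn (rho φ) (ball 0 1) := by
    unfold rho; exact hd.norm.pow 2
  have hmeas : AEStronglyMeasurable (fun z => rho φ z * v z) (volume.restrict (ball 0 1)) :=
    (hρc.mul hv.c1.continuousOn).aestronglyMeasurable measurableSet_ball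
  have hint : IntegrableOn (fun z => rho φ z + rho φ z * v z ^ 2) (ball 0 1) :=
    hφ.rho_int.add hv.l2
  refine Integrable.mono' hint hmeas (Eventually.of_forall fun z => ?_)
  have hρ : 0 ≤ rho φ z := by unfold rho; positivity
  rw [Real.norm_eq_abs, abs_mul, abs_of_nonneg hρ]
  have : |v z| ≤ 1 + v z ^ 2 := by
    rw [← sq_abs]; nlinarith [sq_nonneg (|v z| - 1), abs_nonneg (v z)]
  nlinarith

/-- integrability of `ρ W Re M²`. -/
lemma rho_W_MM_integrable {φ : ℂ → ℂ} {W : ℂ → ℝ} {μ c0 : ℝ} (hφ : Conf φ) (hW : WSet φ W μ c0)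
    {β : ℂ} (hβ : ‖β‖ = 1) :
    IntegrableOn (fun ζ => rho φ ζ * W ζ * (MM β ζ ^ 2).re) (ball 0 1) := by
  obtain ⟨C, r, hr0, hr1, hg⟩ := hW.growth
  have hρW := rho_mul_integrable hφ hW.adm
  have hint : IntegrableOn (fun z => 4 * |C| * rho φ z + (4 / r ^ 2) * |rho φ z * W z|)
      (ball 0 1) :=
    (hφ.rho_int.const_mul _).add (hρW.norm.const_mul _)
  have hmeas : AEStronglyMeasurable (fun ζ => rho φ ζ * W ζ * (MM β ζ ^ 2).re)
      (volume.restrict (ball 0 1)) := by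
    refine hρW.aestronglyMeasurable.mul ?_
    have : Measurable (fun ζ : ℂ => (MM β ζ ^ 2).re) := by
      unfold MM
      fun_prop
    exact this.aestronglyMeasurable
  refine Integrable.mono' hint hmeas (ae_restrict_of_ae_ne measurableSet_ball fun z hz h0 => ?_)
  have hz1 : ‖z‖ < 1 := by rwa [mem_ball_zero_iff] at hz
  have hz0 : 0 < ‖z‖ := norm_pos_iff.mpr h0
  have hρ : 0 ≤ rho φ z := by unfold rho; positivity
  have hM : |(MM β z ^ 2).re| ≤ 4 / ‖z‖ ^ 2 := by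
    calc |(MM β z ^ 2).re| ≤ ‖MM β z ^ 2‖ := Complex.abs_re_le_norm _
      _ = ‖MM β z‖ ^ 2 := norm_pow _ _
      _ ≤ (2 / ‖z‖) ^ 2 := pow_le_pow_left₀ (norm_nonneg _) (norm_MM_le hβ h0 hz1.le) 2
      _ = 4 / ‖z‖ ^ 2 := by rw [div_pow]; norm_num
  rw [Real.norm_eq_abs, abs_mul, abs_mul, abs_of_nonneg hρ]
  by_cases hzr : ‖z‖ < r
  · have hWz : |W z| ≤ C * ‖z‖ ^ 2 := (hg z (by rwa [mem_ball_zero_iff])).1
    have h1 : |W z| * |(MM β z ^ 2).re| ≤ 4 * |C| := by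
      calc |W z| * |(MM β z ^ 2).re| ≤ (|C| * ‖z‖ ^ 2) * (4 / ‖z‖ ^ 2) := by
            apply mul_le_mul _ hM (abs_nonneg _) (by positivity)
            exact hWz.trans (mul_le_mul_of_nonneg_right (le_abs_self C) (by positivity))
        _ = 4 * |C| := by field_simp
    have h2 : 0 ≤ 4 / r ^ 2 * (rho φ z * |W z|) := by positivity
    calc rho φ z * |W z| * |(MM β z ^ 2).re| = rho φ z * (|W z| * |(MM β z ^ 2).re|) := by ring
      _ ≤ rho φ z * (4 * |C|) := mul_le_mul_of_nonneg_left h1 hρ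
      _ ≤ 4 * |C| * rho φ z + 4 / r ^ 2 * (rho φ z * |W z|) := by linarith
  · have hrz : r ≤ ‖z‖ := not_lt.mp hzr
    have h1 : |(MM β z ^ 2).re| ≤ 4 / r ^ 2 := by
      refine hM.trans ?_
      apply div_le_div_of_nonneg_left (by norm_num) (by positivity)
      exact pow_le_pow_left₀ hr0.le hrz 2
    have h2 : 0 ≤ 4 * |C| * rho φ z := by positivity
    calc rho φ z * |W z| * |(MM β z ^ 2).re| ≤ rho φ z * |W z| * (4 / r ^ 2) :=
          mul_le_mul_of_nonneg_left h1 (by positivity)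
      _ ≤ 4 * |C| * rho φ z + 4 / r ^ 2 * (rho φ z * |W z|) := by linarith

/-- constants are admissible. -/
lemma adm_const {φ : ℂ → ℂ} (hφ : Conf φ) (c : ℝ) : Adm φ (fun _ => c) := by
  refine ⟨contDiffOn_const, hφ.rho_int.mul_const _, ?_⟩
  have : g2 (fun _ : ℂ => c) = fun _ => 0 := by
    funext z; simp [g2, dx, dy]
  rw [this]
  exact integrableOn_zero

/-- pointwise inequality. -/
lemma pointwise {φ : ℂ → ℂ} {W : ℂ → ℝ} {β ζ : ℂ} (hβ : ‖β‖ = 1) (hζ : ζ ∈ ball (0 : ℂ) 1) :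
    - n0 φ β ζ ≤ (1 : ℝ) ^ 2 * (RR β ζ ^ 2 * ‖φ ζ‖ ^ 2 * rho φ ζ)
      + 2 * (W ζ ^ 2 * ‖MM' β ζ‖ ^ 2) - 2 * 1 * (RR β ζ * kap φ β ζ * W ζ) := by
  have hm : 0 < ‖MM' β ζ‖ := norm_pos_iff.mpr (MM'_ne hβ hζ)
  unfold n0
  set m := ‖MM' β ζ‖
  set R := RR β ζ
  set κ := kap φ β ζ
  set w := W ζ
  have h1 : R ^ 2 * κ ^ 2 / (2 * m ^ 2) + 2 * (w ^ 2 * m ^ 2) - 2 * (R * κ * w) =
      (1 / 2) * (2 * w * m - R * κ / m) ^ 2 := by
    field_simp
    ring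
  have h2 : 0 ≤ (1 / 2) * (2 * w * m - R * κ / m) ^ 2 := by positivity
  linarith

/-- the case `U 0 = 0`. -/
lemma case_zero (hG : GrowthStmt) (hE : EnergyStmt) {φ : ℂ → ℂ} {U : ℂ → ℝ} {μ : ℝ}
    (h : Setting φ U μ) (hU0 : U 0 = 0) : False := by
  have hW : WSet φ U μ 0 := by
    refine ⟨h.adm, fun v hv => ?_, ?_⟩
    · rw [h.weak v hv, ← integral_const_mul]
      congr 1
      funext z
      ring
    · obtain ⟨C, r, hr0, hr1, hg⟩ := hG h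
      refine ⟨C, r, hr0, hr1, fun z hz => ?_⟩
      have := hg z hz
      rw [hU0, sub_zero] at this
      exact this
  obtain ⟨hint, hle⟩ := hE h hW (β := 1) (by simp)
  have hμ := h.μpos
  have hfun : (fun ζ => (0 : ℝ) ^ 2 * (RR 1 ζ ^ 2 * ‖φ ζ‖ ^ 2 * rho φ ζ)
      + 2 * (U ζ ^ 2 * ‖MM' 1 ζ‖ ^ 2) - 2 * 0 * (RR 1 ζ * kap φ 1 ζ * U ζ)) =
      fun ζ => 2 * (U ζ ^ 2 * ‖MM' 1 ζ‖ ^ 2) := by
    funext ζ; ring
  rw [hfun] at hint hle
  have hle' : ∫ ζ in ball (0 : ℂ) 1, 2 * (U ζ ^ 2 * ‖MM' 1 ζ‖ ^ 2) ≤ 0 := by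
    by_contra hcon
    push Not at hcon
    have := mul_pos hμ hcon
    norm_num at hle
    linarith
  have hnn : ∀ ζ, 0 ≤ 2 * (U ζ ^ 2 * ‖MM' 1 ζ‖ ^ 2) := fun ζ => by positivity
  have h0 : ∫ ζ in ball (0 : ℂ) 1, 2 * (U ζ ^ 2 * ‖MM' 1 ζ‖ ^ 2) = 0 :=
    le_antisymm hle' (integral_nonneg hnn)
  rw [integral_eq_zero_iff_of_nonneg hnn hint] at h0
  have hU : U =ᵐ[volume.restrict (ball (0 : ℂ) 1)] fun _ => (0 : ℝ) := by
    have hmem : ∀ᵐ z ∂(volume.restrict (ball (0 : ℂ) 1)), z ∈ ball (0 : ℂ) 1 :=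
      ae_restrict_mem measurableSet_ball
    filter_upwards [h0, hmem] with z hz hzm
    have hm : ‖MM' 1 z‖ ≠ 0 := norm_ne_zero_iff.mpr (MM'_ne (by simp) hzm)
    simp only [Pi.zero_apply, mul_eq_zero] at hz
    rcases hz with hz | hz | hz
    · norm_num at hz
    · exact pow_eq_zero_iff (two_ne_zero) |>.mp hz
    · exact absurd (pow_eq_zero_iff (two_ne_zero) |>.mp hz) hm
  have hEq : EqOn U (fun _ => (0 : ℝ)) (ball (0 : ℂ) 1) :=
    Measure.eqOn_open_of_ae_eq hU isOpen_ball h.adm.c1.continuousOn continuousOn_const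
  obtain ⟨z, hz, hne⟩ := h.nz
  exact hne (hEq hz)

/-- the normalised function in case `U 0 ≠ 0`. -/
lemma wset_of_ne (hG : GrowthStmt) {φ : ℂ → ℂ} {U : ℂ → ℝ} {μ : ℝ}
    (h : Setting φ U μ) (hU0 : U 0 ≠ 0) :
    WSet φ (fun z => (U z - U 0) / (μ * U 0)) μ 1 := by
  have hμ : μ ≠ 0 := h.μpos.ne'
  set c := μ * U 0 with hc
  have hc0 : c ≠ 0 := mul_ne_zero hμ hU0
  have hdiff : ∀ z ∈ ball (0 : ℂ) 1, fderiv ℝ (fun z => (U z - U 0) / c) z =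
      (1 / c) • fderiv ℝ U z := by
    intro z hz
    have hd : DifferentiableAt ℝ U z :=
      (h.adm.c1.differentiableOn one_ne_zero).differentiableAt (isOpen_ball.mem_nhds hz)
    have h1 : (fun z => (U z - U 0) / c) = fun z => (1 / c) * (U z - U 0) := by
      funext z; ring
    rw [h1, fderiv_const_mul (hd.sub_const _), fderiv_sub_const]
  have hdx : ∀ z ∈ ball (0 : ℂ) 1, dx (fun z => (U z - U 0) / c) z = (1 / c) * dx U z := by
    intro z hz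
    unfold dx
    rw [hdiff z hz]; simp
  have hdy : ∀ z ∈ ball (0 : ℂ) 1, dy (fun z => (U z - U 0) / c) z = (1 / c) * dy U z := by
    intro z hz
    unfold dy
    rw [hdiff z hz]; simp
  refine ⟨⟨?_, ?_, ?_⟩, ?_, ?_⟩
  · exact (h.adm.c1.sub contDiffOn_const).div_const _
  · have hρU := rho_mul_integrable h.conf h.adm
    have : (fun z => rho φ z * ((U z - U 0) / c) ^ 2) = fun z =>
        (1 / c ^ 2) * (rho φ z * U z ^ 2 - (2 * U 0) * (rho φ z * U z) + U 0 ^ 2 * rho φ z) := by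
      funext z
      field_simp
      ring
    rw [this]
    exact ((h.adm.l2.sub (hρU.const_mul _)).add (h.conf.rho_int.const_mul _)).const_mul _
  · have h1 : IntegrableOn (fun z => (1 / c) ^ 2 * g2 U z) (ball 0 1) := h.adm.en.const_mul _
    refine h1.congr_fun (fun z hz => ?_) measurableSet_ball
    simp only [g2]
    rw [hdx z hz, hdy z hz]
    ring
  · intro v hv
    have h1 : ∫ z in ball (0 : ℂ) 1, ip (fun z => (U z - U 0) / c) v z =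
        ∫ z in ball (0 : ℂ) 1, (1 / c) * ip U v z := by
      refine setIntegral_congr_fun measurableSet_ball (fun z hz => ?_)
      simp only [ip]
      rw [hdx z hz, hdy z hz]
      ring
    rw [h1, integral_const_mul, h.weak v hv, ← mul_assoc, ← integral_const_mul]
    congr 1
    funext z
    rw [hc]
    field_simp
    ring
  · obtain ⟨C, r, hr0, hr1, hg⟩ := hG h
    refine ⟨C / |c|, r, hr0, hr1, fun z hz => ?_⟩
    have hz1 : z ∈ ball (0 : ℂ) 1 := ball_subset_ball hr1.le hz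
    obtain ⟨g1, g2', g3⟩ := hg z hz
    have hcp : 0 < |c| := abs_pos.mpr hc0
    rw [hdx z hz1, hdy z hz1]
    refine ⟨?_, ?_, ?_⟩
    · rw [abs_div, div_mul_eq_mul_div]
      exact div_le_div_of_nonneg_right g1 hcp.le
    · rw [abs_mul, abs_div, abs_one, div_mul_eq_mul_div, div_mul_eq_mul_div, one_mul]
      exact div_le_div_of_nonneg_right g2' hcp.le
    · rw [abs_mul, abs_div, abs_one, div_mul_eq_mul_div, div_mul_eq_mul_div, one_mul]
      exact div_le_div_of_nonneg_right g3 hcp.le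

/-- `q(1) + q(I) = 0`. -/
lemma qq_sum (hP : ParsevalStmt) {φ : ℂ → ℂ} {W : ℂ → ℝ} {μ : ℝ} (hφ : Conf φ)
    (hW : WSet φ W μ 1) : qq φ W μ 1 + qq φ W μ I = 0 := by
  obtain ⟨_, _, hpars⟩ := hP hφ
  have hone := hW.weak _ (adm_const hφ 1)
  have hlhs : ∫ z in ball (0 : ℂ) 1, ip W (fun _ => (1 : ℝ)) z = 0 := by
    have : ∀ z, ip W (fun _ => (1 : ℝ)) z = 0 := fun z => by simp [ip, dx, dy]
    simp [this]
  rw [hlhs] at hone
  have hρW := rho_mul_integrable hφ hW.adm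
  have h1 : ∫ z in ball (0 : ℂ) 1, rho φ z * (1 + μ * W z) * 1 =
      (∫ z in ball (0 : ℂ) 1, rho φ z) + μ * ∫ z in ball (0 : ℂ) 1, rho φ z * W z := by
    rw [← integral_const_mul, ← integral_add hφ.rho_int (hρW.const_mul _)]
    congr 1
    funext z; ring
  rw [h1] at hone
  have hi1 := rho_W_MM_integrable hφ hW (β := 1) (by simp)
  have hiI := rho_W_MM_integrable hφ hW (β := I) (by simp)
  have h2 : (∫ ζ in ball (0 : ℂ) 1, rho φ ζ * W ζ * (MM 1 ζ ^ 2).re) +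
      (∫ ζ in ball (0 : ℂ) 1, rho φ ζ * W ζ * (MM I ζ ^ 2).re) =
      4 * ∫ z in ball (0 : ℂ) 1, rho φ z * W z := by
    rw [← integral_add hi1 hiI, ← integral_const_mul]
    refine integral_congr_ae (ae_restrict_of_ae_ne measurableSet_ball fun z hz h0 => ?_)
    have := re_sq_sum h0
    simp only
    rw [← mul_add, this]
    ring
  unfold qq
  linear_combination hpars + μ * h2 - 4 * hone

end Assemble

open Assemble in
/-- the combination step. -/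
theorem no_setting_of (hG : GrowthStmt) (hE : EnergyStmt) (hP : ParsevalStmt) (hN : N0Stmt)
    {φ : ℂ → ℂ} {U : ℂ → ℝ} {μ : ℝ} (h : Setting φ U μ) : False := by
  by_cases hU0 : U 0 = 0
  · exact case_zero hG hE h hU0
  · set W : ℂ → ℝ := fun z => (U z - U 0) / (μ * U 0) with hWdef
    have hW : WSet φ W μ 1 := wset_of_ne hG h hU0
    have hsum := qq_sum hP h.conf hW
    have hex : ∃ β : ℂ, ‖β‖ = 1 ∧ qq φ W μ β ≤ 0 := by
      by_cases h1 : qq φ W μ 1 ≤ 0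
      · exact ⟨1, by simp, h1⟩
      · exact ⟨I, by simp, by linarith⟩
    obtain ⟨β, hβ, hq⟩ := hex
    obtain ⟨hint, hle⟩ := hE h hW hβ
    obtain ⟨nint, nneg⟩ := hN h.conf hβ
    have hμ := h.μpos
    have hlow : - ∫ ζ in ball (0 : ℂ) 1, n0 φ β ζ ≤
        ∫ ζ in ball (0 : ℂ) 1, ((1 : ℝ) ^ 2 * (RR β ζ ^ 2 * ‖φ ζ‖ ^ 2 * rho φ ζ)
      + 2 * (W ζ ^ 2 * ‖MM' β ζ‖ ^ 2) - 2 * 1 * (RR β ζ * kap φ β ζ * W ζ)) := by
      rw [← integral_neg]
      exact setIntegral_mono_on nint.neg hint measurableSet_ball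
        (fun ζ hζ => pointwise hβ hζ)
    have hpos : 0 < ∫ ζ in ball (0 : ℂ) 1, ((1 : ℝ) ^ 2 * (RR β ζ ^ 2 * ‖φ ζ‖ ^ 2 * rho φ ζ)
      + 2 * (W ζ ^ 2 * ‖MM' β ζ‖ ^ 2) - 2 * 1 * (RR β ζ * kap φ β ζ * W ζ)) := by linarith
    have := mul_pos hμ hpos
    unfold qq at hq
    have hle2 : (1 : ℝ) ^ 2 * (∫ ζ in ball (0 : ℂ) 1, ‖hp φ β ζ‖ ^ 2) +
      1 * μ * ∫ ζ in ball (0 : ℂ) 1, rho φ ζ * W ζ * (MM β ζ ^ 2).re ≤ 0 := by
      rw [one_pow, one_mul, one_mul]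
      exact hq
    linarith

end Crest.Agent.R101
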