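import Crest.Agent.R101.Defs

-- ▼ part R101/CoreA
section

/-! Row 101: cutoffs, integration by parts, and the part `A = M (W_x - i W_y)` of the trial field:
weak divergence, weak curl and energy identity (general `c0`). -/

set_option autoImplicit false

open MeasureTheory Metric Set Complex ComplexConjugate Filter Topology
open scoped ContDiff

namespace Crest.Agent.R101

/-! ### calculus for `dx`, `dy` -/

theorem dx_mul {v w : ℂ → ℝ} {z : ℂ} (hv : DifferentiableAt ℝ v z) (hw : DifferentiableAt ℝ w z) :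
    dx (fun z => v z * w z) z = dx v z * w z + v z * dx w z := by
  unfold dx
  rw [fderiv_fun_mul hv hw]
  simp only [_root_.add_apply, _root_.smul_apply, smul_eq_mul]
  ring

theorem dy_mul {v w : ℂ → ℝ} {z : ℂ} (hv : DifferentiableAt ℝ v z) (hw : DifferentiableAt ℝ w z) :
    dy (fun z => v z * w z) z = dy v z * w z + v z * dy w z := by
  unfold dy
  rw [fderiv_fun_mul hv hw]
  simp only [_root_.add_apply, _root_.smul_apply, smul_eq_mul]
  ring



theorem measurable_dx (v : ℂ → ℝ) : Measurable (dx v) := measurable_fderiv_apply_const ℝ v 1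

theorem measurable_dy (v : ℂ → ℝ) : Measurable (dy v) := measurable_fderiv_apply_const ℝ v I

theorem continuousOn_dx {v : ℂ → ℝ} {S : Set ℂ} (hS : IsOpen S) (hv : ContDiffOn ℝ 1 v S) :
    ContinuousOn (dx v) S :=
  (hv.continuousOn_fderiv_of_isOpen hS le_rfl).clm_apply continuousOn_const

theorem continuousOn_dy {v : ℂ → ℝ} {S : Set ℂ} (hS : IsOpen S) (hv : ContDiffOn ℝ 1 v S) :
    ContinuousOn (dy v) S :=
  (hv.continuousOn_fderiv_of_isOpen hS le_rfl).clm_apply continuousOn_const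

/-- `|v_x| + |v_y|`. -/
noncomputable def gr (v : ℂ → ℝ) (z : ℂ) : ℝ := |dx v z| + |dy v z|

theorem gr_nonneg (v : ℂ → ℝ) (z : ℂ) : 0 ≤ gr v z := by unfold gr; positivity

theorem measurable_gr (v : ℂ → ℝ) : Measurable (gr v) :=
  (measurable_dx v).abs.add (measurable_dy v).abs

theorem measurable_g2 (v : ℂ → ℝ) : Measurable (g2 v) :=
  ((measurable_dx v).pow_const 2).add ((measurable_dy v).pow_const 2)

theorem gr_sq_le (v : ℂ → ℝ) (z : ℂ) : gr v z ^ 2 ≤ 2 * g2 v z := by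
  unfold gr g2
  nlinarith [sq_abs (dx v z), sq_abs (dy v z), sq_nonneg (|dx v z| - |dy v z|)]

theorem g2_le (v : ℂ → ℝ) (z : ℂ) : g2 v z ≤ gr v z ^ 2 := by
  unfold gr g2
  nlinarith [sq_abs (dx v z), sq_abs (dy v z), abs_nonneg (dx v z), abs_nonneg (dy v z),
    mul_nonneg (abs_nonneg (dx v z)) (abs_nonneg (dy v z))]

theorem g2_nonneg (v : ℂ → ℝ) (z : ℂ) : 0 ≤ g2 v z := by unfold g2; positivity

theorem abs_ip_le (v w : ℂ → ℝ) (z : ℂ) : |ip v w z| ≤ gr v z * gr w z := by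
  unfold ip gr
  refine (abs_add_le _ _).trans ?_
  rw [abs_mul, abs_mul]
  nlinarith [mul_nonneg (abs_nonneg (dx v z)) (abs_nonneg (dy w z)),
    mul_nonneg (abs_nonneg (dy v z)) (abs_nonneg (dx w z))]

theorem abs_rot_le (v w : ℂ → ℝ) (z : ℂ) :
    |dy v z * dx w z - dx v z * dy w z| ≤ gr v z * gr w z := by
  unfold gr
  refine (abs_sub _ _).trans ?_
  rw [abs_mul, abs_mul]
  nlinarith [mul_nonneg (abs_nonneg (dx v z)) (abs_nonneg (dx w z)),
    mul_nonneg (abs_nonneg (dy v z)) (abs_nonneg (dy w z))]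

/-! ### derivative bound for the smooth transition -/

theorem exists_st_bound : ∃ C : ℝ, 0 < C ∧ (∀ t, |deriv Real.smoothTransition t| ≤ C) ∧
    (∀ t, t < 0 → deriv Real.smoothTransition t = 0) ∧
    (∀ t, 1 < t → deriv Real.smoothTransition t = 0) := by
  have h0 : ∀ t, t < 0 → deriv Real.smoothTransition t = 0 := by
    intro t ht
    have : Real.smoothTransition =ᶠ[𝓝 t] fun _ => 0 := by
      filter_upwards [Iio_mem_nhds ht] with s hs
      exact Real.smoothTransition.zero_of_nonpos (le_of_lt hs)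
    rw [this.deriv_eq, deriv_const]
  have h1 : ∀ t, 1 < t → deriv Real.smoothTransition t = 0 := by
    intro t ht
    have : Real.smoothTransition =ᶠ[𝓝 t] fun _ => 1 := by
      filter_upwards [Ioi_mem_nhds ht] with s hs
      exact Real.smoothTransition.one_of_one_le (le_of_lt hs)
    rw [this.deriv_eq, deriv_const]
  have hc : Continuous (deriv Real.smoothTransition) :=
    (Real.smoothTransition.contDiff (n := 1)).continuous_deriv le_rfl
  obtain ⟨C, hC⟩ := (isCompact_Icc (a := (0:ℝ)) (b := 1)).exists_bound_of_continuousOn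
    hc.continuousOn
  refine ⟨max C 1, by positivity, ?_, h0, h1⟩
  intro t
  by_cases ht0 : t < 0
  · rw [h0 t ht0]; simp
  by_cases ht1 : 1 < t
  · rw [h1 t ht1]; simp
  push Not at ht0 ht1
  have := hC t ⟨ht0, ht1⟩
  rw [Real.norm_eq_abs] at this
  exact this.trans (le_max_left _ _)

/-- the constant of `exists_st_bound` -/
noncomputable def C0 : ℝ := exists_st_bound.choose

theorem C0_pos : 0 < C0 := exists_st_bound.choose_spec.1
theorem st_le (t : ℝ) : |deriv Real.smoothTransition t| ≤ C0 := exists_st_bound.choose_spec.2.1 t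
theorem st_neg {t : ℝ} (h : t < 0) : deriv Real.smoothTransition t = 0 :=
  exists_st_bound.choose_spec.2.2.1 t h
theorem st_gt {t : ℝ} (h : 1 < t) : deriv Real.smoothTransition t = 0 :=
  exists_st_bound.choose_spec.2.2.2 t h

/-! ### the cutoffs -/

/-- vanishes near `0` -/
noncomputable def cut (n : ℕ) (z : ℂ) : ℝ := Real.smoothTransition (n * ‖z‖ ^ 2 - 1)

/-- vanishes near the unit circle (and outside) -/
noncomputable def bc (n : ℕ) (z : ℂ) : ℝ := Real.smoothTransition (n * (1 - ‖z‖ ^ 2) - 1)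

theorem contDiff_cut (n : ℕ) {k : ℕ∞} : ContDiff ℝ k (cut n) := by
  unfold cut
  exact Real.smoothTransition.contDiff.comp
    ((contDiff_const.mul (contDiff_norm_sq ℝ)).sub contDiff_const)

theorem contDiff_bc (n : ℕ) {k : ℕ∞} : ContDiff ℝ k (bc n) := by
  unfold bc
  exact Real.smoothTransition.contDiff.comp
    ((contDiff_const.mul (contDiff_const.sub (contDiff_norm_sq ℝ))).sub contDiff_const)

theorem cut_nonneg (n : ℕ) (z : ℂ) : 0 ≤ cut n z := Real.smoothTransition.nonneg _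
theorem cut_le_one (n : ℕ) (z : ℂ) : cut n z ≤ 1 := Real.smoothTransition.le_one _
theorem bc_nonneg (n : ℕ) (z : ℂ) : 0 ≤ bc n z := Real.smoothTransition.nonneg _
theorem bc_le_one (n : ℕ) (z : ℂ) : bc n z ≤ 1 := Real.smoothTransition.le_one _

theorem hasFDerivAt_norm_sq' (z : ℂ) :
    HasFDerivAt (fun z : ℂ => ‖z‖ ^ 2) ((2 * z.re) • Complex.reCLM + (2 * z.im) • Complex.imCLM) z := by
  have h1 : (fun z : ℂ => ‖z‖ ^ 2) = fun z : ℂ => z.re ^ 2 + z.im ^ 2 := by
    funext z; rw [Complex.sq_norm, Complex.normSq_apply]; ring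
  rw [h1]
  have hr : HasFDerivAt (fun z : ℂ => z.re ^ 2) ((2 * z.re) • Complex.reCLM) z := by
    have := (Complex.reCLM.hasFDerivAt (x := z)).pow 2
    simpa using this
  have hi : HasFDerivAt (fun z : ℂ => z.im ^ 2) ((2 * z.im) • Complex.imCLM) z := by
    have := (Complex.imCLM.hasFDerivAt (x := z)).pow 2
    simpa using this
  exact hr.add hi

theorem dx_cut (n : ℕ) (z : ℂ) :
    dx (cut n) z = deriv Real.smoothTransition (n * ‖z‖ ^ 2 - 1) * (n * (2 * z.re)) := by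
  have h1 : HasFDerivAt (fun z : ℂ => (n : ℝ) * ‖z‖ ^ 2 - 1)
      ((n : ℝ) • ((2 * z.re) • Complex.reCLM + (2 * z.im) • Complex.imCLM)) z :=
    ((hasFDerivAt_norm_sq' z).const_mul (n : ℝ)).sub_const 1
  have h2 := ((Real.smoothTransition.contDiff (n := 1)).differentiable (by simp)
    ((n : ℝ) * ‖z‖ ^ 2 - 1)).hasDerivAt.comp_hasFDerivAt z h1
  unfold dx
  have h3 : HasFDerivAt (cut n) _ z := h2
  rw [h3.fderiv]
  simp

theorem dy_cut (n : ℕ) (z : ℂ) :
    dy (cut n) z = deriv Real.smoothTransition (n * ‖z‖ ^ 2 - 1) * (n * (2 * z.im)) := by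
  have h1 : HasFDerivAt (fun z : ℂ => (n : ℝ) * ‖z‖ ^ 2 - 1)
      ((n : ℝ) • ((2 * z.re) • Complex.reCLM + (2 * z.im) • Complex.imCLM)) z :=
    ((hasFDerivAt_norm_sq' z).const_mul (n : ℝ)).sub_const 1
  have h2 := ((Real.smoothTransition.contDiff (n := 1)).differentiable (by simp)
    ((n : ℝ) * ‖z‖ ^ 2 - 1)).hasDerivAt.comp_hasFDerivAt z h1
  unfold dy
  have h3 : HasFDerivAt (cut n) _ z := h2
  rw [h3.fderiv]
  simp

theorem dx_bc (n : ℕ) (z : ℂ) :
    dx (bc n) z = -(deriv Real.smoothTransition (n * (1 - ‖z‖ ^ 2) - 1) * (n * (2 * z.re))) := by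
  have h1 : HasFDerivAt (fun z : ℂ => (n : ℝ) * (1 - ‖z‖ ^ 2) - 1)
      ((n : ℝ) • (-((2 * z.re) • Complex.reCLM + (2 * z.im) • Complex.imCLM))) z :=
    (((hasFDerivAt_norm_sq' z).const_sub 1).const_mul (n : ℝ)).sub_const 1
  have h2 := ((Real.smoothTransition.contDiff (n := 1)).differentiable (by simp)
    ((n : ℝ) * (1 - ‖z‖ ^ 2) - 1)).hasDerivAt.comp_hasFDerivAt z h1
  unfold dx
  have h3 : HasFDerivAt (bc n) _ z := h2
  rw [h3.fderiv]
  simp

theorem dy_bc (n : ℕ) (z : ℂ) :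
    dy (bc n) z = -(deriv Real.smoothTransition (n * (1 - ‖z‖ ^ 2) - 1) * (n * (2 * z.im))) := by
  have h1 : HasFDerivAt (fun z : ℂ => (n : ℝ) * (1 - ‖z‖ ^ 2) - 1)
      ((n : ℝ) • (-((2 * z.re) • Complex.reCLM + (2 * z.im) • Complex.imCLM))) z :=
    (((hasFDerivAt_norm_sq' z).const_sub 1).const_mul (n : ℝ)).sub_const 1
  have h2 := ((Real.smoothTransition.contDiff (n := 1)).differentiable (by simp)
    ((n : ℝ) * (1 - ‖z‖ ^ 2) - 1)).hasDerivAt.comp_hasFDerivAt z h1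
  unfold dy
  have h3 : HasFDerivAt (bc n) _ z := h2
  rw [h3.fderiv]
  simp

/-- `|∇ cut| ≤ 8 C0 / |z|`. -/
theorem gr_cut_le (n : ℕ) {z : ℂ} (hz : z ≠ 0) : gr (cut n) z ≤ 8 * C0 / ‖z‖ := by
  have hz' : 0 < ‖z‖ := norm_pos_iff.2 hz
  have hC := C0_pos
  unfold gr
  rw [dx_cut, dy_cut]
  by_cases h : deriv Real.smoothTransition (n * ‖z‖ ^ 2 - 1) = 0
  · rw [h]; simp; positivity
  have h2 : (n : ℝ) * ‖z‖ ^ 2 ≤ 2 := by
    by_contra hh
    push Not at hh
    exact h (st_gt (by linarith))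
  have h3 : (n : ℝ) * ‖z‖ ≤ 2 / ‖z‖ := by
    rw [le_div_iff₀ hz']; nlinarith
  have hre : |z.re| ≤ ‖z‖ := Complex.abs_re_le_norm z
  have him : |z.im| ≤ ‖z‖ := Complex.abs_im_le_norm z
  have hst := st_le (n * ‖z‖ ^ 2 - 1)
  have key : ∀ t : ℝ, |t| ≤ ‖z‖ →
      |deriv Real.smoothTransition (n * ‖z‖ ^ 2 - 1) * (n * (2 * t))| ≤ 4 * C0 / ‖z‖ := by
    intro t ht
    rw [abs_mul]
    calc |deriv Real.smoothTransition (n * ‖z‖ ^ 2 - 1)| * |(n : ℝ) * (2 * t)|
        ≤ C0 * (2 * (2 / ‖z‖)) := by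
          apply mul_le_mul hst _ (abs_nonneg _) hC.le
          rw [abs_mul, abs_mul, Nat.abs_cast, abs_two]
          have hn : (0 : ℝ) ≤ n := Nat.cast_nonneg n
          calc (n : ℝ) * (2 * |t|) ≤ n * (2 * ‖z‖) := by gcongr
            _ = 2 * (n * ‖z‖) := by ring
            _ ≤ 2 * (2 / ‖z‖) := by linarith
      _ = 4 * C0 / ‖z‖ := by ring
  have h5 := key _ hre
  have h6 := key _ him
  have : 8 * C0 / ‖z‖ = 4 * C0 / ‖z‖ + 4 * C0 / ‖z‖ := by ring
  linarith

/-- `(1 - |z|²) |∇ bc| ≤ 8 C0 |z|`. -/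
theorem gr_bc_le (n : ℕ) {z : ℂ} (hz : ‖z‖ < 1) : (1 - ‖z‖ ^ 2) * gr (bc n) z ≤ 8 * C0 * ‖z‖ := by
  have hC := C0_pos
  have hz1 : 0 < 1 - ‖z‖ ^ 2 := by nlinarith [norm_nonneg z]
  unfold gr
  rw [dx_bc, dy_bc]
  by_cases h : deriv Real.smoothTransition (n * (1 - ‖z‖ ^ 2) - 1) = 0
  · rw [h]; simp; positivity
  have h2 : (n : ℝ) * (1 - ‖z‖ ^ 2) ≤ 2 := by
    by_contra hh
    push Not at hh
    exact h (st_gt (by linarith))
  have hre : |z.re| ≤ ‖z‖ := Complex.abs_re_le_norm z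
  have him : |z.im| ≤ ‖z‖ := Complex.abs_im_le_norm z
  have hst := st_le (n * (1 - ‖z‖ ^ 2) - 1)
  have key : ∀ t : ℝ, |t| ≤ ‖z‖ →
      (1 - ‖z‖ ^ 2) * |-(deriv Real.smoothTransition (n * (1 - ‖z‖ ^ 2) - 1) * (n * (2 * t)))|
        ≤ 4 * C0 * ‖z‖ := by
    intro t ht
    rw [abs_neg, abs_mul, abs_mul, abs_mul, Nat.abs_cast, abs_two]
    have hn : (0 : ℝ) ≤ n := Nat.cast_nonneg n
    calc (1 - ‖z‖ ^ 2) * (|deriv Real.smoothTransition (n * (1 - ‖z‖ ^ 2) - 1)| * (n * (2 * |t|)))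
        = |deriv Real.smoothTransition (n * (1 - ‖z‖ ^ 2) - 1)| *
            ((n * (1 - ‖z‖ ^ 2)) * (2 * |t|)) := by ring
      _ ≤ C0 * (2 * (2 * ‖z‖)) := by
          apply mul_le_mul hst _ (by positivity) hC.le
          apply mul_le_mul h2 _ (by positivity) (by norm_num)
          linarith
      _ = 4 * C0 * ‖z‖ := by ring
  have h5 := key _ hre
  have h6 := key _ him
  nlinarith

theorem cut_eventually {z : ℂ} (hz : z ≠ 0) : ∀ᶠ n : ℕ in atTop, cut n z = 1 ∧ gr (cut n) z = 0 := by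
  have hz' : 0 < ‖z‖ ^ 2 := by have := norm_pos_iff.2 hz; positivity
  obtain ⟨N, hN⟩ := exists_nat_gt (2 / ‖z‖ ^ 2)
  filter_upwards [eventually_ge_atTop N] with n hn
  have h1 : 2 < (n : ℝ) * ‖z‖ ^ 2 := by
    have : (N : ℝ) ≤ n := by exact_mod_cast hn
    rw [div_lt_iff₀ hz'] at hN
    nlinarith
  refine ⟨Real.smoothTransition.one_of_one_le (by linarith), ?_⟩
  unfold gr
  rw [dx_cut, dy_cut, st_gt (by linarith)]
  simp

theorem bc_eventually {z : ℂ} (hz : ‖z‖ < 1) : ∀ᶠ n : ℕ in atTop, bc n z = 1 ∧ gr (bc n) z = 0 := by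
  have hz' : 0 < 1 - ‖z‖ ^ 2 := by nlinarith [norm_nonneg z]
  obtain ⟨N, hN⟩ := exists_nat_gt (2 / (1 - ‖z‖ ^ 2))
  filter_upwards [eventually_ge_atTop N] with n hn
  have h1 : 2 < (n : ℝ) * (1 - ‖z‖ ^ 2) := by
    have : (N : ℝ) ≤ n := by exact_mod_cast hn
    rw [div_lt_iff₀ hz'] at hN
    nlinarith
  refine ⟨Real.smoothTransition.one_of_one_le (by linarith), ?_⟩
  unfold gr
  rw [dx_bc, dy_bc, st_gt (by linarith)]
  simp

theorem cut_eq_zero {n : ℕ} {z : ℂ} (h : (n : ℝ) * ‖z‖ ^ 2 ≤ 1) : cut n z = 0 :=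
  Real.smoothTransition.zero_of_nonpos (by linarith)

theorem bc_eq_zero {n : ℕ} {z : ℂ} (h : (n : ℝ) * (1 - ‖z‖ ^ 2) ≤ 1) : bc n z = 0 :=
  Real.smoothTransition.zero_of_nonpos (by linarith)

/-! ### supports and smoothness of cut-off functions -/

/-- compact set supporting `cut n * bc n` -/
def Kn (n : ℕ) : Set ℂ := {z | 1 ≤ (n : ℝ) * ‖z‖ ^ 2 ∧ 1 ≤ (n : ℝ) * (1 - ‖z‖ ^ 2)}

theorem isClosed_Kn (n : ℕ) : IsClosed (Kn n) := by
  have h1 : Continuous (fun z : ℂ => (n : ℝ) * ‖z‖ ^ 2) := by fun_prop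
  have h2 : Continuous (fun z : ℂ => (n : ℝ) * (1 - ‖z‖ ^ 2)) := by fun_prop
  exact (isClosed_le continuous_const h1).inter (isClosed_le continuous_const h2)

theorem Kn_sub (n : ℕ) : Kn n ⊆ ball (0 : ℂ) 1 \ {0} := by
  intro z hz
  obtain ⟨h1, h2⟩ := hz
  have hn : (0 : ℝ) ≤ n := Nat.cast_nonneg n
  refine ⟨?_, ?_⟩
  · rw [mem_ball_zero_iff]
    by_contra hh
    push Not at hh
    have : 1 - ‖z‖ ^ 2 ≤ 0 := by nlinarith
    nlinarith
  · intro h0
    rw [mem_singleton_iff] at h0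
    subst h0
    norm_num at h1

theorem isCompact_Kn (n : ℕ) : IsCompact (Kn n) :=
  (isCompact_closedBall (0 : ℂ) 1).of_isClosed_subset (isClosed_Kn n)
    ((Kn_sub n).trans (sdiff_subset.trans ball_subset_closedBall))

theorem cutbc_zero {n : ℕ} {z : ℂ} (h : z ∉ Kn n) : cut n z * bc n z = 0 := by
  have h' : (n : ℝ) * ‖z‖ ^ 2 < 1 ∨ (n : ℝ) * (1 - ‖z‖ ^ 2) < 1 := by
    by_contra hh
    push Not at hh
    exact h hh
  rcases h' with h | h
  · rw [cut_eq_zero h.le, zero_mul]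
  · rw [bc_eq_zero h.le, mul_zero]

theorem ts_cutbc (n : ℕ) (g : ℂ → ℝ) : tsupport (fun z => cut n z * bc n z * g z) ⊆ Kn n := by
  apply closure_minimal _ (isClosed_Kn n)
  intro z hz
  by_contra h
  apply hz
  simp only
  rw [cutbc_zero h, zero_mul]

theorem hcs_cutbc (n : ℕ) (g : ℂ → ℝ) : HasCompactSupport (fun z => cut n z * bc n z * g z) :=
  (isCompact_Kn n).of_isClosed_subset (isClosed_tsupport _) (ts_cutbc n g)

theorem isOpen_punct : IsOpen (ball (0 : ℂ) 1 \ {0}) := isOpen_ball.sdiff isClosed_singleton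

theorem contDiff_cutbc {k : ℕ∞} {g : ℂ → ℝ} (hg : ContDiffOn ℝ k g (ball 0 1 \ {0})) (n : ℕ) :
    ContDiff ℝ k (fun z => cut n z * bc n z * g z) := by
  rw [contDiff_iff_contDiffAt]
  intro z
  by_cases hz : z ∈ Kn n
  · have h1 : ContDiffAt ℝ k g z := hg.contDiffAt (isOpen_punct.mem_nhds (Kn_sub n hz))
    exact ((contDiff_cut n).contDiffAt.mul (contDiff_bc n).contDiffAt).mul h1
  · have h2 : (fun z => cut n z * bc n z * g z) =ᶠ[𝓝 z] fun _ => 0 := by
      filter_upwards [(isClosed_Kn n).isOpen_compl.mem_nhds hz] with w hw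
      rw [cutbc_zero hw, zero_mul]
    exact contDiffAt_const.congr_of_eventuallyEq h2

theorem contDiffOn_cut_mul {k : ℕ∞} {g : ℂ → ℝ} (hg : ContDiffOn ℝ k g (ball 0 1 \ {0})) (n : ℕ) :
    ContDiffOn ℝ k (fun z => cut n z * g z) (ball 0 1) := by
  intro z hz
  apply ContDiffAt.contDiffWithinAt
  by_cases h0 : z = 0
  · subst h0
    have h2 : (fun z => cut n z * g z) =ᶠ[𝓝 (0 : ℂ)] fun _ => 0 := by
      have hc : ContinuousAt (fun z : ℂ => (n : ℝ) * ‖z‖ ^ 2) 0 := by fun_prop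
      have h3 : ∀ᶠ z in 𝓝 (0 : ℂ), (n : ℝ) * ‖z‖ ^ 2 < 1 := by
        apply hc.eventually_lt continuousAt_const
        simp
      filter_upwards [h3] with w hw
      rw [cut_eq_zero hw.le, zero_mul]
    exact contDiffAt_const.congr_of_eventuallyEq h2
  · have h1 : ContDiffAt ℝ k g z := hg.contDiffAt (isOpen_punct.mem_nhds ⟨hz, h0⟩)
    exact (contDiff_cut n).contDiffAt.mul h1

/-! ### integration by parts -/

theorem integral_dx_zero {F : ℂ → ℝ} (hF : ContDiff ℝ 1 F) (hc : HasCompactSupport F) :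
    ∫ z, dx F z = 0 := by
  have hd : Continuous (fun z => fderiv ℝ F z 1) :=
    (hF.continuous_fderiv (by simp)).clm_apply continuous_const
  have hi : Integrable (fun z => fderiv ℝ F z 1) := hd.integrable_of_hasCompactSupport
    (hc.fderiv_apply (𝕜 := ℝ) 1)
  have h := integral_mul_fderiv_eq_neg_fderiv_mul_of_integrable (μ := (volume : Measure ℂ))
    (f := fun _ : ℂ => (1 : ℝ)) (g := F) (v := (1 : ℂ)) (by simp) (by simpa using hi)
    (by simpa using hF.continuous.integrable_of_hasCompactSupport hc)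
    (fun x _ => differentiableAt_const _) (fun x _ => hF.differentiable (by simp) x)
  simpa [dx] using h

theorem integral_dy_zero {F : ℂ → ℝ} (hF : ContDiff ℝ 1 F) (hc : HasCompactSupport F) :
    ∫ z, dy F z = 0 := by
  have hd : Continuous (fun z => fderiv ℝ F z I) :=
    (hF.continuous_fderiv (by simp)).clm_apply continuous_const
  have hi : Integrable (fun z => fderiv ℝ F z I) := hd.integrable_of_hasCompactSupport
    (hc.fderiv_apply (𝕜 := ℝ) I)
  have h := integral_mul_fderiv_eq_neg_fderiv_mul_of_integrable (μ := (volume : Measure ℂ))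
    (f := fun _ : ℂ => (1 : ℝ)) (g := F) (v := (I : ℂ)) (by simp) (by simpa using hi)
    (by simpa using hF.continuous.integrable_of_hasCompactSupport hc)
    (fun x _ => differentiableAt_const _) (fun x _ => hF.differentiable (by simp) x)
  simpa [dy] using h

theorem integrable_of_compact {F : ℂ → ℝ} {K : Set ℂ} (hK : IsCompact K)
    (hF : ContinuousOn F K) (hs : ∀ z, z ∉ K → F z = 0) : Integrable F := by
  have h1 : IntegrableOn F K := hF.integrableOn_compact hK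
  rwa [integrableOn_iff_integrable_of_support_subset] at h1
  intro z hz
  by_contra h
  exact hz (hs z h)

theorem curl_zero {W g : ℂ → ℝ} (hW : ContDiffOn ℝ 1 W (ball 0 1)) (hg : ContDiff ℝ 2 g)
    (hc : HasCompactSupport g) (hs : tsupport g ⊆ ball 0 1) :
    ∫ z in ball (0 : ℂ) 1, (dy W z * dx g z - dx W z * dy g z) = 0 := by
  have hK : IsCompact (tsupport g) := hc
  have hWd : ∀ z ∈ tsupport g, DifferentiableAt ℝ W z := fun z hz =>
    (hW.differentiableOn (by simp)).differentiableAt (isOpen_ball.mem_nhds (hs hz))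
  have hgx : ContDiff ℝ 1 (dx g) := (hg.fderiv_right (m := 1) (by norm_num)).clm_apply contDiff_const
  have hgy : ContDiff ℝ 1 (dy g) := (hg.fderiv_right (m := 1) (by norm_num)).clm_apply contDiff_const
  have hx0 : ∀ z, z ∉ tsupport g → dx g z = 0 := by
    intro z hz
    unfold dx
    rw [fderiv_of_notMem_tsupport ℝ hz]; simp
  have hy0 : ∀ z, z ∉ tsupport g → dy g z = 0 := by
    intro z hz
    unfold dy
    rw [fderiv_of_notMem_tsupport ℝ hz]; simp
  have tsx : tsupport (dx g) ⊆ tsupport g := by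
    apply closure_minimal _ (isClosed_tsupport g)
    intro z hz; by_contra h; exact hz (hx0 z h)
  have tsy : tsupport (dy g) ⊆ tsupport g := by
    apply closure_minimal _ (isClosed_tsupport g)
    intro z hz; by_contra h; exact hz (hy0 z h)
  have hWc : ContinuousOn W (tsupport g) := hW.continuousOn.mono hs
  have hWx : ContinuousOn (dx W) (tsupport g) := (continuousOn_dx isOpen_ball hW).mono hs
  have hWy : ContinuousOn (dy W) (tsupport g) := (continuousOn_dy isOpen_ball hW).mono hs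
  have hgxx : Continuous (fun z => fderiv ℝ (dx g) z I) :=
    (hgx.continuous_fderiv (by simp)).clm_apply continuous_const
  have hgyy : Continuous (fun z => fderiv ℝ (dy g) z 1) :=
    (hgy.continuous_fderiv (by simp)).clm_apply continuous_const
  have hxx0 : ∀ z, z ∉ tsupport g → fderiv ℝ (dx g) z I = 0 := by
    intro z hz
    rw [fderiv_of_notMem_tsupport ℝ (fun h => hz (tsx h))]; simp
  have hyy0 : ∀ z, z ∉ tsupport g → fderiv ℝ (dy g) z 1 = 0 := by
    intro z hz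
    rw [fderiv_of_notMem_tsupport ℝ (fun h => hz (tsy h))]; simp
  have i1 : Integrable (fun z => dy W z * dx g z) := integrable_of_compact hK
    (hWy.mul hgx.continuous.continuousOn) (fun z hz => by rw [hx0 z hz, mul_zero])
  have i2 : Integrable (fun z => dx W z * dy g z) := integrable_of_compact hK
    (hWx.mul hgy.continuous.continuousOn) (fun z hz => by rw [hy0 z hz, mul_zero])
  have i3 : Integrable (fun z => W z * fderiv ℝ (dx g) z I) := integrable_of_compact hK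
    (hWc.mul hgxx.continuousOn) (fun z hz => by rw [hxx0 z hz, mul_zero])
  have i4 : Integrable (fun z => W z * fderiv ℝ (dy g) z 1) := integrable_of_compact hK
    (hWc.mul hgyy.continuousOn) (fun z hz => by rw [hyy0 z hz, mul_zero])
  have i5 : Integrable (fun z => W z * dx g z) := integrable_of_compact hK
    (hWc.mul hgx.continuous.continuousOn) (fun z hz => by rw [hx0 z hz, mul_zero])
  have i6 : Integrable (fun z => W z * dy g z) := integrable_of_compact hK
    (hWc.mul hgy.continuous.continuousOn) (fun z hz => by rw [hy0 z hz, mul_zero])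
  have e1 := integral_mul_fderiv_eq_neg_fderiv_mul_of_integrable (μ := (volume : Measure ℂ))
    (f := W) (g := dx g) (v := I) i1 i3 i5 (fun x hx => hWd x (tsx hx))
    (fun x _ => hgx.differentiable (by simp) x)
  have e2 := integral_mul_fderiv_eq_neg_fderiv_mul_of_integrable (μ := (volume : Measure ℂ))
    (f := W) (g := dy g) (v := 1) i2 i4 i6 (fun x hx => hWd x (tsy hx))
    (fun x _ => hgy.differentiable (by simp) x)
  have hsym : ∀ z, fderiv ℝ (dx g) z I = fderiv ℝ (dy g) z 1 := by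
    intro z
    have hsy : IsSymmSndFDerivAt ℝ g z := hg.contDiffAt.isSymmSndFDerivAt (by simp)
    have hd : DifferentiableAt ℝ (fderiv ℝ g) z :=
      (hg.fderiv_right (m := 1) (by norm_num)).differentiable (by simp) z
    have a1 : fderiv ℝ (dx g) z I = fderiv ℝ (fderiv ℝ g) z I 1 := by
      unfold dx
      rw [fderiv_clm_apply hd (differentiableAt_const _)]
      simp
    have a2 : fderiv ℝ (dy g) z 1 = fderiv ℝ (fderiv ℝ g) z 1 I := by
      unfold dy
      rw [fderiv_clm_apply hd (differentiableAt_const _)]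
      simp
    rw [a1, a2]
    exact hsy.eq I 1
  rw [setIntegral_eq_integral_of_forall_compl_eq_zero, integral_sub i1 i2]
  · have e3 : ∫ z, W z * fderiv ℝ (dx g) z I = ∫ z, W z * fderiv ℝ (dy g) z 1 := by
      congr 1; funext z; rw [hsym]
    have e1' : ∫ z, dy W z * dx g z = -∫ z, W z * fderiv ℝ (dx g) z I := by
      rw [e1, neg_neg]; rfl
    have e2' : ∫ z, dx W z * dy g z = -∫ z, W z * fderiv ℝ (dy g) z 1 := by
      rw [e2, neg_neg]; rfl
    rw [e1', e2', e3]; ring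
  · intro z hz
    have : z ∉ tsupport g := fun h => hz (hs h)
    rw [hx0 z this, hy0 z this]; ring

end Crest.Agent.R101
end

-- ▼ part R101/CoreB
section

/-! Row 101: limits of cut-off identities; weak divergence and weak curl of `A = M (W_x - i W_y)`. -/

set_option autoImplicit false

open MeasureTheory Metric Set Complex ComplexConjugate Filter Topology
open scoped ContDiff

namespace Crest.Agent.R101

theorem integrableOn_inv_norm : IntegrableOn (fun z : ℂ => ‖z‖⁻¹) (ball 0 1) := by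
  rw [integrableOn_fun_norm_addHaar (μ := (volume : Measure ℂ)) (f := fun y => y⁻¹) (r := 1)]
  have : IntegrableOn (fun _ : ℝ => (1 : ℝ)) (Ioo 0 1) := by simp
  refine this.congr_fun ?_ measurableSet_Ioo
  intro y hy
  have : y ≠ 0 := hy.1.ne'
  simp [Complex.finrank_real_complex, this]

theorem ae_punct : ∀ᵐ z ∂(volume.restrict (ball (0 : ℂ) 1)), z ∈ ball (0 : ℂ) 1 ∧ z ≠ 0 := by
  have h1 : ∀ᵐ z ∂(volume.restrict (ball (0 : ℂ) 1)), z ∈ ball (0 : ℂ) 1 :=
    ae_restrict_mem measurableSet_ball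
  have h2 : ∀ᵐ z ∂(volume.restrict (ball (0 : ℂ) 1)), z ≠ 0 := by
    apply ae_restrict_of_ae
    exact compl_mem_ae_iff.2 (measure_singleton (0 : ℂ))
  filter_upwards [h1, h2] with z a b using ⟨a, b⟩

theorem dct {F : ℕ → ℂ → ℝ} {f G : ℂ → ℝ}
    (hF : ∀ n, AEStronglyMeasurable (F n) (volume.restrict (ball 0 1)))
    (hG : IntegrableOn G (ball 0 1))
    (hb : ∀ n, ∀ z ∈ ball (0 : ℂ) 1, z ≠ 0 → |F n z| ≤ G z)
    (hl : ∀ z ∈ ball (0 : ℂ) 1, z ≠ 0 → Tendsto (fun n => F n z) atTop (𝓝 (f z))) :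
    Tendsto (fun n => ∫ z in ball (0 : ℂ) 1, F n z) atTop (𝓝 (∫ z in ball (0 : ℂ) 1, f z)) := by
  apply tendsto_integral_of_dominated_convergence G hF hG
  · intro n
    filter_upwards [ae_punct] with z hz
    rw [Real.norm_eq_abs]
    exact hb n z hz.1 hz.2
  · filter_upwards [ae_punct] with z hz
    exact hl z hz.1 hz.2

/-- comparison on the punctured disc -/
theorem integrableOn_of_le {F G : ℂ → ℝ} (hF : AEStronglyMeasurable F (volume.restrict (ball 0 1)))
    (hG : IntegrableOn G (ball 0 1)) (h : ∀ z ∈ ball (0 : ℂ) 1, z ≠ 0 → |F z| ≤ G z) :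
    IntegrableOn F (ball 0 1) := by
  apply Integrable.mono' hG hF
  filter_upwards [ae_punct] with z hz
  rw [Real.norm_eq_abs]
  exact h z hz.1 hz.2

theorem integral_congr_punct {F G : ℂ → ℝ} (h : ∀ z ∈ ball (0 : ℂ) 1, z ≠ 0 → F z = G z) :
    ∫ z in ball (0 : ℂ) 1, F z = ∫ z in ball (0 : ℂ) 1, G z := by
  apply integral_congr_ae
  filter_upwards [ae_punct] with z hz using h z hz.1 hz.2

theorem measurable_rho (φ : ℂ → ℂ) : Measurable (rho φ) := by
  unfold rho
  exact (measurable_deriv φ).norm.pow_const 2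

theorem aesm_of_c1 {v : ℂ → ℝ} (hv : ContDiffOn ℝ 1 v (ball 0 1)) :
    AEStronglyMeasurable v (volume.restrict (ball 0 1)) :=
  hv.continuousOn.aestronglyMeasurable measurableSet_ball

theorem diffAt_of_c1 {v : ℂ → ℝ} (hv : ContDiffOn ℝ 1 v (ball 0 1)) {z : ℂ} (hz : z ∈ ball (0:ℂ) 1) :
    DifferentiableAt ℝ v z :=
  (hv.differentiableOn (by simp)).differentiableAt (isOpen_ball.mem_nhds hz)

theorem diffAt_of_c1' {v : ℂ → ℝ} (hv : ContDiffOn ℝ 1 v (ball 0 1 \ {0})) {z : ℂ}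
    (hz : z ∈ ball (0:ℂ) 1) (h0 : z ≠ 0) : DifferentiableAt ℝ v z :=
  (hv.differentiableOn (by simp)).differentiableAt (isOpen_punct.mem_nhds ⟨hz, h0⟩)

theorem gr_mul_le {v w : ℂ → ℝ} {z : ℂ} (hv : DifferentiableAt ℝ v z) (hw : DifferentiableAt ℝ w z) :
    gr (fun z => v z * w z) z ≤ |v z| * gr w z + |w z| * gr v z := by
  unfold gr
  rw [dx_mul hv hw, dy_mul hv hw]
  have h1 := abs_add_le (dx v z * w z) (v z * dx w z)
  have h2 := abs_add_le (dy v z * w z) (v z * dy w z)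
  rw [abs_mul, abs_mul] at h1 h2
  linarith

variable {φ : ℂ → ℂ} {W : ℂ → ℝ} {μ c0 : ℝ}

theorem gw_int (hW : WSet φ W μ c0) : IntegrableOn (fun z => gr W z / ‖z‖ ^ 2) (ball 0 1) := by
  obtain ⟨C, r, hr, hr1, hC⟩ := hW.growth
  have hG : IntegrableOn (fun z : ℂ => 2 * |C| * ‖z‖⁻¹ + (1 + 2 * g2 W z) / r ^ 2) (ball 0 1) := by
    apply Integrable.add
    · exact integrableOn_inv_norm.const_mul _
    · apply Integrable.div_const
      apply Integrable.add
      · exact integrableOn_const (measure_ball_lt_top.ne)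
      · exact hW.adm.en.const_mul _
  refine integrableOn_of_le ?_ hG ?_
  · exact ((measurable_gr W).div (by fun_prop)).aestronglyMeasurable
  · intro z hz h0
    have hz' : 0 < ‖z‖ := norm_pos_iff.2 h0
    have hg := gr_nonneg W z
    rw [abs_of_nonneg (by positivity)]
    by_cases hzr : ‖z‖ < r
    · have h1 := hC z (mem_ball_zero_iff.2 hzr)
      have h2 : gr W z ≤ 2 * |C| * ‖z‖ := by
        unfold gr
        have : C * ‖z‖ ≤ |C| * ‖z‖ := mul_le_mul_of_nonneg_right (le_abs_self C) hz'.le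
        linarith [h1.2.1, h1.2.2]
      have h3 : gr W z / ‖z‖ ^ 2 ≤ 2 * |C| * ‖z‖⁻¹ := by
        rw [div_le_iff₀ (by positivity)]
        have : 2 * |C| * ‖z‖⁻¹ * ‖z‖ ^ 2 = 2 * |C| * ‖z‖ := by field_simp
        rw [this]; exact h2
      have h4 : 0 ≤ (1 + 2 * g2 W z) / r ^ 2 := by have := g2_nonneg W z; positivity
      linarith
    · push Not at hzr
      have h5 : gr W z ≤ 1 + 2 * g2 W z := by
        have := gr_sq_le W z
        nlinarith [sq_nonneg (gr W z - 1)]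
      have h6 : gr W z / ‖z‖ ^ 2 ≤ (1 + 2 * g2 W z) / r ^ 2 := by
        apply div_le_div₀ (by have := g2_nonneg W z; positivity) h5 (by positivity)
        gcongr
      have h7 : 0 ≤ 2 * |C| * ‖z‖⁻¹ := by positivity
      linarith

theorem rho_bdd_near (hφ : Conf φ) {r : ℝ} (hr1 : r < 1) : ∃ K : ℝ, 0 ≤ K ∧ ∀ z, ‖z‖ ≤ r → rho φ z ≤ K := by
  have h1 : ContinuousOn (deriv φ) (ball 0 1) := (hφ.holo.deriv isOpen_ball).continuousOn
  have h2 : ContinuousOn (rho φ) (closedBall 0 r) := by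
    unfold rho
    exact ((h1.mono (closedBall_subset_ball hr1)).norm).pow 2
  obtain ⟨K, hK⟩ := (isCompact_closedBall (0 : ℂ) r).exists_bound_of_continuousOn h2
  refine ⟨max K 0, le_max_right _ _, ?_⟩
  intro z hz
  have := hK z (mem_closedBall_zero_iff.2 hz)
  exact (le_abs_self _).trans (this.trans (le_max_left _ _))

theorem rho_nonneg (φ : ℂ → ℂ) (z : ℂ) : 0 ≤ rho φ z := by unfold rho; positivity

theorem rhs_aesm (hW : WSet φ W μ c0) :
    AEStronglyMeasurable (fun z => rho φ z * (c0 + μ * W z)) (volume.restrict (ball 0 1)) :=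
  (measurable_rho φ).aestronglyMeasurable.mul
    (aestronglyMeasurable_const.add ((aesm_of_c1 hW.adm.c1).const_mul μ))

/-- `ρ |c0 + μ W| / |z|` is integrable. -/
theorem gf_int (hφ : Conf φ) (hW : WSet φ W μ c0) :
    IntegrableOn (fun z => rho φ z * |c0 + μ * W z| / ‖z‖) (ball 0 1) := by
  obtain ⟨C, r, hr, hr1, hC⟩ := hW.growth
  obtain ⟨K, hK0, hK⟩ := rho_bdd_near hφ hr1
  have hG : IntegrableOn (fun z : ℂ => K * (|c0| + |μ| * |C|) * ‖z‖⁻¹ +
      ((|c0| + |μ|) * rho φ z + |μ| * (rho φ z * W z ^ 2)) / r) (ball 0 1) := by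
    apply Integrable.add
    · exact integrableOn_inv_norm.const_mul _
    · apply Integrable.div_const
      apply Integrable.add
      · exact hφ.rho_int.const_mul _
      · exact hW.adm.l2.const_mul _
  refine integrableOn_of_le ?_ hG ?_
  · refine AEStronglyMeasurable.mul ?_ (by fun_prop)
    exact (measurable_rho φ).aestronglyMeasurable.mul
      (aestronglyMeasurable_const.add ((aesm_of_c1 hW.adm.c1).const_mul μ)).norm
  · intro z hz h0
    have hz' : 0 < ‖z‖ := norm_pos_iff.2 h0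
    have hz1 : ‖z‖ < 1 := mem_ball_zero_iff.1 hz
    have hrn := rho_nonneg φ z
    rw [abs_of_nonneg (by positivity)]
    have hab : |c0 + μ * W z| ≤ |c0| + |μ| * |W z| := by
      rw [← abs_mul]; exact abs_add_le _ _
    by_cases hzr : ‖z‖ < r
    · have h1 := (hC z (mem_ball_zero_iff.2 hzr)).1
      have h2 : |W z| ≤ |C| := by
        calc |W z| ≤ C * ‖z‖ ^ 2 := h1
          _ ≤ |C| * 1 := by
            apply mul_le_mul (le_abs_self C) _ (by positivity) (abs_nonneg C)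
            nlinarith
          _ = |C| := mul_one _
      have h3 : rho φ z * |c0 + μ * W z| ≤ K * (|c0| + |μ| * |C|) := by
        apply mul_le_mul (hK z hzr.le) _ (abs_nonneg _) hK0
        refine hab.trans ?_
        gcongr
      have h4 : rho φ z * |c0 + μ * W z| / ‖z‖ ≤ K * (|c0| + |μ| * |C|) * ‖z‖⁻¹ := by
        rw [div_eq_mul_inv]
        gcongr
      have h5 : 0 ≤ ((|c0| + |μ|) * rho φ z + |μ| * (rho φ z * W z ^ 2)) / r := by positivity
      linarith
    · push Not at hzr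
      have h6 : |W z| ≤ 1 + W z ^ 2 := by
        have := sq_abs (W z)
        nlinarith [sq_nonneg (|W z| - 1)]
      have h7 : rho φ z * |c0 + μ * W z| ≤ (|c0| + |μ|) * rho φ z + |μ| * (rho φ z * W z ^ 2) := by
        calc rho φ z * |c0 + μ * W z| ≤ rho φ z * (|c0| + |μ| * (1 + W z ^ 2)) := by
              apply mul_le_mul_of_nonneg_left _ hrn
              refine hab.trans ?_
              gcongr
          _ = _ := by ring
      have h8 : rho φ z * |c0 + μ * W z| / ‖z‖ ≤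
          ((|c0| + |μ|) * rho φ z + |μ| * (rho φ z * W z ^ 2)) / r := by
        apply div_le_div₀ (by positivity) h7 hr hzr
      have h9 : 0 ≤ K * (|c0| + |μ| * |C|) * ‖z‖⁻¹ := by positivity
      linarith

/-- the weak equation for test functions with a singularity at `0` -/
theorem weak_lim (hW : WSet φ W μ c0) {g : ℂ → ℝ}
    (hg : ContDiffOn ℝ 1 g (ball 0 1 \ {0})) (hadm : ∀ n, Adm φ (fun z => cut n z * g z))
    {G1 G2 : ℂ → ℝ} (hG1 : IntegrableOn G1 (ball 0 1)) (hG2 : IntegrableOn G2 (ball 0 1))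
    (h1 : ∀ z ∈ ball (0 : ℂ) 1, z ≠ 0 → gr W z * gr g z + gr W z * (|g z| / ‖z‖) ≤ G1 z)
    (h2 : ∀ z ∈ ball (0 : ℂ) 1, z ≠ 0 → rho φ z * |c0 + μ * W z| * |g z| ≤ G2 z) :
    ∫ z in ball (0 : ℂ) 1, ip W g z = ∫ z in ball (0 : ℂ) 1, rho φ z * (c0 + μ * W z) * g z := by
  have hC := C0_pos
  have hdxn : ∀ n, ∀ z ∈ ball (0 : ℂ) 1, z ≠ 0 → ip W (fun z => cut n z * g z) z =
      cut n z * ip W g z + g z * ip W (cut n) z := by
    intro n z hz h0
    have hd := diffAt_of_c1' hg hz h0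
    have hc : DifferentiableAt ℝ (cut n) z := (contDiff_cut n (k := 1)).differentiable (by simp) z
    unfold ip
    rw [dx_mul hc hd, dy_mul hc hd]
    ring
  have L : Tendsto (fun n => ∫ z in ball (0 : ℂ) 1, ip W (fun z => cut n z * g z) z) atTop
      (𝓝 (∫ z in ball (0 : ℂ) 1, ip W g z)) := by
    apply dct (G := fun z => (1 + 8 * C0) * G1 z)
    · intro n
      unfold ip
      exact (((measurable_dx _).mul (measurable_dx _)).add
        ((measurable_dy _).mul (measurable_dy _))).aestronglyMeasurable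
    · exact hG1.const_mul _
    · intro n z hz h0
      have hz' : 0 < ‖z‖ := norm_pos_iff.2 h0
      rw [hdxn n z hz h0]
      have a1 := abs_ip_le W g z
      have a2 := abs_ip_le W (cut n) z
      have a3 := gr_cut_le n h0
      have a4 := h1 z hz h0
      have g1 := gr_nonneg W z
      have g2' := gr_nonneg g z
      have g3 := gr_nonneg (cut n) z
      have c1 := cut_nonneg n z
      have c2 := cut_le_one n z
      have t1 : |cut n z * ip W g z| ≤ gr W z * gr g z := by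
        rw [abs_mul, abs_of_nonneg c1]
        calc cut n z * |ip W g z| ≤ 1 * (gr W z * gr g z) :=
              mul_le_mul c2 a1 (abs_nonneg _) zero_le_one
          _ = _ := one_mul _
      have t2 : |g z * ip W (cut n) z| ≤ 8 * C0 * (gr W z * (|g z| / ‖z‖)) := by
        rw [abs_mul]
        calc |g z| * |ip W (cut n) z| ≤ |g z| * (gr W z * (8 * C0 / ‖z‖)) := by
              apply mul_le_mul_of_nonneg_left _ (abs_nonneg _)
              exact a2.trans (mul_le_mul_of_nonneg_left a3 g1)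
          _ = _ := by ring
      have u1 : 0 ≤ gr W z * gr g z := by positivity
      have u2 : 0 ≤ gr W z * (|g z| / ‖z‖) := by positivity
      refine (abs_add_le _ _).trans ?_
      nlinarith [mul_nonneg hC.le u1]
    · intro z hz h0
      apply tendsto_const_nhds.congr'
      filter_upwards [cut_eventually h0] with n hn
      rw [hdxn n z hz h0, hn.1]
      have : ip W (cut n) z = 0 := by
        have := abs_ip_le W (cut n) z
        rw [hn.2, mul_zero] at this
        exact abs_eq_zero.1 (le_antisymm this (abs_nonneg _))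
      rw [this]; ring
  have Rr : Tendsto (fun n => ∫ z in ball (0 : ℂ) 1, rho φ z * (c0 + μ * W z) * (cut n z * g z)) atTop
      (𝓝 (∫ z in ball (0 : ℂ) 1, rho φ z * (c0 + μ * W z) * g z)) := by
    apply dct (G := G2)
    · intro n
      exact (rhs_aesm hW).mul (aesm_of_c1 (hadm n).c1)
    · exact hG2
    · intro n z hz h0
      have c1 := cut_nonneg n z
      have c2 := cut_le_one n z
      have hrn := rho_nonneg φ z
      refine le_trans ?_ (h2 z hz h0)
      rw [abs_mul, abs_mul, abs_mul, abs_of_nonneg hrn, abs_of_nonneg c1]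
      have : cut n z * |g z| ≤ 1 * |g z| := mul_le_mul_of_nonneg_right c2 (abs_nonneg _)
      rw [one_mul] at this
      exact mul_le_mul_of_nonneg_left this (by positivity)
    · intro z hz h0
      apply tendsto_const_nhds.congr'
      filter_upwards [cut_eventually h0] with n hn
      rw [hn.1, one_mul]
  refine tendsto_nhds_unique L ?_
  refine Rr.congr ?_
  intro n
  exact (hW.weak _ (hadm n)).symm

/-- the curl identity for functions with a singularity at `0` vanishing on the circle -/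
theorem curl_lim (hW : WSet φ W μ c0) {g : ℂ → ℝ} (hg : ContDiffOn ℝ 2 g (ball 0 1 \ {0})) {K : ℝ}
    (hK : 0 ≤ K)
    (h1 : ∀ z ∈ ball (0 : ℂ) 1, z ≠ 0 → |g z| ≤ K * (1 - ‖z‖ ^ 2) / ‖z‖)
    (h2 : ∀ z ∈ ball (0 : ℂ) 1, z ≠ 0 → gr g z ≤ K / ‖z‖ ^ 2) :
    ∫ z in ball (0 : ℂ) 1, (dy W z * dx g z - dx W z * dy g z) = 0 := by
  have hC := C0_pos
  have hg1 : ContDiffOn ℝ 1 g (ball 0 1 \ {0}) := hg.of_le (by norm_num)
  have hdxn : ∀ n, ∀ z ∈ ball (0 : ℂ) 1, z ≠ 0 →
      dy W z * dx (fun z => cut n z * bc n z * g z) z - dx W z * dy (fun z => cut n z * bc n z * g z) z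
      = cut n z * bc n z * (dy W z * dx g z - dx W z * dy g z) +
        g z * (bc n z * (dy W z * dx (cut n) z - dx W z * dy (cut n) z) +
          cut n z * (dy W z * dx (bc n) z - dx W z * dy (bc n) z)) := by
    intro n z hz h0
    have hd := diffAt_of_c1' hg1 hz h0
    have hc : DifferentiableAt ℝ (cut n) z := (contDiff_cut n (k := 1)).differentiable (by simp) z
    have hb : DifferentiableAt ℝ (bc n) z := (contDiff_bc n (k := 1)).differentiable (by simp) z
    have hcb : DifferentiableAt ℝ (fun z => cut n z * bc n z) z := hc.mul hb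
    rw [dx_mul hcb hd, dy_mul hcb hd, dx_mul hc hb, dy_mul hc hb]
    ring
  have hz : ∀ n, ∫ z in ball (0 : ℂ) 1, (dy W z * dx (fun z => cut n z * bc n z * g z) z -
      dx W z * dy (fun z => cut n z * bc n z * g z) z) = 0 := by
    intro n
    exact curl_zero hW.adm.c1 (contDiff_cutbc (k := 2) hg n) (hcs_cutbc n g)
      ((ts_cutbc n g).trans ((Kn_sub n).trans sdiff_subset))
  have L : Tendsto (fun n => ∫ z in ball (0 : ℂ) 1, (dy W z * dx (fun z => cut n z * bc n z * g z) z -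
      dx W z * dy (fun z => cut n z * bc n z * g z) z)) atTop
      (𝓝 (∫ z in ball (0 : ℂ) 1, (dy W z * dx g z - dx W z * dy g z))) := by
    apply dct (G := fun z => (K * (1 + 16 * C0)) * (gr W z / ‖z‖ ^ 2))
    · intro n
      exact (((measurable_dy _).mul (measurable_dx _)).sub
        ((measurable_dx _).mul (measurable_dy _))).aestronglyMeasurable
    · exact (gw_int hW).const_mul _
    · intro n z hz h0
      have hz' : 0 < ‖z‖ := norm_pos_iff.2 h0
      have hz1 : ‖z‖ < 1 := mem_ball_zero_iff.1 hz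
      have hz2 : 0 < 1 - ‖z‖ ^ 2 := by nlinarith
      rw [hdxn n z hz h0]
      have a1 := abs_rot_le W g z
      have a2 := abs_rot_le W (cut n) z
      have a2' := abs_rot_le W (bc n) z
      have a3 := gr_cut_le n h0
      have a3' := gr_bc_le n hz1
      have a4 := h1 z hz h0
      have a5 := h2 z hz h0
      have g1 := gr_nonneg W z
      have g2' := gr_nonneg g z
      have g3 := gr_nonneg (cut n) z
      have g3' := gr_nonneg (bc n) z
      have c1 := cut_nonneg n z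
      have c2 := cut_le_one n z
      have b1 := bc_nonneg n z
      have b2 := bc_le_one n z
      have t1 : |cut n z * bc n z * (dy W z * dx g z - dx W z * dy g z)| ≤ gr W z * (K / ‖z‖ ^ 2) := by
        rw [abs_mul, abs_of_nonneg (mul_nonneg c1 b1)]
        calc cut n z * bc n z * |dy W z * dx g z - dx W z * dy g z| ≤ 1 * (gr W z * (K / ‖z‖ ^ 2)) := by
              apply mul_le_mul _ (a1.trans (mul_le_mul_of_nonneg_left a5 g1)) (abs_nonneg _) zero_le_one
              nlinarith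
          _ = _ := one_mul _
      have t2 : |g z * (bc n z * (dy W z * dx (cut n) z - dx W z * dy (cut n) z))| ≤
          8 * C0 * (gr W z * (K / ‖z‖ ^ 2)) := by
        rw [abs_mul, abs_mul, abs_of_nonneg b1]
        have e1 : |g z| ≤ K / ‖z‖ := by
          refine a4.trans ?_
          gcongr
          nlinarith
        calc |g z| * (bc n z * |dy W z * dx (cut n) z - dx W z * dy (cut n) z|)
            ≤ (K / ‖z‖) * (1 * (gr W z * (8 * C0 / ‖z‖))) := by
              apply mul_le_mul e1 _ (by positivity) (by positivity)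
              apply mul_le_mul b2 (a2.trans (mul_le_mul_of_nonneg_left a3 g1)) (abs_nonneg _) zero_le_one
          _ = _ := by field_simp
      have t3 : |g z * (cut n z * (dy W z * dx (bc n) z - dx W z * dy (bc n) z))| ≤
          8 * C0 * (gr W z * (K / ‖z‖ ^ 2)) := by
        rw [abs_mul, abs_mul, abs_of_nonneg c1]
        calc |g z| * (cut n z * |dy W z * dx (bc n) z - dx W z * dy (bc n) z|)
            ≤ (K * (1 - ‖z‖ ^ 2) / ‖z‖) * (1 * (gr W z * gr (bc n) z)) := by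
              apply mul_le_mul a4 _ (by positivity) (by positivity)
              apply mul_le_mul c2 a2' (abs_nonneg _) zero_le_one
          _ = (K / ‖z‖ * gr W z) * ((1 - ‖z‖ ^ 2) * gr (bc n) z) := by ring
          _ ≤ (K / ‖z‖ * gr W z) * (8 * C0 * ‖z‖) := by
              apply mul_le_mul_of_nonneg_left a3' (by positivity)
          _ = 8 * C0 * (gr W z * K) := by field_simp
          _ ≤ 8 * C0 * (gr W z * (K / ‖z‖ ^ 2)) := by
              apply mul_le_mul_of_nonneg_left _ (by positivity)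
              apply mul_le_mul_of_nonneg_left _ g1
              rw [le_div_iff₀ (by positivity)]
              have : ‖z‖ ^ 2 ≤ 1 := by nlinarith
              nlinarith
      refine (abs_add_le _ _).trans ?_
      rw [mul_add]
      have t4 := abs_add_le (g z * (bc n z * (dy W z * dx (cut n) z - dx W z * dy (cut n) z)))
        (g z * (cut n z * (dy W z * dx (bc n) z - dx W z * dy (bc n) z)))
      have e2 : K * (1 + 16 * C0) * (gr W z / ‖z‖ ^ 2) = gr W z * (K / ‖z‖ ^ 2) +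
        8 * C0 * (gr W z * (K / ‖z‖ ^ 2)) + 8 * C0 * (gr W z * (K / ‖z‖ ^ 2)) := by ring
      rw [e2]
      linarith
    · intro z hz h0
      have hz1 : ‖z‖ < 1 := mem_ball_zero_iff.1 hz
      apply tendsto_const_nhds.congr'
      filter_upwards [cut_eventually h0, bc_eventually hz1] with n hn hb
      rw [hdxn n z hz h0, hn.1, hb.1]
      have e1 : dy W z * dx (cut n) z - dx W z * dy (cut n) z = 0 := by
        have := abs_rot_le W (cut n) z
        rw [hn.2, mul_zero] at this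
        exact abs_eq_zero.1 (le_antisymm this (abs_nonneg _))
      have e2 : dy W z * dx (bc n) z - dx W z * dy (bc n) z = 0 := by
        have := abs_rot_le W (bc n) z
        rw [hb.2, mul_zero] at this
        exact abs_eq_zero.1 (le_antisymm this (abs_nonneg _))
      rw [e1, e2]; ring
  refine tendsto_nhds_unique L ?_
  refine tendsto_const_nhds.congr ?_
  intro n
  exact (hz n).symm

end Crest.Agent.R101
end

-- ▼ part R101/CoreC

/-! Row 101: weak divergence, weak curl and energy of `A = M (W_x - i W_y)`. -/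

set_option autoImplicit false

open MeasureTheory Metric Set Complex ComplexConjugate Filter Topology
open scoped ContDiff

namespace Crest.Agent.R101

/-! ### `M` -/

theorem dx_re {F : ℂ → ℂ} {F' z : ℂ} (h : HasDerivAt F F' z) : dx (fun z => (F z).re) z = F'.re := by
  have h1 : HasFDerivAt (fun z => (F z).re)
      (Complex.reCLM.comp ((ContinuousLinearMap.toSpanSingleton ℂ F').restrictScalars ℝ)) z :=
    Complex.reCLM.hasFDerivAt.comp z (h.hasFDerivAt.restrictScalars ℝ)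
  unfold dx
  rw [h1.fderiv]
  simp

theorem dy_re {F : ℂ → ℂ} {F' z : ℂ} (h : HasDerivAt F F' z) : dy (fun z => (F z).re) z = -F'.im := by
  have h1 : HasFDerivAt (fun z => (F z).re)
      (Complex.reCLM.comp ((ContinuousLinearMap.toSpanSingleton ℂ F').restrictScalars ℝ)) z :=
    Complex.reCLM.hasFDerivAt.comp z (h.hasFDerivAt.restrictScalars ℝ)
  unfold dy
  rw [h1.fderiv]
  simp

theorem dx_im {F : ℂ → ℂ} {F' z : ℂ} (h : HasDerivAt F F' z) : dx (fun z => (F z).im) z = F'.im := by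
  have h1 : HasFDerivAt (fun z => (F z).im)
      (Complex.imCLM.comp ((ContinuousLinearMap.toSpanSingleton ℂ F').restrictScalars ℝ)) z :=
    Complex.imCLM.hasFDerivAt.comp z (h.hasFDerivAt.restrictScalars ℝ)
  unfold dx
  rw [h1.fderiv]
  simp

theorem dy_im {F : ℂ → ℂ} {F' z : ℂ} (h : HasDerivAt F F' z) : dy (fun z => (F z).im) z = F'.re := by
  have h1 : HasFDerivAt (fun z => (F z).im)
      (Complex.imCLM.comp ((ContinuousLinearMap.toSpanSingleton ℂ F').restrictScalars ℝ)) z :=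
    Complex.imCLM.hasFDerivAt.comp z (h.hasFDerivAt.restrictScalars ℝ)
  unfold dy
  rw [h1.fderiv]
  simp

theorem hasDerivAt_MM (β : ℂ) {z : ℂ} (hz : z ≠ 0) : HasDerivAt (MM β) (MM' β z) z := by
  unfold MM MM'
  have h1 : HasDerivAt (fun z : ℂ => β / z) (-β / z ^ 2) z := by
    have h := (hasDerivAt_inv hz).const_mul β
    have e1 : (fun z : ℂ => β / z) = fun y => β * y⁻¹ := by funext y; rw [div_eq_mul_inv]
    have e2 : -β / z ^ 2 = β * -(z ^ 2)⁻¹ := by rw [div_eq_mul_inv]; ring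
    rw [e1, e2]; exact h
  have h2 : HasDerivAt (fun z : ℂ => conj β * z) (conj β) z := by
    simpa using (hasDerivAt_id z).const_mul (conj β)
  exact h1.add h2

theorem hasDerivAt_MM' (β : ℂ) {z : ℂ} (hz : z ≠ 0) : HasDerivAt (MM' β) (2 * β / z ^ 3) z := by
  unfold MM'
  have h0 : HasDerivAt (fun z : ℂ => z ^ 2) (2 * z) z := by simpa using hasDerivAt_pow 2 z
  have h1 : HasDerivAt (fun z : ℂ => (z ^ 2)⁻¹) (-(2 * z) / (z ^ 2) ^ 2) z := h0.inv (pow_ne_zero 2 hz)
  have h2 := (h1.const_mul (-β)).add_const (conj β)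
  have e1 : (fun z : ℂ => -β / z ^ 2 + conj β) = fun y => -β * (y ^ 2)⁻¹ + conj β := by
    funext y; rw [div_eq_mul_inv]
  have e2 : 2 * β / z ^ 3 = -β * (-(2 * z) / (z ^ 2) ^ 2) := by field_simp
  rw [e1, e2]; exact h2

theorem norm_MM_le {β z : ℂ} (hβ : ‖β‖ = 1) (hz1 : ‖z‖ < 1) (h0 : z ≠ 0) : ‖MM β z‖ ≤ 2 / ‖z‖ := by
  have hz : 0 < ‖z‖ := norm_pos_iff.2 h0
  unfold MM
  refine (norm_add_le _ _).trans ?_
  rw [norm_div, norm_mul, RCLike.norm_conj, hβ, one_mul]
  have : ‖z‖ ≤ 1 / ‖z‖ := by rw [le_div_iff₀ hz]; nlinarith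
  have e : 2 / ‖z‖ = 1 / ‖z‖ + 1 / ‖z‖ := by ring
  linarith

theorem norm_MM'_le {β z : ℂ} (hβ : ‖β‖ = 1) (hz1 : ‖z‖ < 1) (h0 : z ≠ 0) :
    ‖MM' β z‖ ≤ 2 / ‖z‖ ^ 2 := by
  have hz : 0 < ‖z‖ := norm_pos_iff.2 h0
  unfold MM'
  refine (norm_add_le _ _).trans ?_
  rw [norm_div, norm_neg, RCLike.norm_conj, hβ, norm_pow]
  have : 1 ≤ 1 / ‖z‖ ^ 2 := by rw [le_div_iff₀ (by positivity)]; nlinarith
  have e : 2 / ‖z‖ ^ 2 = 1 / ‖z‖ ^ 2 + 1 / ‖z‖ ^ 2 := by ring
  linarith

theorem RR_eq {β z : ℂ} (h0 : z ≠ 0) : RR β z = (1 - ‖z‖ ^ 2) * (β / z).im := by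
  unfold RR MM
  have h1 : conj β * z = conj (β * conj z) := by simp
  have h2 : β * conj z = ((‖z‖ ^ 2 : ℝ) : ℂ) * (β / z) := by
    rw [← Complex.normSq_eq_norm_sq, ← Complex.mul_conj]
    field_simp
  rw [Complex.add_im, h1, Complex.conj_im, h2, Complex.im_ofReal_mul]
  ring

theorem abs_RR_le {β z : ℂ} (hβ : ‖β‖ = 1) (hz1 : ‖z‖ < 1) (h0 : z ≠ 0) :
    |RR β z| ≤ (1 - ‖z‖ ^ 2) / ‖z‖ := by
  have hz : 0 < ‖z‖ := norm_pos_iff.2 h0
  rw [RR_eq h0, abs_mul, abs_of_nonneg (by nlinarith), div_eq_mul_inv (1 - ‖z‖ ^ 2)]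
  apply mul_le_mul_of_nonneg_left _ (by nlinarith)
  refine (Complex.abs_im_le_norm _).trans ?_
  rw [norm_div, hβ, one_div]

theorem contDiffOn_MM (β : ℂ) {k : ℕ∞} : ContDiffOn ℝ k (MM β) (ball 0 1 \ {0}) := by
  intro z hz
  have h0 : z ≠ 0 := hz.2
  apply ContDiffAt.contDiffWithinAt
  unfold MM
  have h1 : ContDiffAt ℝ k (fun z : ℂ => β * z⁻¹) z :=
    contDiffAt_const.mul (contDiffAt_inv ℝ h0)
  have e1 : (fun z : ℂ => β / z + conj β * z) = fun z => β * z⁻¹ + conj β * z := by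
    funext y; rw [div_eq_mul_inv]
  rw [e1]
  exact h1.add (contDiffAt_const.mul contDiffAt_id)

theorem contDiffOn_Mre (β : ℂ) {k : ℕ∞} : ContDiffOn ℝ k (fun z => (MM β z).re) (ball 0 1 \ {0}) :=
  Complex.reCLM.contDiff.comp_contDiffOn (contDiffOn_MM β)

theorem contDiffOn_RR (β : ℂ) {k : ℕ∞} : ContDiffOn ℝ k (RR β) (ball 0 1 \ {0}) :=
  Complex.imCLM.contDiff.comp_contDiffOn (contDiffOn_MM β)

theorem dx_Mre (β : ℂ) {z : ℂ} (h0 : z ≠ 0) : dx (fun z => (MM β z).re) z = (MM' β z).re :=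
  dx_re (hasDerivAt_MM β h0)
theorem dy_Mre (β : ℂ) {z : ℂ} (h0 : z ≠ 0) : dy (fun z => (MM β z).re) z = -(MM' β z).im :=
  dy_re (hasDerivAt_MM β h0)
theorem dx_RR (β : ℂ) {z : ℂ} (h0 : z ≠ 0) : dx (RR β) z = (MM' β z).im :=
  dx_im (hasDerivAt_MM β h0)
theorem dy_RR (β : ℂ) {z : ℂ} (h0 : z ≠ 0) : dy (RR β) z = (MM' β z).re :=
  dy_im (hasDerivAt_MM β h0)

theorem gr_Mre_le {β z : ℂ} (hβ : ‖β‖ = 1) (hz1 : ‖z‖ < 1) (h0 : z ≠ 0) :
    gr (fun z => (MM β z).re) z ≤ 4 / ‖z‖ ^ 2 := by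
  unfold gr
  rw [dx_Mre β h0, dy_Mre β h0, abs_neg]
  have h1 := Complex.abs_re_le_norm (MM' β z)
  have h2 := Complex.abs_im_le_norm (MM' β z)
  have h3 := norm_MM'_le hβ hz1 h0
  have e : 4 / ‖z‖ ^ 2 = 2 / ‖z‖ ^ 2 + 2 / ‖z‖ ^ 2 := by ring
  linarith

theorem gr_RR_le {β z : ℂ} (hβ : ‖β‖ = 1) (hz1 : ‖z‖ < 1) (h0 : z ≠ 0) :
    gr (RR β) z ≤ 4 / ‖z‖ ^ 2 := by
  unfold gr
  rw [dx_RR β h0, dy_RR β h0]
  have h1 := Complex.abs_re_le_norm (MM' β z)
  have h2 := Complex.abs_im_le_norm (MM' β z)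
  have h3 := norm_MM'_le hβ hz1 h0
  have e : 4 / ‖z‖ ^ 2 = 2 / ‖z‖ ^ 2 + 2 / ‖z‖ ^ 2 := by ring
  linarith

/-! ### admissibility of cut-off functions -/

theorem adm_of_bdd {φ : ℂ → ℂ} (hφ : Conf φ) {g : ℂ → ℝ} (hg : ContDiffOn ℝ 1 g (ball 0 1)) {B : ℝ}
    (h1 : ∀ z ∈ ball (0 : ℂ) 1, z ≠ 0 → |g z| ≤ B) (h2 : ∀ z ∈ ball (0 : ℂ) 1, z ≠ 0 → gr g z ≤ B) :
    Adm φ g := by
  refine ⟨hg, ?_, ?_⟩
  · refine integrableOn_of_le ?_ (hφ.rho_int.const_mul (B ^ 2)) ?_
    · exact (measurable_rho φ).aestronglyMeasurable.mul ((aesm_of_c1 hg).pow 2)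
    · intro z hz h0
      have hr := rho_nonneg φ z
      rw [abs_of_nonneg (by positivity)]
      have := h1 z hz h0
      have h3 : g z ^ 2 ≤ B ^ 2 := by
        rw [← sq_abs]
        gcongr
      calc rho φ z * g z ^ 2 ≤ rho φ z * B ^ 2 := mul_le_mul_of_nonneg_left h3 hr
        _ = B ^ 2 * rho φ z := by ring
  · refine integrableOn_of_le (measurable_g2 g).aestronglyMeasurable
      (integrableOn_const (C := B ^ 2) measure_ball_lt_top.ne) ?_
    intro z hz h0
    rw [abs_of_nonneg (g2_nonneg g z)]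
    have h3 := h2 z hz h0
    have h4 := gr_nonneg g z
    calc g2 g z ≤ gr g z ^ 2 := g2_le g z
      _ ≤ B ^ 2 := by gcongr

theorem gr_cut_zero {n : ℕ} {z : ℂ} (h : (n : ℝ) * ‖z‖ ^ 2 < 1) : gr (cut n) z = 0 := by
  unfold gr
  rw [dx_cut, dy_cut, st_neg (by linarith)]
  simp

theorem adm_cut {φ : ℂ → ℂ} (hφ : Conf φ) {g : ℂ → ℝ} (hg : ContDiffOn ℝ 1 g (ball 0 1 \ {0}))
    {K : ℝ} (hK : 0 ≤ K)
    (h1 : ∀ z ∈ ball (0 : ℂ) 1, z ≠ 0 → |g z| ≤ K / ‖z‖)
    (h2 : ∀ z ∈ ball (0 : ℂ) 1, z ≠ 0 → gr g z ≤ K / ‖z‖ ^ 2) (n : ℕ) :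
    Adm φ (fun z => cut n z * g z) := by
  have hC := C0_pos
  have key : ∀ z ∈ ball (0 : ℂ) 1, z ≠ 0 → 1 ≤ (n : ℝ) * ‖z‖ ^ 2 → 1 / ‖z‖ ^ 2 ≤ n := by
    intro z hz h0 h
    have hz' : 0 < ‖z‖ := norm_pos_iff.2 h0
    rw [div_le_iff₀ (by positivity)]; exact h
  have hn0 : (0 : ℝ) ≤ n := Nat.cast_nonneg n
  refine adm_of_bdd (B := K * n * (1 + 8 * C0)) hφ (contDiffOn_cut_mul (k := 1) hg n) ?_ ?_
  · intro z hz h0
    have hz' : 0 < ‖z‖ := norm_pos_iff.2 h0
    have hz1 : ‖z‖ < 1 := mem_ball_zero_iff.1 hz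
    by_cases h : (n : ℝ) * ‖z‖ ^ 2 < 1
    · rw [cut_eq_zero h.le, zero_mul, abs_zero]; positivity
    · push Not at h
      have k1 := key z hz h0 h
      have c1 := cut_nonneg n z
      have c2 := cut_le_one n z
      rw [abs_mul, abs_of_nonneg c1]
      have : |g z| ≤ K * n := by
        calc |g z| ≤ K / ‖z‖ := h1 z hz h0
          _ = K * (1 / ‖z‖) := by ring
          _ ≤ K * n := by
            apply mul_le_mul_of_nonneg_left _ hK
            refine le_trans ?_ k1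
            apply one_div_le_one_div_of_le (by positivity)
            nlinarith
      calc cut n z * |g z| ≤ 1 * (K * n) := mul_le_mul c2 this (abs_nonneg _) zero_le_one
        _ ≤ K * n * (1 + 8 * C0) := by nlinarith [mul_nonneg hK hn0, mul_nonneg (mul_nonneg hK hn0) hC.le]
  · intro z hz h0
    have hz' : 0 < ‖z‖ := norm_pos_iff.2 h0
    have hz1 : ‖z‖ < 1 := mem_ball_zero_iff.1 hz
    have hd := diffAt_of_c1' hg hz h0
    have hc : DifferentiableAt ℝ (cut n) z := (contDiff_cut n (k := 1)).differentiable (by simp) z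
    have hm := gr_mul_le hc hd
    refine hm.trans ?_
    by_cases h : (n : ℝ) * ‖z‖ ^ 2 < 1
    · rw [cut_eq_zero h.le, gr_cut_zero h]; simp; positivity
    · push Not at h
      have k1 := key z hz h0 h
      have c1 := cut_nonneg n z
      have c2 := cut_le_one n z
      rw [abs_of_nonneg c1]
      have t1 : gr g z ≤ K * n := by
        calc gr g z ≤ K / ‖z‖ ^ 2 := h2 z hz h0
          _ = K * (1 / ‖z‖ ^ 2) := by ring
          _ ≤ K * n := mul_le_mul_of_nonneg_left k1 hK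
      have t2 : |g z| * gr (cut n) z ≤ K * n * (8 * C0) := by
        calc |g z| * gr (cut n) z ≤ (K / ‖z‖) * (8 * C0 / ‖z‖) :=
              mul_le_mul (h1 z hz h0) (gr_cut_le n h0) (gr_nonneg _ _) (by positivity)
          _ = K * (8 * C0) * (1 / ‖z‖ ^ 2) := by field_simp
          _ ≤ K * (8 * C0) * n := mul_le_mul_of_nonneg_left k1 (by positivity)
          _ = _ := by ring
      have t3 : cut n z * gr g z ≤ K * n := by
        calc cut n z * gr g z ≤ 1 * (K * n) := mul_le_mul c2 t1 (gr_nonneg _ _) zero_le_one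
          _ = _ := one_mul _
      nlinarith

/-! ### bounds for smooth test functions -/

theorem exists_bound_smooth {v : ℂ → ℝ} (hv : ContDiff ℝ ∞ v) :
    ∃ K : ℝ, 0 ≤ K ∧ ∀ z, ‖z‖ ≤ 1 → |v z| ≤ K ∧ gr v z ≤ K ∧ ‖fderiv ℝ v z‖ ≤ K := by
  have h1 : Continuous v := hv.continuous
  have h2 : Continuous (fderiv ℝ v) := hv.continuous_fderiv (by simp)
  obtain ⟨K1, hK1⟩ := (isCompact_closedBall (0 : ℂ) 1).exists_bound_of_continuousOn h1.continuousOn
  obtain ⟨K2, hK2⟩ := (isCompact_closedBall (0 : ℂ) 1).exists_bound_of_continuousOn h2.continuousOn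
  have hK20 : 0 ≤ K2 := le_trans (norm_nonneg _) (hK2 0 (by simp))
  have hK10 : 0 ≤ K1 := le_trans (norm_nonneg _) (hK1 0 (by simp))
  refine ⟨K1 + 2 * K2, by positivity, ?_⟩
  intro z hz
  have a1 := hK1 z (mem_closedBall_zero_iff.2 hz)
  have a2 := hK2 z (mem_closedBall_zero_iff.2 hz)
  rw [Real.norm_eq_abs] at a1
  have b1 : |dx v z| ≤ K2 := by
    have := (fderiv ℝ v z).le_opNorm 1
    rw [Real.norm_eq_abs, norm_one, mul_one] at this
    exact this.trans a2
  have b2 : |dy v z| ≤ K2 := by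
    have := (fderiv ℝ v z).le_opNorm I
    rw [Real.norm_eq_abs, Complex.norm_I, mul_one] at this
    exact this.trans a2
  refine ⟨by linarith, ?_, by linarith⟩
  unfold gr; linarith

theorem bound_of_zero_circle {B : ℂ → ℝ} (hB : ContDiff ℝ ∞ B) (hB0 : ∀ z, ‖z‖ = 1 → B z = 0) {K : ℝ}
    (hK : 0 ≤ K) (h : ∀ z, ‖z‖ ≤ 1 → ‖fderiv ℝ B z‖ ≤ K) {z : ℂ} (hz1 : ‖z‖ < 1) (h0 : z ≠ 0) :
    |B z| ≤ K * (1 - ‖z‖ ^ 2) := by
  have hz : 0 < ‖z‖ := norm_pos_iff.2 h0
  set w : ℂ := ((‖z‖⁻¹ : ℝ) : ℂ) * z with hw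
  have hw1 : ‖w‖ = 1 := by
    rw [hw, norm_mul, Complex.norm_real, Real.norm_eq_abs, abs_of_pos (by positivity)]
    field_simp
  have hd : ∀ x ∈ closedBall (0 : ℂ) 1, HasFDerivWithinAt B (fderiv ℝ B x) (closedBall 0 1) x :=
    fun x _ => (hB.differentiable (by simp) x).hasFDerivAt.hasFDerivWithinAt
  have hm := Convex.norm_image_sub_le_of_norm_hasFDerivWithin_le (𝕜 := ℝ) hd
    (fun x hx => h x (mem_closedBall_zero_iff.1 hx)) (convex_closedBall (0 : ℂ) 1)
    (mem_closedBall_zero_iff.2 hw1.le) (mem_closedBall_zero_iff.2 hz1.le)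
  rw [hB0 w hw1, sub_zero, Real.norm_eq_abs] at hm
  have hdist : ‖z - w‖ = 1 - ‖z‖ := by
    have : z - w = ((1 - ‖z‖⁻¹ : ℝ) : ℂ) * z := by rw [hw]; push_cast; ring
    rw [this, norm_mul, Complex.norm_real, Real.norm_eq_abs]
    have h1 : 1 ≤ ‖z‖⁻¹ := by rw [one_le_inv₀ hz]; exact hz1.le
    rw [abs_of_nonpos (by linarith)]
    field_simp
    ring
  rw [hdist] at hm
  refine hm.trans (mul_le_mul_of_nonneg_left ?_ hK)
  nlinarith

/-! ### weak divergence and curl -/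

noncomputable def VA1 (β : ℂ) (W : ℂ → ℝ) (z : ℂ) : ℝ := (MM β z).re * dx W z + RR β z * dy W z
noncomputable def VA2 (β : ℂ) (W : ℂ → ℝ) (z : ℂ) : ℝ := (MM β z).re * dy W z - RR β z * dx W z

variable {φ : ℂ → ℂ} {W : ℂ → ℝ} {μ c0 : ℝ}

/-- weak equation tested with `k v`, `|k| ≤ 2/|z|`, `|∇k| ≤ 4/|z|²` -/
theorem weak_kv (hφ : Conf φ) (hW : WSet φ W μ c0) {k v : ℂ → ℝ}
    (hk : ContDiffOn ℝ 1 k (ball 0 1 \ {0})) (hk1 : ∀ z ∈ ball (0 : ℂ) 1, z ≠ 0 → |k z| ≤ 2 / ‖z‖)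
    (hk2 : ∀ z ∈ ball (0 : ℂ) 1, z ≠ 0 → gr k z ≤ 4 / ‖z‖ ^ 2) (hv : ContDiff ℝ ∞ v) :
    IntegrableOn (ip W (fun z => k z * v z)) (ball 0 1) ∧
    IntegrableOn (fun z => rho φ z * (c0 + μ * W z) * (k z * v z)) (ball 0 1) ∧
    ∫ z in ball (0 : ℂ) 1, ip W (fun z => k z * v z) z =
      ∫ z in ball (0 : ℂ) 1, rho φ z * (c0 + μ * W z) * (k z * v z) := by
  obtain ⟨K, hK, hb⟩ := exists_bound_smooth hv
  have hg : ContDiffOn ℝ 1 (fun z => k z * v z) (ball 0 1 \ {0}) :=
    hk.mul ((hv.of_le (by simp)).contDiffOn)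
  have g1 : ∀ z ∈ ball (0 : ℂ) 1, z ≠ 0 → |k z * v z| ≤ 6 * K / ‖z‖ := by
    intro z hz h0
    have hz' : 0 < ‖z‖ := norm_pos_iff.2 h0
    have hz1 : ‖z‖ < 1 := mem_ball_zero_iff.1 hz
    rw [abs_mul]
    calc |k z| * |v z| ≤ (2 / ‖z‖) * K := mul_le_mul (hk1 z hz h0) (hb z hz1.le).1 (abs_nonneg _) (by positivity)
      _ = 2 * K / ‖z‖ := by ring
      _ ≤ 6 * K / ‖z‖ := by gcongr; norm_num
  have g2' : ∀ z ∈ ball (0 : ℂ) 1, z ≠ 0 → gr (fun z => k z * v z) z ≤ 6 * K / ‖z‖ ^ 2 := by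
    intro z hz h0
    have hz' : 0 < ‖z‖ := norm_pos_iff.2 h0
    have hz1 : ‖z‖ < 1 := mem_ball_zero_iff.1 hz
    have hm := gr_mul_le (diffAt_of_c1' hk hz h0) (hv.differentiable (by simp) z)
    refine hm.trans ?_
    have t1 : |k z| * gr v z ≤ 2 * K / ‖z‖ ^ 2 := by
      calc |k z| * gr v z ≤ (2 / ‖z‖) * K :=
            mul_le_mul (hk1 z hz h0) (hb z hz1.le).2.1 (gr_nonneg _ _) (by positivity)
        _ = 2 * K / ‖z‖ := by ring
        _ ≤ 2 * K / ‖z‖ ^ 2 := by
          apply div_le_div_of_nonneg_left (by positivity) (by positivity)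
          nlinarith
    have t2 : |v z| * gr k z ≤ 4 * K / ‖z‖ ^ 2 := by
      calc |v z| * gr k z ≤ K * (4 / ‖z‖ ^ 2) :=
            mul_le_mul (hb z hz1.le).1 (hk2 z hz h0) (gr_nonneg _ _) hK
        _ = _ := by ring
    have e : 6 * K / ‖z‖ ^ 2 = 2 * K / ‖z‖ ^ 2 + 4 * K / ‖z‖ ^ 2 := by ring
    linarith
  have hG1 : IntegrableOn (fun z => 12 * K * (gr W z / ‖z‖ ^ 2)) (ball 0 1) := (gw_int hW).const_mul _
  have hG2 : IntegrableOn (fun z => 6 * K * (rho φ z * |c0 + μ * W z| / ‖z‖)) (ball 0 1) :=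
    (gf_int hφ hW).const_mul _
  have h1 : ∀ z ∈ ball (0 : ℂ) 1, z ≠ 0 → gr W z * gr (fun z => k z * v z) z +
      gr W z * (|k z * v z| / ‖z‖) ≤ 12 * K * (gr W z / ‖z‖ ^ 2) := by
    intro z hz h0
    have hz' : 0 < ‖z‖ := norm_pos_iff.2 h0
    have a := mul_le_mul_of_nonneg_left (g2' z hz h0) (gr_nonneg W z)
    have b : gr W z * (|k z * v z| / ‖z‖) ≤ gr W z * (6 * K / ‖z‖ / ‖z‖) := by
      apply mul_le_mul_of_nonneg_left _ (gr_nonneg W z)
      exact div_le_div_of_nonneg_right (g1 z hz h0) hz'.le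
    have e : 12 * K * (gr W z / ‖z‖ ^ 2) = gr W z * (6 * K / ‖z‖ ^ 2) + gr W z * (6 * K / ‖z‖ / ‖z‖) := by
      field_simp; ring
    linarith
  have h2 : ∀ z ∈ ball (0 : ℂ) 1, z ≠ 0 → rho φ z * |c0 + μ * W z| * |k z * v z| ≤
      6 * K * (rho φ z * |c0 + μ * W z| / ‖z‖) := by
    intro z hz h0
    have hr := rho_nonneg φ z
    calc rho φ z * |c0 + μ * W z| * |k z * v z| ≤ rho φ z * |c0 + μ * W z| * (6 * K / ‖z‖) :=
          mul_le_mul_of_nonneg_left (g1 z hz h0) (by positivity)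
      _ = _ := by ring
  refine ⟨?_, ?_, weak_lim hW hg (adm_cut hφ hg (by positivity) g1 g2') hG1 hG2 h1 h2⟩
  · refine integrableOn_of_le ?_ hG1 ?_
    · unfold ip
      exact (((measurable_dx _).mul (measurable_dx _)).add
        ((measurable_dy _).mul (measurable_dy _))).aestronglyMeasurable
    · intro z hz h0
      have := h1 z hz h0
      have b : 0 ≤ gr W z * (|k z * v z| / ‖z‖) := mul_nonneg (gr_nonneg _ _) (by positivity)
      have := abs_ip_le W (fun z => k z * v z) z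
      linarith
  · refine integrableOn_of_le ?_ hG2 ?_
    · refine (rhs_aesm hW).mul ?_
      have hm : ContinuousOn (fun z => k z * v z) (ball 0 1 \ {0}) := hg.continuousOn
      have h3 : AEStronglyMeasurable (fun z => k z * v z) (volume.restrict (ball 0 1 \ {0})) :=
        hm.aestronglyMeasurable (measurableSet_ball.diff (measurableSet_singleton 0))
      rwa [Measure.restrict_congr_set (sdiff_null_ae_eq_self (measure_singleton (0 : ℂ)))] at h3
    · intro z hz h0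
      rw [abs_mul, abs_mul, abs_of_nonneg (rho_nonneg φ z)]
      exact h2 z hz h0

theorem div_A (hφ : Conf φ) (hW : WSet φ W μ c0) {β : ℂ} (hβ : ‖β‖ = 1) {v : ℂ → ℝ}
    (hv : ContDiff ℝ ∞ v) :
    IntegrableOn (fun z => VA1 β W z * dx v z + VA2 β W z * dy v z) (ball 0 1) ∧
    IntegrableOn (fun z => rho φ z * (c0 + μ * W z) * (MM β z).re * v z) (ball 0 1) ∧
    ∫ z in ball (0 : ℂ) 1, (VA1 β W z * dx v z + VA2 β W z * dy v z) =
      ∫ z in ball (0 : ℂ) 1, rho φ z * (c0 + μ * W z) * (MM β z).re * v z := by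
  obtain ⟨K, hK, hb⟩ := exists_bound_smooth hv
  have hMb : ∀ z ∈ ball (0 : ℂ) 1, z ≠ 0 → |(MM β z).re| ≤ 2 / ‖z‖ := fun z hz h0 =>
    (Complex.abs_re_le_norm _).trans (norm_MM_le hβ (mem_ball_zero_iff.1 hz) h0)
  have hMb2 : ∀ z ∈ ball (0 : ℂ) 1, z ≠ 0 → gr (fun z => (MM β z).re) z ≤ 4 / ‖z‖ ^ 2 :=
    fun z hz h0 => gr_Mre_le hβ (mem_ball_zero_iff.1 hz) h0
  obtain ⟨i1, i2, e1⟩ := weak_kv hφ hW (contDiffOn_Mre β (k := 1)) hMb hMb2 hv
  have hRc : ContDiffOn ℝ 2 (fun z => RR β z * v z) (ball 0 1 \ {0}) :=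
    (contDiffOn_RR β (k := 2)).mul ((hv.of_le (mod_cast le_top)).contDiffOn)
  have r1 : ∀ z ∈ ball (0 : ℂ) 1, z ≠ 0 → |RR β z * v z| ≤ (6 * K) * (1 - ‖z‖ ^ 2) / ‖z‖ := by
    intro z hz h0
    have hz' : 0 < ‖z‖ := norm_pos_iff.2 h0
    have hz1 : ‖z‖ < 1 := mem_ball_zero_iff.1 hz
    have hz2 : 0 < 1 - ‖z‖ ^ 2 := by nlinarith
    rw [abs_mul]
    calc |RR β z| * |v z| ≤ ((1 - ‖z‖ ^ 2) / ‖z‖) * K :=
          mul_le_mul (abs_RR_le hβ hz1 h0) (hb z hz1.le).1 (abs_nonneg _) (by positivity)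
      _ = K * (1 - ‖z‖ ^ 2) / ‖z‖ := by ring
      _ ≤ (6 * K) * (1 - ‖z‖ ^ 2) / ‖z‖ := by gcongr; linarith
  have r2 : ∀ z ∈ ball (0 : ℂ) 1, z ≠ 0 → gr (fun z => RR β z * v z) z ≤ 6 * K / ‖z‖ ^ 2 := by
    intro z hz h0
    have hz' : 0 < ‖z‖ := norm_pos_iff.2 h0
    have hz1 : ‖z‖ < 1 := mem_ball_zero_iff.1 hz
    have hz2 : 0 < 1 - ‖z‖ ^ 2 := by nlinarith
    have hm := gr_mul_le (diffAt_of_c1' (contDiffOn_RR β (k := 1)) hz h0) (hv.differentiable (by simp) z)
    refine hm.trans ?_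
    have t1 : |RR β z| * gr v z ≤ 2 * K / ‖z‖ ^ 2 := by
      calc |RR β z| * gr v z ≤ ((1 - ‖z‖ ^ 2) / ‖z‖) * K :=
            mul_le_mul (abs_RR_le hβ hz1 h0) (hb z hz1.le).2.1 (gr_nonneg _ _) (by positivity)
        _ = K * ((1 - ‖z‖ ^ 2) * ‖z‖) / ‖z‖ ^ 2 := by field_simp
        _ ≤ 2 * K / ‖z‖ ^ 2 := by
          apply div_le_div_of_nonneg_right _ (by positivity)
          nlinarith [mul_nonneg hK hz'.le]
    have t2 : |v z| * gr (RR β) z ≤ 4 * K / ‖z‖ ^ 2 := by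
      calc |v z| * gr (RR β) z ≤ K * (4 / ‖z‖ ^ 2) :=
            mul_le_mul (hb z hz1.le).1 (gr_RR_le hβ hz1 h0) (gr_nonneg _ _) hK
        _ = _ := by ring
    have e : 6 * K / ‖z‖ ^ 2 = 2 * K / ‖z‖ ^ 2 + 4 * K / ‖z‖ ^ 2 := by ring
    linarith
  have e2 := curl_lim hW hRc (K := 6 * K) (by positivity) r1 r2
  have i3 : IntegrableOn (fun z => dy W z * dx (fun z => RR β z * v z) z -
      dx W z * dy (fun z => RR β z * v z) z) (ball 0 1) := by
    refine integrableOn_of_le ?_ ((gw_int hW).const_mul (6 * K)) ?_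
    · exact (((measurable_dy _).mul (measurable_dx _)).sub
        ((measurable_dx _).mul (measurable_dy _))).aestronglyMeasurable
    · intro z hz h0
      refine (abs_rot_le W _ z).trans ?_
      calc gr W z * gr (fun z => RR β z * v z) z ≤ gr W z * (6 * K / ‖z‖ ^ 2) :=
            mul_le_mul_of_nonneg_left (r2 z hz h0) (gr_nonneg _ _)
        _ = _ := by ring
  have hpt : ∀ z ∈ ball (0 : ℂ) 1, z ≠ 0 → VA1 β W z * dx v z + VA2 β W z * dy v z =
      ip W (fun z => (MM β z).re * v z) z + (dy W z * dx (fun z => RR β z * v z) z -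
      dx W z * dy (fun z => RR β z * v z) z) := by
    intro z hz h0
    have d1 : DifferentiableAt ℝ (fun z => (MM β z).re) z :=
      diffAt_of_c1' (contDiffOn_Mre β (k := 1)) hz h0
    have d2 : DifferentiableAt ℝ (RR β) z := diffAt_of_c1' (contDiffOn_RR β (k := 1)) hz h0
    have d3 : DifferentiableAt ℝ v z := hv.differentiable (by simp) z
    unfold ip VA1 VA2
    rw [dx_mul d1 d3, dy_mul d1 d3, dx_mul d2 d3, dy_mul d2 d3, dx_Mre β h0, dy_Mre β h0,
      dx_RR β h0, dy_RR β h0]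
    ring
  have e3 : (fun z => rho φ z * (c0 + μ * W z) * ((MM β z).re * v z)) =
      fun z => rho φ z * (c0 + μ * W z) * (MM β z).re * v z := by funext z; ring
  rw [e3] at i2
  refine ⟨?_, i2, ?_⟩
  · refine (i1.add i3).congr ?_
    filter_upwards [ae_punct] with z hz
    exact (hpt z hz.1 hz.2).symm
  · rw [integral_congr_punct hpt, integral_add i1 i3, e2, add_zero, e1, e3]

theorem curl_A (hφ : Conf φ) (hW : WSet φ W μ c0) {β : ℂ} (hβ : ‖β‖ = 1) {B : ℂ → ℝ}
    (hB : ContDiff ℝ ∞ B) (hB0 : ∀ z, ‖z‖ = 1 → B z = 0) :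
    IntegrableOn (fun z => VA1 β W z * dy B z - VA2 β W z * dx B z) (ball 0 1) ∧
    IntegrableOn (fun z => rho φ z * (c0 + μ * W z) * RR β z * B z) (ball 0 1) ∧
    ∫ z in ball (0 : ℂ) 1, (VA1 β W z * dy B z - VA2 β W z * dx B z) =
      ∫ z in ball (0 : ℂ) 1, rho φ z * (c0 + μ * W z) * RR β z * B z := by
  obtain ⟨K, hK, hb⟩ := exists_bound_smooth hB
  have hMb : ∀ z ∈ ball (0 : ℂ) 1, z ≠ 0 → |RR β z| ≤ 2 / ‖z‖ := fun z hz h0 =>
    (Complex.abs_im_le_norm _).trans (norm_MM_le hβ (mem_ball_zero_iff.1 hz) h0)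
  have hMb2 : ∀ z ∈ ball (0 : ℂ) 1, z ≠ 0 → gr (RR β) z ≤ 4 / ‖z‖ ^ 2 :=
    fun z hz h0 => gr_RR_le hβ (mem_ball_zero_iff.1 hz) h0
  obtain ⟨i1, i2, e1⟩ := weak_kv hφ hW (contDiffOn_RR β (k := 1)) hMb hMb2 hB
  have hRc : ContDiffOn ℝ 2 (fun z => (MM β z).re * B z) (ball 0 1 \ {0}) :=
    (contDiffOn_Mre β (k := 2)).mul ((hB.of_le (mod_cast le_top)).contDiffOn)
  have r1 : ∀ z ∈ ball (0 : ℂ) 1, z ≠ 0 → |(MM β z).re * B z| ≤ (6 * K) * (1 - ‖z‖ ^ 2) / ‖z‖ := by
    intro z hz h0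
    have hz' : 0 < ‖z‖ := norm_pos_iff.2 h0
    have hz1 : ‖z‖ < 1 := mem_ball_zero_iff.1 hz
    have hz2 : 0 < 1 - ‖z‖ ^ 2 := by nlinarith
    have hBb := bound_of_zero_circle hB hB0 hK (fun z hz => (hb z hz).2.2) hz1 h0
    rw [abs_mul]
    calc |(MM β z).re| * |B z| ≤ (2 / ‖z‖) * (K * (1 - ‖z‖ ^ 2)) :=
          mul_le_mul ((Complex.abs_re_le_norm _).trans (norm_MM_le hβ hz1 h0)) hBb (abs_nonneg _)
            (by positivity)
      _ = (2 * K) * (1 - ‖z‖ ^ 2) / ‖z‖ := by ring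
      _ ≤ (6 * K) * (1 - ‖z‖ ^ 2) / ‖z‖ := by gcongr; norm_num
  have r2 : ∀ z ∈ ball (0 : ℂ) 1, z ≠ 0 → gr (fun z => (MM β z).re * B z) z ≤ 6 * K / ‖z‖ ^ 2 := by
    intro z hz h0
    have hz' : 0 < ‖z‖ := norm_pos_iff.2 h0
    have hz1 : ‖z‖ < 1 := mem_ball_zero_iff.1 hz
    have hz2 : 0 < 1 - ‖z‖ ^ 2 := by nlinarith
    have hm := gr_mul_le (diffAt_of_c1' (contDiffOn_Mre β (k := 1)) hz h0) (hB.differentiable (by simp) z)
    refine hm.trans ?_
    have t1 : |(MM β z).re| * gr B z ≤ 2 * K / ‖z‖ ^ 2 := by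
      calc |(MM β z).re| * gr B z ≤ (2 / ‖z‖) * K :=
            mul_le_mul ((Complex.abs_re_le_norm _).trans (norm_MM_le hβ hz1 h0)) (hb z hz1.le).2.1
              (gr_nonneg _ _) (by positivity)
        _ = 2 * K / ‖z‖ := by ring
        _ ≤ 2 * K / ‖z‖ ^ 2 := by
          apply div_le_div_of_nonneg_left (by positivity) (by positivity)
          nlinarith
    have t2 : |B z| * gr (fun z => (MM β z).re) z ≤ 4 * K / ‖z‖ ^ 2 := by
      calc |B z| * gr (fun z => (MM β z).re) z ≤ K * (4 / ‖z‖ ^ 2) :=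
            mul_le_mul (hb z hz1.le).1 (gr_Mre_le hβ hz1 h0) (gr_nonneg _ _) hK
        _ = _ := by ring
    have e : 6 * K / ‖z‖ ^ 2 = 2 * K / ‖z‖ ^ 2 + 4 * K / ‖z‖ ^ 2 := by ring
    linarith
  have e2 := curl_lim hW hRc (K := 6 * K) (by positivity) r1 r2
  have i3 : IntegrableOn (fun z => dy W z * dx (fun z => (MM β z).re * B z) z -
      dx W z * dy (fun z => (MM β z).re * B z) z) (ball 0 1) := by
    refine integrableOn_of_le ?_ ((gw_int hW).const_mul (6 * K)) ?_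
    · exact (((measurable_dy _).mul (measurable_dx _)).sub
        ((measurable_dx _).mul (measurable_dy _))).aestronglyMeasurable
    · intro z hz h0
      refine (abs_rot_le W _ z).trans ?_
      calc gr W z * gr (fun z => (MM β z).re * B z) z ≤ gr W z * (6 * K / ‖z‖ ^ 2) :=
            mul_le_mul_of_nonneg_left (r2 z hz h0) (gr_nonneg _ _)
        _ = _ := by ring
  have hpt : ∀ z ∈ ball (0 : ℂ) 1, z ≠ 0 → VA1 β W z * dy B z - VA2 β W z * dx B z =
      ip W (fun z => RR β z * B z) z - (dy W z * dx (fun z => (MM β z).re * B z) z -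
      dx W z * dy (fun z => (MM β z).re * B z) z) := by
    intro z hz h0
    have d1 : DifferentiableAt ℝ (fun z => (MM β z).re) z :=
      diffAt_of_c1' (contDiffOn_Mre β (k := 1)) hz h0
    have d2 : DifferentiableAt ℝ (RR β) z := diffAt_of_c1' (contDiffOn_RR β (k := 1)) hz h0
    have d3 : DifferentiableAt ℝ B z := hB.differentiable (by simp) z
    unfold ip VA1 VA2
    rw [dx_mul d1 d3, dy_mul d1 d3, dx_mul d2 d3, dy_mul d2 d3, dx_Mre β h0, dy_Mre β h0,
      dx_RR β h0, dy_RR β h0]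
    ring
  have e3 : (fun z => rho φ z * (c0 + μ * W z) * (RR β z * B z)) =
      fun z => rho φ z * (c0 + μ * W z) * RR β z * B z := by funext z; ring
  rw [e3] at i2
  refine ⟨?_, i2, ?_⟩
  · refine (i1.sub i3).congr ?_
    filter_upwards [ae_punct] with z hz
    exact (hpt z hz.1 hz.2).symm
  · rw [integral_congr_punct hpt, integral_sub i1 i3, e2, sub_zero, e1, e3]

end Crest.Agent.R101
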