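import Mathlib
import Crest.Agent.R101.Defs
import Crest.Agent.Lib.InjHolo

-- ▼ part R101/EnA
section

/-!
Row 101, part P5 (helper251): calculus on the unit disc with cutoffs.
`db G = 2 ∂_{\bar z} G`, `gr W = W_x + i W_y`; divergence lemmas with cutoffs at `0` and at the circle.
-/

set_option autoImplicit false

open MeasureTheory Metric Set Filter Topology Complex
open scoped ContDiff ComplexConjugate

namespace Crest.Agent.R101.En

/-- `2 ∂_{\bar z} G`. -/
noncomputable def db (G : ℂ → ℂ) (z : ℂ) : ℂ := fderiv ℝ G z 1 + I * fderiv ℝ G z I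

/-- complex gradient `W_x + i W_y` of a real function. -/
noncomputable def gr (W : ℂ → ℝ) (z : ℂ) : ℂ :=
  ((fderiv ℝ W z 1 : ℝ) : ℂ) + ((fderiv ℝ W z I : ℝ) : ℂ) * I

/-- derivative predicate for `2 ∂_{\bar z}`. -/
def HasDb (G : ℂ → ℂ) (d z : ℂ) : Prop :=
  ∃ L : ℂ →L[ℝ] ℂ, HasFDerivAt G L z ∧ L 1 + I * L I = d

theorem HasDb.db_eq {G : ℂ → ℂ} {d z : ℂ} (h : HasDb G d z) : db G z = d := by
  obtain ⟨L, hL, hd⟩ := h
  rw [db, hL.fderiv, hd]

theorem HasDb.differentiableAt {G : ℂ → ℂ} {d z : ℂ} (h : HasDb G d z) :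
    DifferentiableAt ℝ G z := by
  obtain ⟨L, hL, _⟩ := h
  exact hL.differentiableAt

theorem hasDb_of_differentiableAt {G : ℂ → ℂ} {z : ℂ} (h : DifferentiableAt ℝ G z) :
    HasDb G (db G z) z := ⟨_, h.hasFDerivAt, rfl⟩

theorem HasDb.congr_eventuallyEq {G H : ℂ → ℂ} {d z : ℂ} (h : HasDb G d z) (he : H =ᶠ[𝓝 z] G) :
    HasDb H d z := by
  obtain ⟨L, hL, hd⟩ := h
  exact ⟨L, hL.congr_of_eventuallyEq he, hd⟩

theorem HasDb.add {G H : ℂ → ℂ} {a b z : ℂ} (hG : HasDb G a z) (hH : HasDb H b z) :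
    HasDb (fun w => G w + H w) (a + b) z := by
  obtain ⟨L, hL, rfl⟩ := hG
  obtain ⟨K, hK, rfl⟩ := hH
  refine ⟨L + K, hL.add hK, ?_⟩
  simp only [ContinuousLinearMap.add_apply]
  ring

theorem HasDb.sub {G H : ℂ → ℂ} {a b z : ℂ} (hG : HasDb G a z) (hH : HasDb H b z) :
    HasDb (fun w => G w - H w) (a - b) z := by
  obtain ⟨L, hL, rfl⟩ := hG
  obtain ⟨K, hK, rfl⟩ := hH
  refine ⟨L - K, hL.sub hK, ?_⟩
  simp only [ContinuousLinearMap.sub_apply]
  ring

theorem HasDb.mul {G H : ℂ → ℂ} {a b z : ℂ} (hG : HasDb G a z) (hH : HasDb H b z) :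
    HasDb (fun w => G w * H w) (G z * b + H z * a) z := by
  obtain ⟨L, hL, rfl⟩ := hG
  obtain ⟨K, hK, rfl⟩ := hH
  refine ⟨_, hL.mul hK, ?_⟩
  simp only [ContinuousLinearMap.add_apply, ContinuousLinearMap.smul_apply, smul_eq_mul]
  ring

theorem hasDb_const (c z : ℂ) : HasDb (fun _ => c) 0 z :=
  ⟨0, hasFDerivAt_const c z, by simp⟩

theorem HasDb.const_mul {G : ℂ → ℂ} {a z : ℂ} (c : ℂ) (hG : HasDb G a z) :
    HasDb (fun w => c * G w) (c * a) z := by
  have := (hasDb_const c z).mul hG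
  simpa using this

/-- holomorphic functions. -/
theorem hasDb_of_hasDerivAt {F : ℂ → ℂ} {F' z : ℂ} (h : HasDerivAt F F' z) :
    HasDb F 0 z := by
  refine ⟨_, h.hasFDerivAt.restrictScalars ℝ, ?_⟩
  simp only [ContinuousLinearMap.coe_restrictScalars', ContinuousLinearMap.toSpanSingleton_apply,
    smul_eq_mul]
  ring_nf
  simp

/-- conjugates of holomorphic functions. -/
theorem hasDb_conj_of_hasDerivAt {F : ℂ → ℂ} {F' z : ℂ} (h : HasDerivAt F F' z) :
    HasDb (fun w => conj (F w)) (2 * conj F') z := by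
  have h1 := h.hasFDerivAt.restrictScalars ℝ
  have h2 := (Complex.conjCLE.toContinuousLinearMap.hasFDerivAt (x := F z)).comp z h1
  refine ⟨_, h2, ?_⟩
  simp
  ring_nf
  simp
  ring

/-- real functions. -/
theorem hasDb_ofReal {W : ℂ → ℝ} {z : ℂ} (h : DifferentiableAt ℝ W z) :
    HasDb (fun w => (W w : ℂ)) (gr W z) z := by
  have h2 := (Complex.ofRealCLM.hasFDerivAt (x := W z)).comp z h.hasFDerivAt
  refine ⟨_, h2, ?_⟩
  simp [gr]
  ring




theorem gr_im_of_hasDerivAt {F : ℂ → ℂ} {F' z : ℂ} (h : HasDerivAt F F' z) :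
    gr (fun w => (F w).im) z = I * conj F' := by
  have h1 := h.hasFDerivAt.restrictScalars ℝ
  have h2 := (Complex.imCLM.hasFDerivAt (x := F z)).comp z h1
  have h3 : HasFDerivAt (fun w => (F w).im) _ z := h2
  rw [gr, h3.fderiv]
  apply Complex.ext <;> simp

/-! ### Compactly supported divergence theorem -/

theorem integral_fderiv_apply_eq_zero {G : ℂ → ℂ} (hG : ContDiff ℝ 1 G)
    (hc : HasCompactSupport G) (v : ℂ) :
    ∫ z, fderiv ℝ G z v = 0 := by
  have hcont : Continuous (fun z => fderiv ℝ G z v) := by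
    have := hG.continuous_fderiv (by norm_num)
    exact this.clm_apply continuous_const
  have hcs : HasCompactSupport (fun z => fderiv ℝ G z v) := hc.fderiv_apply ℝ v
  have h := integral_smul_fderiv_eq_neg_fderiv_smul_of_integrable (μ := volume) (𝕜 := ℝ)
    (f := fun _ : ℂ => (1:ℝ)) (g := G) (v := v) ?_ ?_ ?_ ?_ ?_
  · simpa using h
  · simp
  · simpa using hcont.integrable_of_hasCompactSupport hcs
  · simpa using hG.continuous.integrable_of_hasCompactSupport hc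
  · intro x _
    exact differentiableAt_const _
  · intro x _
    exact hG.differentiable (by norm_num) x

theorem integrable_db {G : ℂ → ℂ} (hG : ContDiff ℝ 1 G) (hc : HasCompactSupport G) :
    Integrable (db G) := by
  have hcont : ∀ v : ℂ, Continuous (fun z => fderiv ℝ G z v) := by
    intro v
    have := hG.continuous_fderiv (by norm_num)
    exact this.clm_apply continuous_const
  have hcs : ∀ v : ℂ, HasCompactSupport (fun z => fderiv ℝ G z v) :=
    fun v => hc.fderiv_apply ℝ v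
  unfold db
  exact ((hcont 1).integrable_of_hasCompactSupport (hcs 1)).add
    (((hcont I).integrable_of_hasCompactSupport (hcs I)).const_mul I)

theorem integral_db_eq_zero {G : ℂ → ℂ} (hG : ContDiff ℝ 1 G) (hc : HasCompactSupport G) :
    ∫ z, db G z = 0 := by
  have hcont : ∀ v : ℂ, Continuous (fun z => fderiv ℝ G z v) := by
    intro v
    have := hG.continuous_fderiv (by norm_num)
    exact this.clm_apply continuous_const
  have hcs : ∀ v : ℂ, HasCompactSupport (fun z => fderiv ℝ G z v) :=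
    fun v => hc.fderiv_apply ℝ v
  unfold db
  rw [integral_add ((hcont 1).integrable_of_hasCompactSupport (hcs 1))
    (((hcont I).integrable_of_hasCompactSupport (hcs I)).const_mul I),
    integral_const_mul, integral_fderiv_apply_eq_zero hG hc, integral_fderiv_apply_eq_zero hG hc]
  simp

/-! ### Cutoffs -/

theorem exists_bound_deriv_smoothTransition :
    ∃ C : ℝ, 0 ≤ C ∧ ∀ x, |deriv Real.smoothTransition x| ≤ C := by
  have hcont : Continuous (deriv Real.smoothTransition) :=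
    (Real.smoothTransition.contDiff (n := 1)).continuous_deriv (by norm_num)
  obtain ⟨C, hC⟩ := (isCompact_Icc (a := (0:ℝ)) (b := 1)).exists_bound_of_continuousOn
    hcont.continuousOn
  refine ⟨max C 0, le_max_right _ _, fun x => ?_⟩
  by_cases hx : x ∈ Icc (0:ℝ) 1
  · exact (hC x hx).trans (le_max_left _ _)
  · have : deriv Real.smoothTransition x = 0 := by
      rw [mem_Icc, not_and_or, not_le, not_le] at hx
      rcases hx with hx | hx
      · have he : Real.smoothTransition =ᶠ[𝓝 x] fun _ => 0 := by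
          filter_upwards [Iio_mem_nhds hx] with y hy
          exact Real.smoothTransition.zero_of_nonpos (le_of_lt hy)
        rw [he.deriv_eq]; simp
      · have he : Real.smoothTransition =ᶠ[𝓝 x] fun _ => 1 := by
          filter_upwards [Ioi_mem_nhds hx] with y hy
          exact Real.smoothTransition.one_of_one_le (le_of_lt hy)
        rw [he.deriv_eq]; simp
    rw [this]; simp

theorem deriv_smoothTransition_eq_zero {x : ℝ} (hx : x < 0 ∨ 1 < x) :
    deriv Real.smoothTransition x = 0 := by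
  rcases hx with hx | hx
  · have he : Real.smoothTransition =ᶠ[𝓝 x] fun _ => 0 := by
      filter_upwards [Iio_mem_nhds hx] with y hy
      exact Real.smoothTransition.zero_of_nonpos (le_of_lt hy)
    rw [he.deriv_eq]; simp
  · have he : Real.smoothTransition =ᶠ[𝓝 x] fun _ => 1 := by
      filter_upwards [Ioi_mem_nhds hx] with y hy
      exact Real.smoothTransition.one_of_one_le (le_of_lt hy)
    rw [he.deriv_eq]; simp

/-- cutoff near `0` as function of `t = ‖z‖²`. -/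
noncomputable def k0 (n : ℕ) (t : ℝ) : ℝ := Real.smoothTransition (n * t - 1)

/-- cutoff near the circle as function of `t = ‖z‖²`. -/
noncomputable def k1 (n : ℕ) (t : ℝ) : ℝ := Real.smoothTransition (n * (1 - t) - 1)

noncomputable def k0' (n : ℕ) (t : ℝ) : ℝ := n * deriv Real.smoothTransition (n * t - 1)
noncomputable def k1' (n : ℕ) (t : ℝ) : ℝ := -(n * deriv Real.smoothTransition (n * (1 - t) - 1))

theorem contDiff_k0 (n : ℕ) : ContDiff ℝ ∞ (k0 n) := by
  unfold k0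
  exact (Real.smoothTransition.contDiff (n := ⊤)).comp (by fun_prop)

theorem contDiff_k1 (n : ℕ) : ContDiff ℝ ∞ (k1 n) := by
  unfold k1
  exact (Real.smoothTransition.contDiff (n := ⊤)).comp (by fun_prop)

theorem hasDerivAt_k0 (n : ℕ) (t : ℝ) : HasDerivAt (k0 n) (k0' n t) t := by
  have h1 : HasDerivAt Real.smoothTransition (deriv Real.smoothTransition (n * t - 1)) (n * t - 1) :=
    ((Real.smoothTransition.contDiff (n := 1)).differentiable (by norm_num) _).hasDerivAt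
  have h2 : HasDerivAt (fun t : ℝ => n * t - 1) (n : ℝ) t := by
    simpa using ((hasDerivAt_id t).const_mul (n : ℝ)).sub_const 1
  have := h1.comp t h2
  unfold k0 k0'
  rw [mul_comm]
  exact this

theorem hasDerivAt_k1 (n : ℕ) (t : ℝ) : HasDerivAt (k1 n) (k1' n t) t := by
  have h1 : HasDerivAt Real.smoothTransition (deriv Real.smoothTransition (n * (1 - t) - 1))
      (n * (1 - t) - 1) :=
    ((Real.smoothTransition.contDiff (n := 1)).differentiable (by norm_num) _).hasDerivAt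
  have h2 : HasDerivAt (fun t : ℝ => n * (1 - t) - 1) (-(n : ℝ)) t := by
    have := (((hasDerivAt_id t).const_sub 1).const_mul (n : ℝ)).sub_const 1
    simpa using this
  have := h1.comp t h2
  unfold k1 k1'
  have e : -(↑n * deriv Real.smoothTransition (↑n * (1 - t) - 1)) =
    deriv Real.smoothTransition (n * (1 - t) - 1) * -(n : ℝ) := by ring
  rw [e]
  exact this

theorem k0_nonneg (n : ℕ) (t : ℝ) : 0 ≤ k0 n t := Real.smoothTransition.nonneg _
theorem k0_le_one (n : ℕ) (t : ℝ) : k0 n t ≤ 1 := Real.smoothTransition.le_one _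
theorem k1_nonneg (n : ℕ) (t : ℝ) : 0 ≤ k1 n t := Real.smoothTransition.nonneg _
theorem k1_le_one (n : ℕ) (t : ℝ) : k1 n t ≤ 1 := Real.smoothTransition.le_one _

theorem abs_k0_le (n : ℕ) (t : ℝ) : |k0 n t| ≤ 1 := by
  rw [abs_of_nonneg (k0_nonneg n t)]; exact k0_le_one n t
theorem abs_k1_le (n : ℕ) (t : ℝ) : |k1 n t| ≤ 1 := by
  rw [abs_of_nonneg (k1_nonneg n t)]; exact k1_le_one n t

theorem exists_bound_k' : ∃ C : ℝ, 0 ≤ C ∧
    (∀ (n : ℕ) (t : ℝ), 0 < t → |k0' n t| * t ≤ C) ∧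
    (∀ (n : ℕ) (t : ℝ), t < 1 → |k1' n t| * (1 - t) ≤ C) := by
  obtain ⟨C, hC0, hC⟩ := exists_bound_deriv_smoothTransition
  have key : ∀ (n : ℕ) (t : ℝ), 0 < t → |n * deriv Real.smoothTransition (n * t - 1)| * t ≤ 2 * C := by
    intro n t ht
    by_cases h : (n : ℝ) * t - 1 ∈ Icc (0:ℝ) 1
    · rw [abs_mul, abs_of_nonneg (Nat.cast_nonneg n)]
      have h1 : (n : ℝ) * t ≤ 2 := by linarith [h.2]
      have h2 := hC (n * t - 1)
      have h3 : 0 ≤ (n : ℝ) * t := by positivity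
      calc (n : ℝ) * |deriv Real.smoothTransition (n * t - 1)| * t
          = (n * t) * |deriv Real.smoothTransition (n * t - 1)| := by ring
        _ ≤ 2 * C := mul_le_mul h1 h2 (abs_nonneg _) (by norm_num)
    · have : deriv Real.smoothTransition (n * t - 1) = 0 := by
        apply deriv_smoothTransition_eq_zero
        rw [mem_Icc, not_and_or, not_le, not_le] at h
        exact h
      rw [this]; simp; exact hC0
  refine ⟨2 * C, by positivity, key, fun n t ht => ?_⟩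
  have := key n (1 - t) (by linarith)
  unfold k1'
  rw [abs_neg]
  exact this

theorem eventually_k0_eq_one {t : ℝ} (ht : 0 < t) : ∀ᶠ n : ℕ in atTop, k0 n t = 1 ∧ k0' n t = 0 := by
  obtain ⟨N, hN⟩ := exists_nat_gt (2 / t)
  filter_upwards [eventually_ge_atTop N] with n hn
  have h1 : (2 / t) < n := lt_of_lt_of_le hN (by exact_mod_cast hn)
  have h2 : 2 < n * t := by rwa [div_lt_iff₀ ht] at h1
  refine ⟨Real.smoothTransition.one_of_one_le (by linarith), ?_⟩
  unfold k0'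
  rw [deriv_smoothTransition_eq_zero (Or.inr (by linarith))]
  simp

theorem eventually_k1_eq_one {t : ℝ} (ht : t < 1) : ∀ᶠ n : ℕ in atTop, k1 n t = 1 ∧ k1' n t = 0 := by
  obtain ⟨N, hN⟩ := exists_nat_gt (2 / (1 - t))
  filter_upwards [eventually_ge_atTop N] with n hn
  have ht' : 0 < 1 - t := by linarith
  have h1 : (2 / (1 - t)) < n := lt_of_lt_of_le hN (by exact_mod_cast hn)
  have h2 : 2 < n * (1 - t) := by rwa [div_lt_iff₀ ht'] at h1
  refine ⟨Real.smoothTransition.one_of_one_le (by linarith), ?_⟩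
  unfold k1'
  rw [deriv_smoothTransition_eq_zero (Or.inr (by linarith))]
  simp

theorem hasDb_radial {k : ℝ → ℝ} {k' : ℝ} {z : ℂ} (h : HasDerivAt k k' (‖z‖ ^ 2)) :
    HasDb (fun w => ((k (‖w‖ ^ 2) : ℝ) : ℂ)) (2 * (k' : ℂ) * z) z := by
  have h0 : HasFDerivAt (fun w : ℂ => ‖w‖ ^ 2) (2 • (innerSL ℝ z)) z := by
    have := (hasStrictFDerivAt_norm_sq z).hasFDerivAt
    exact this
  have h1 : HasFDerivAt (fun w : ℂ => k (‖w‖ ^ 2)) (k' • (2 • (innerSL ℝ z))) z :=
    h.comp_hasFDerivAt z h0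
  have h2 := (Complex.ofRealCLM.hasFDerivAt (x := k (‖z‖ ^ 2))).comp z h1
  refine ⟨_, h2, ?_⟩
  apply Complex.ext <;> simp [Complex.inner] <;> ring

/-- the full cutoff on the punctured disc. -/
noncomputable def kk (n : ℕ) (z : ℂ) : ℝ := k0 n (‖z‖ ^ 2) * k1 n (‖z‖ ^ 2)

noncomputable def kk' (n : ℕ) (z : ℂ) : ℝ :=
  k0' n (‖z‖ ^ 2) * k1 n (‖z‖ ^ 2) + k0 n (‖z‖ ^ 2) * k1' n (‖z‖ ^ 2)

theorem contDiff_norm_sq' : ContDiff ℝ ∞ (fun z : ℂ => ‖z‖ ^ 2) := contDiff_norm_sq ℝ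

theorem contDiff_kk (n : ℕ) : ContDiff ℝ ∞ (kk n) :=
  ((contDiff_k0 n).comp contDiff_norm_sq').mul ((contDiff_k1 n).comp contDiff_norm_sq')


theorem abs_kk_le (n : ℕ) (z : ℂ) : |kk n z| ≤ 1 := by
  rw [kk, abs_mul]
  exact mul_le_one₀ (abs_k0_le _ _) (abs_nonneg _) (abs_k1_le _ _)

theorem continuous_k0' (n : ℕ) : Continuous (k0' n) := by
  have hcont : Continuous (deriv Real.smoothTransition) :=
    (Real.smoothTransition.contDiff (n := 1)).continuous_deriv (by norm_num)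
  unfold k0'
  exact continuous_const.mul (hcont.comp (by fun_prop))

theorem continuous_k1' (n : ℕ) : Continuous (k1' n) := by
  have hcont : Continuous (deriv Real.smoothTransition) :=
    (Real.smoothTransition.contDiff (n := 1)).continuous_deriv (by norm_num)
  unfold k1'
  exact (continuous_const.mul (hcont.comp (by fun_prop))).neg

theorem continuous_kk (n : ℕ) : Continuous (kk n) := (contDiff_kk n).continuous

theorem continuous_kk' (n : ℕ) : Continuous (kk' n) := by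
  have h0 := (contDiff_k0 n).continuous
  have h1 := (contDiff_k1 n).continuous
  have h2 := continuous_k0' n
  have h3 := continuous_k1' n
  have h4 : Continuous (fun z : ℂ => ‖z‖ ^ 2) := by fun_prop
  unfold kk'
  exact ((h2.comp h4).mul (h1.comp h4)).add ((h0.comp h4).mul (h3.comp h4))

theorem hasDb_kk (n : ℕ) (z : ℂ) : HasDb (fun w => ((kk n w : ℝ) : ℂ)) (2 * (kk' n z : ℂ) * z) z := by
  have h0 := hasDb_radial (z := z) (hasDerivAt_k0 n (‖z‖ ^ 2))
  have h1 := hasDb_radial (z := z) (hasDerivAt_k1 n (‖z‖ ^ 2))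
  have h := h0.mul h1
  have e : (fun w => ((kk n w : ℝ) : ℂ)) =
    fun w => ((k0 n (‖w‖ ^ 2) : ℝ) : ℂ) * ((k1 n (‖w‖ ^ 2) : ℝ) : ℂ) := by
    funext w; simp [kk]
  rw [e]
  convert h using 1
  simp only [kk']
  push_cast
  ring


theorem exists_bound_kk' : ∃ C : ℝ, 0 ≤ C ∧ ∀ (n : ℕ) (z : ℂ), ‖z‖ < 1 →
    |kk' n z * (‖z‖ ^ 2 * (1 - ‖z‖ ^ 2))| ≤ C := by
  obtain ⟨C, hC0, hC1, hC2⟩ := exists_bound_k'
  refine ⟨2 * C, by positivity, fun n z hz => ?_⟩
  rcases eq_or_ne z 0 with rfl | hz0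
  · simp; exact hC0
  have ht : 0 < ‖z‖ ^ 2 := by positivity
  have ht1 : ‖z‖ ^ 2 < 1 := by
    have := norm_nonneg z
    nlinarith
  set t := ‖z‖ ^ 2 with htdef
  have a1 := hC1 n t ht
  have a2 := hC2 n t ht1
  have b1 : |k0' n t * k1 n t * (t * (1 - t))| ≤ C := by
    rw [abs_mul, abs_mul, abs_of_pos (show 0 < t * (1 - t) by nlinarith)]
    calc |k0' n t| * |k1 n t| * (t * (1 - t)) = (|k0' n t| * t) * (|k1 n t| * (1 - t)) := by ring
      _ ≤ C * 1 := by
          apply mul_le_mul a1 _ (mul_nonneg (abs_nonneg _) (by linarith)) hC0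
          exact mul_le_one₀ (abs_k1_le _ _) (by linarith) (by linarith)
      _ = C := mul_one C
  have b2 : |k0 n t * k1' n t * (t * (1 - t))| ≤ C := by
    rw [abs_mul, abs_mul, abs_of_pos (show 0 < t * (1 - t) by nlinarith)]
    calc |k0 n t| * |k1' n t| * (t * (1 - t)) = (|k1' n t| * (1 - t)) * (|k0 n t| * t) := by ring
      _ ≤ C * 1 := by
          apply mul_le_mul a2 _ (mul_nonneg (abs_nonneg _) (by linarith)) hC0
          exact mul_le_one₀ (abs_k0_le _ _) (by linarith) (by linarith)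
      _ = C := mul_one C
  calc |kk' n z * (t * (1 - t))| = |k0' n t * k1 n t * (t * (1 - t)) + k0 n t * k1' n t * (t * (1 - t))| := by
        rw [kk', ← htdef]; ring_nf
    _ ≤ C + C := (abs_add_le _ _).trans (add_le_add b1 b2)
    _ = 2 * C := by ring

theorem eventually_kk {z : ℂ} (hz : z ≠ 0) (hz1 : ‖z‖ < 1) :
    ∀ᶠ n : ℕ in atTop, kk n z = 1 ∧ kk' n z = 0 := by
  have ht : 0 < ‖z‖ ^ 2 := by positivity
  have ht1 : ‖z‖ ^ 2 < 1 := by
    have := norm_nonneg z
    nlinarith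
  filter_upwards [eventually_k0_eq_one ht, eventually_k1_eq_one ht1] with n h0 h1
  simp [kk, kk', h0.1, h0.2, h1.1, h1.2]

theorem ae_ne_zero_disc : ∀ᵐ z ∂(volume.restrict (ball (0:ℂ) 1)), z ≠ 0 := by
  apply ae_restrict_of_ae
  rw [ae_iff]
  simp

theorem cutoff_limit {F H : ℂ → ℝ} (hF : IntegrableOn F (ball (0:ℂ) 1))
    (hH : IntegrableOn H (ball (0:ℂ) 1))
    (h : ∀ n : ℕ, ∫ z in ball (0:ℂ) 1,
      (kk n z * F z + kk' n z * (‖z‖ ^ 2 * (1 - ‖z‖ ^ 2)) * H z) = 0) :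
    ∫ z in ball (0:ℂ) 1, F z = 0 := by
  obtain ⟨C, hC0, hC⟩ := exists_bound_kk'
  have hlim : Tendsto (fun n : ℕ => ∫ z in ball (0:ℂ) 1,
      (kk n z * F z + kk' n z * (‖z‖ ^ 2 * (1 - ‖z‖ ^ 2)) * H z)) atTop
      (𝓝 (∫ z in ball (0:ℂ) 1, F z)) := by
    apply tendsto_integral_of_dominated_convergence (fun z => |F z| + C * |H z|)
    · intro n
      apply AEStronglyMeasurable.add
      · exact (continuous_kk n).aestronglyMeasurable.mul hF.1
      · apply AEStronglyMeasurable.mul _ hH.1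
        apply Continuous.aestronglyMeasurable
        exact (continuous_kk' n).mul (by fun_prop)
    · exact (hF.abs).add ((hH.abs).const_mul C)
    · intro n
      filter_upwards [ae_restrict_mem measurableSet_ball] with z hz
      have hz1 : ‖z‖ < 1 := by simpa using hz
      rw [Real.norm_eq_abs]
      refine (abs_add_le _ _).trans ?_
      rw [abs_mul, abs_mul (kk' n z * _)]
      apply add_le_add
      · exact mul_le_of_le_one_left (abs_nonneg _) (abs_kk_le n z)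
      · exact mul_le_mul_of_nonneg_right (hC n z hz1) (abs_nonneg _)
    · filter_upwards [ae_restrict_mem measurableSet_ball, ae_ne_zero_disc] with z hz hz0
      have hz1 : ‖z‖ < 1 := by simpa using hz
      apply tendsto_const_nhds.congr'
      filter_upwards [eventually_kk hz0 hz1] with n hn
      simp [hn.1, hn.2]
  have h0 : Tendsto (fun n : ℕ => ∫ z in ball (0:ℂ) 1,
      (kk n z * F z + kk' n z * (‖z‖ ^ 2 * (1 - ‖z‖ ^ 2)) * H z)) atTop (𝓝 0) := by
    simp_rw [h]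
    exact tendsto_const_nhds
  exact tendsto_nhds_unique hlim h0

/-- punctured disc -/
def D0 : Set ℂ := ball (0:ℂ) 1 \ {0}

theorem isOpen_D0 : IsOpen D0 := isOpen_ball.sdiff isClosed_singleton

theorem mem_D0 {z : ℂ} : z ∈ D0 ↔ ‖z‖ < 1 ∧ z ≠ 0 := by simp [D0]

/-- the support of the cutoff is a compact subset of the punctured disc. -/
theorem kk_support (n : ℕ) : ∃ K : Set ℂ, IsCompact K ∧ K ⊆ D0 ∧ ∀ z, z ∉ K → kk n z = 0 := by
  rcases Nat.eq_zero_or_pos n with rfl | hn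
  · refine ⟨∅, isCompact_empty, empty_subset _, fun z _ => ?_⟩
    rw [kk, k0]
    rw [Real.smoothTransition.zero_of_nonpos (by simp)]
    simp
  have hn' : (0:ℝ) < n := by exact_mod_cast hn
  refine ⟨{z : ℂ | 1 / n ≤ ‖z‖ ^ 2 ∧ ‖z‖ ^ 2 ≤ 1 - 1 / n}, ?_, ?_, ?_⟩
  · apply IsCompact.of_isClosed_subset (isCompact_closedBall (0:ℂ) 1)
    · have hcn : Continuous (fun z : ℂ => ‖z‖ ^ 2) := by fun_prop
      exact (isClosed_le continuous_const hcn).inter (isClosed_le hcn continuous_const)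
    · intro z hz
      have h1 : ‖z‖ ^ 2 ≤ 1 - 1 / n := hz.2
      have h2 : 0 < 1 / (n:ℝ) := by positivity
      have h3 := norm_nonneg z
      simp only [mem_closedBall, dist_zero_right]
      nlinarith
  · intro z hz
    have h1 : ‖z‖ ^ 2 ≤ 1 - 1 / n := hz.2
    have h0 : 1 / (n:ℝ) ≤ ‖z‖ ^ 2 := hz.1
    have h2 : 0 < 1 / (n:ℝ) := by positivity
    have h3 := norm_nonneg z
    rw [mem_D0]
    refine ⟨by nlinarith, ?_⟩
    rintro rfl
    simp at h0
    linarith
  · intro z hz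
    rw [mem_setOf_eq, not_and_or, not_le, not_le] at hz
    rcases hz with hz | hz
    · have : k0 n (‖z‖ ^ 2) = 0 := by
        apply Real.smoothTransition.zero_of_nonpos
        rw [lt_div_iff₀ hn'] at hz
        linarith
      simp [kk, this]
    · have : k1 n (‖z‖ ^ 2) = 0 := by
        apply Real.smoothTransition.zero_of_nonpos
        have : 1 - ‖z‖ ^ 2 < 1 / n := by linarith
        rw [lt_div_iff₀ hn'] at this
        linarith
      simp [kk, this]

theorem tsupport_kk_mul_subset (n : ℕ) {E : Type*} [NormedAddCommGroup E] [NormedSpace ℝ E]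
    (G : ℂ → E) : tsupport (fun z => kk n z • G z) ⊆ D0 ∧
      HasCompactSupport (fun z => kk n z • G z) := by
  obtain ⟨K, hK, hKD, hz⟩ := kk_support n
  have hsub : Function.support (fun z => kk n z • G z) ⊆ K := by
    intro z h
    by_contra hzK
    apply h
    simp [hz z hzK]
  have ht : tsupport (fun z => kk n z • G z) ⊆ K := closure_minimal hsub hK.isClosed
  exact ⟨ht.trans hKD, HasCompactSupport.of_support_subset_isCompact hK hsub⟩

theorem contDiff_kk_smul (n : ℕ) {E : Type*} [NormedAddCommGroup E] [NormedSpace ℝ E]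
    {G : ℂ → E} {m : ℕ∞} (hG : ContDiffOn ℝ m G D0) : ContDiff ℝ m (fun z => kk n z • G z) := by
  rw [contDiff_iff_contDiffAt]
  intro x
  by_cases hx : x ∈ tsupport (fun z => kk n z • G z)
  swap
  · have he : (fun z => kk n z • G z) =ᶠ[𝓝 x] fun _ => 0 := by
      have := (isClosed_tsupport (fun z => kk n z • G z)).isOpen_compl.mem_nhds hx
      filter_upwards [this] with w hw
      exact image_eq_zero_of_notMem_tsupport (f := fun z => kk n z • G z) hw
    exact contDiffAt_const.congr_of_eventuallyEq he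
  have hx0 : x ∈ D0 := (tsupport_kk_mul_subset n G).1 hx
  have h1 : ContDiffAt ℝ m G x := hG.contDiffAt (isOpen_D0.mem_nhds hx0)
  have h2 : ContDiffAt ℝ m (kk n) x := ((contDiff_kk n).contDiffAt).of_le (by exact_mod_cast le_top)
  exact h2.smul h1

/-- Divergence lemma with singularity at `0` and only radial decay at the circle. -/
theorem integral_re_db_eq_zero {G : ℂ → ℂ} (hG : ContDiffOn ℝ 1 G D0)
    {H : ℂ → ℝ} (hH : IntegrableOn H (ball (0:ℂ) 1))
    (hGH : ∀ z ∈ D0, (G z * z).re = ‖z‖ ^ 2 * (1 - ‖z‖ ^ 2) * H z)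
    (hF : IntegrableOn (fun z => (db G z).re) (ball (0:ℂ) 1)) :
    ∫ z in ball (0:ℂ) 1, (db G z).re = 0 := by
  apply cutoff_limit hF (hH.const_mul 2)
  intro n
  have hc := tsupport_kk_mul_subset n G
  have hd : ContDiff ℝ 1 (fun z => kk n z • G z) := contDiff_kk_smul n (m := 1) hG
  have h0 := integral_db_eq_zero hd hc.2
  have hint := integrable_db hd hc.2
  have h1 : ∫ z, (db (fun z => kk n z • G z) z).re = 0 := by
    have := integral_re hint
    simp only [RCLike.re_to_complex] at this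
    rw [this, h0]; simp
  have h2 : ∫ z in ball (0:ℂ) 1, (db (fun z => kk n z • G z) z).re = 0 := by
    rw [setIntegral_eq_integral_of_forall_compl_eq_zero]
    · exact h1
    · intro z hz
      have hz' : z ∉ tsupport (fun z => kk n z • G z) := fun h => hz ((hc.1 h).1)
      have he : (fun z => kk n z • G z) =ᶠ[𝓝 z] fun _ => 0 := by
        have := (isClosed_tsupport (fun z => kk n z • G z)).isOpen_compl.mem_nhds hz'
        filter_upwards [this] with w hw
        exact image_eq_zero_of_notMem_tsupport (f := fun z => kk n z • G z) hw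
      rw [((hasDb_const 0 z).congr_eventuallyEq he).db_eq]
      simp
  rw [← h2]
  apply setIntegral_congr_ae measurableSet_ball
  have hae : ∀ᵐ z : ℂ, z ≠ 0 := by rw [ae_iff]; simp
  filter_upwards [hae] with z hz0 hz
  have hz1 : ‖z‖ < 1 := by simpa using hz
  have hzD : z ∈ D0 := mem_D0.2 ⟨hz1, hz0⟩
  have hGd : DifferentiableAt ℝ G z :=
    (hG.contDiffAt (isOpen_D0.mem_nhds hzD)).differentiableAt (by norm_num)
  have h3 := (hasDb_kk n z).mul (hasDb_of_differentiableAt hGd)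
  have e : (fun z => kk n z • G z) = fun w => ((kk n w : ℝ) : ℂ) * G w := by
    funext w; simp
  rw [e, h3.db_eq, add_re, re_ofReal_mul]
  have e2 : (G z * (2 * (kk' n z : ℂ) * z)).re = 2 * kk' n z * (G z * z).re := by
    have : G z * (2 * (kk' n z : ℂ) * z) = ((2 * kk' n z : ℝ) : ℂ) * (G z * z) := by
      push_cast; ring
    rw [this, re_ofReal_mul]
  rw [e2, hGH z hzD]
  ring

end Crest.Agent.R101.En
end

-- ▼ part R101/EnergyA
section

/-! Row 101, P5a: a `C¹` function of finite Dirichlet energy on the disc is square integrable. -/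

set_option autoImplicit false

open MeasureTheory Metric Set Complex ComplexConjugate Filter Topology
open scoped ENNReal

namespace Crest.Agent.R101

namespace EnergyA

lemma g2_continuousOn {W : ℂ → ℝ} (hW : ContDiffOn ℝ 1 W (ball 0 1)) :
    ContinuousOn (g2 W) (ball 0 1) := by
  have h : ContinuousOn (fderiv ℝ W) (ball 0 1) :=
    hW.continuousOn_fderiv_of_isOpen isOpen_ball le_rfl
  unfold g2 dx dy
  exact ((h.clm_apply continuousOn_const).pow 2).add ((h.clm_apply continuousOn_const).pow 2)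

lemma sq_fderiv_le (W : ℂ → ℝ) (w z : ℂ) (hz : ‖z‖ ≤ 1) : (fderiv ℝ W w z) ^ 2 ≤ g2 W w := by
  have h1 : fderiv ℝ W w z = z.re * dx W w + z.im * dy W w := by
    have : z = (z.re : ℝ) • (1 : ℂ) + (z.im : ℝ) • I := by
      apply Complex.ext <;> simp
    conv_lhs => rw [this]
    rw [map_add, map_smul, map_smul]
    simp [dx, dy]
  rw [h1]
  have h2 : z.re ^ 2 + z.im ^ 2 ≤ 1 := by
    have := Complex.sq_norm z
    rw [Complex.normSq_apply] at this
    nlinarith [norm_nonneg z]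
  unfold g2
  nlinarith [sq_nonneg (z.re * dy W w - z.im * dx W w), sq_nonneg (dx W w), sq_nonneg (dy W w)]

lemma hasDerivAt_ray {W : ℂ → ℝ} (hW : ContDiffOn ℝ 1 W (ball 0 1)) {z : ℂ} (hz : z ∈ ball (0 : ℂ) 1)
    {t : ℝ} (ht0 : 0 ≤ t) (ht1 : t ≤ 1) :
    HasDerivAt (fun s : ℝ => W ((s : ℂ) * z)) (fderiv ℝ W ((t : ℂ) * z) z) t := by
  have hmem : (t : ℂ) * z ∈ ball (0 : ℂ) 1 := by
    rw [mem_ball_zero_iff] at hz ⊢
    rw [norm_mul, Complex.norm_real, Real.norm_eq_abs, abs_of_nonneg ht0]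
    nlinarith [norm_nonneg z]
  have h1 : HasFDerivAt W (fderiv ℝ W ((t : ℂ) * z)) ((t : ℂ) * z) :=
    ((hW.differentiableOn one_ne_zero).differentiableAt (isOpen_ball.mem_nhds hmem)).hasFDerivAt
  have h2 : HasDerivAt (fun s : ℝ => (s : ℂ) * z) z t := by
    have := (Complex.ofRealCLM.hasDerivAt (x := t)).mul_const z
    simpa using this
  exact h1.comp_hasDerivAt t h2

/-- pointwise bound. -/
lemma pointwise {W : ℂ → ℝ} (hW : ContDiffOn ℝ 1 W (ball 0 1)) {z : ℂ} (hz : z ∈ ball (0 : ℂ) 1)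
    {B : ℝ} (hB : ∀ w ∈ closedBall (0 : ℂ) (1 / 2), |W w| ≤ B) :
    W z ^ 2 ≤ 2 * B ^ 2 + ∫ t in (1 / 2 : ℝ)..1, g2 W ((t : ℂ) * z) := by
  have hmaps : ∀ t ∈ Icc (1 / 2 : ℝ) 1, (t : ℂ) * z ∈ ball (0 : ℂ) 1 := by
    intro t ht
    rw [mem_ball_zero_iff] at hz ⊢
    rw [norm_mul, Complex.norm_real, Real.norm_eq_abs, abs_of_nonneg (by linarith [ht.1])]
    nlinarith [norm_nonneg z, ht.1, ht.2]
  have hcont : ContinuousOn (fun t : ℝ => (t : ℂ) * z) (Icc (1 / 2 : ℝ) 1) := by fun_prop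
  have hf : ContinuousOn (fun t : ℝ => fderiv ℝ W ((t : ℂ) * z) z) (Icc (1 / 2 : ℝ) 1) := by
    have h : ContinuousOn (fderiv ℝ W) (ball 0 1) :=
      hW.continuousOn_fderiv_of_isOpen isOpen_ball le_rfl
    exact (h.comp hcont hmaps).clm_apply continuousOn_const
  have hg : ContinuousOn (fun t : ℝ => g2 W ((t : ℂ) * z)) (Icc (1 / 2 : ℝ) 1) :=
    (g2_continuousOn hW).comp hcont hmaps
  have hle : (1 / 2 : ℝ) ≤ 1 := by norm_num
  have hf' : ContinuousOn (fun t : ℝ => fderiv ℝ W ((t : ℂ) * z) z) (uIcc (1 / 2 : ℝ) 1) := by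
    rwa [uIcc_of_le hle]
  have hg' : ContinuousOn (fun t : ℝ => g2 W ((t : ℂ) * z)) (uIcc (1 / 2 : ℝ) 1) := by
    rwa [uIcc_of_le hle]
  have hftc : ∫ t in (1 / 2 : ℝ)..1, fderiv ℝ W ((t : ℂ) * z) z =
      W (((1 : ℝ) : ℂ) * z) - W (((1 / 2 : ℝ) : ℂ) * z) := by
    refine intervalIntegral.integral_eq_sub_of_hasDerivAt
      (f := fun t : ℝ => W ((t : ℂ) * z)) (f' := fun t : ℝ => fderiv ℝ W ((t : ℂ) * z) z) ?_
      hf'.intervalIntegrable
    intro t ht
    rw [uIcc_of_le hle] at ht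
    exact hasDerivAt_ray hW hz (by linarith [ht.1]) ht.2
  rw [Complex.ofReal_one, one_mul] at hftc
  have hWhalf : |W (((1 / 2 : ℝ) : ℂ) * z)| ≤ B := by
    apply hB
    rw [mem_closedBall_zero_iff, norm_mul, Complex.norm_real]
    rw [mem_ball_zero_iff] at hz
    norm_num
    linarith
  -- Cauchy-Schwarz
  set F := ∫ t in (1 / 2 : ℝ)..1, fderiv ℝ W ((t : ℂ) * z) z with hF
  set G := ∫ t in (1 / 2 : ℝ)..1, g2 W ((t : ℂ) * z) with hG
  have hCS : F ^ 2 ≤ (1 / 2) * G := by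
    have key : ∀ c : ℝ, 2 * c * F - c ^ 2 * (1 / 2) ≤ G := by
      intro c
      have h1 : 2 * c * F - c ^ 2 * (1 / 2) =
          ∫ t in (1 / 2 : ℝ)..1, (2 * c * (fderiv ℝ W ((t : ℂ) * z) z) - c ^ 2) := by
        rw [intervalIntegral.integral_sub, intervalIntegral.integral_const_mul,
          intervalIntegral.integral_const]
        · rw [← hF]; simp only [smul_eq_mul]; ring
        · exact (hf'.intervalIntegrable).const_mul _
        · exact intervalIntegrable_const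
      rw [h1, hG]
      refine intervalIntegral.integral_mono_on hle ?_ hg'.intervalIntegrable ?_
      · exact ((hf'.intervalIntegrable).const_mul _).sub intervalIntegrable_const
      · intro t ht
        have := sq_fderiv_le W ((t : ℂ) * z) z (by rw [mem_ball_zero_iff] at hz; exact hz.le)
        nlinarith [sq_nonneg (fderiv ℝ W ((t : ℂ) * z) z - c)]
    have := key (2 * F)
    nlinarith
  have hWz : W z = W (((1 / 2 : ℝ) : ℂ) * z) + F := by linarith
  have hb2 : (W (((1 / 2 : ℝ) : ℂ) * z)) ^ 2 ≤ B ^ 2 := by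
    rw [← sq_abs]
    exact pow_le_pow_left₀ (abs_nonneg _) hWhalf 2
  rw [hWz]
  nlinarith [sq_nonneg (W (((1 / 2 : ℝ) : ℂ) * z) - F)]

end EnergyA

open EnergyA in
/-- P5a (Poincare, file `EnergyA.lean`). -/
theorem sq_integrable {W : ℂ → ℝ} (hW : ContDiffOn ℝ 1 W (ball 0 1))
    (hen : IntegrableOn (g2 W) (ball 0 1)) : IntegrableOn (fun z => W z ^ 2) (ball 0 1) := by
  classical
  -- bound on the small ball
  obtain ⟨B, hB⟩ : ∃ B : ℝ, ∀ w ∈ closedBall (0 : ℂ) (1 / 2), |W w| ≤ B := by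
    have hsub : closedBall (0 : ℂ) (1 / 2) ⊆ ball 0 1 := closedBall_subset_ball (by norm_num)
    obtain ⟨B, hB⟩ := (isCompact_closedBall (0 : ℂ) (1 / 2)).exists_bound_of_continuousOn
      (hW.continuousOn.mono hsub)
    exact ⟨B, fun w hw => by simpa [Real.norm_eq_abs] using hB w hw⟩
  set G : ℂ → ℝ≥0∞ := (ball (0 : ℂ) 1).indicator (fun z => ENNReal.ofReal (g2 W z)) with hGdef
  have hGmeas : Measurable G := by
    have : ContinuousOn (fun z => ENNReal.ofReal (g2 W z)) (ball (0 : ℂ) 1) :=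
      ENNReal.continuous_ofReal.comp_continuousOn (g2_continuousOn hW)
    have h2 := this.measurable_piecewise (g := fun _ => (0 : ℝ≥0∞)) continuousOn_const
      measurableSet_ball
    rw [hGdef, ← Set.piecewise_eq_indicator]
    exact h2
  have hg0 : ∀ w, 0 ≤ g2 W w := fun w => by unfold g2; positivity
  have hGfin : ∫⁻ z, G z < ∞ := by
    rw [hGdef, lintegral_indicator measurableSet_ball]
    exact hen.lintegral_lt_top
  -- the main bound
  have hmain : ∀ z ∈ ball (0 : ℂ) 1, ENNReal.ofReal (W z ^ 2) ≤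
      ENNReal.ofReal (2 * B ^ 2) + ∫⁻ t in Icc (1 / 2 : ℝ) 1, G (t • z) := by
    intro z hz
    have h1 := pointwise hW hz hB
    have hle : (1 / 2 : ℝ) ≤ 1 := by norm_num
    have hmaps : ∀ t ∈ Icc (1 / 2 : ℝ) 1, (t : ℂ) * z ∈ ball (0 : ℂ) 1 := by
      intro t ht
      rw [mem_ball_zero_iff] at hz ⊢
      rw [norm_mul, Complex.norm_real, Real.norm_eq_abs, abs_of_nonneg (by linarith [ht.1])]
      nlinarith [norm_nonneg z, ht.1, ht.2]
    have hg : ContinuousOn (fun t : ℝ => g2 W ((t : ℂ) * z)) (Icc (1 / 2 : ℝ) 1) :=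
      (g2_continuousOn hW).comp (by fun_prop) hmaps
    refine (ENNReal.ofReal_le_ofReal h1).trans ?_
    rw [ENNReal.ofReal_add (by positivity)
      (intervalIntegral.integral_nonneg hle fun t _ => hg0 _)]
    gcongr
    rw [intervalIntegral.integral_of_le hle, ← integral_Icc_eq_integral_Ioc,
      ofReal_integral_eq_lintegral_ofReal (hg.integrableOn_Icc) (ae_of_all _ fun t => hg0 _)]
    refine le_of_eq (setLIntegral_congr_fun measurableSet_Icc fun t ht => ?_)
    simp only [hGdef]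
    rw [Complex.real_smul, indicator_of_mem (hmaps t ht)]
  have hfin : ∫⁻ z in ball (0 : ℂ) 1, ENNReal.ofReal (W z ^ 2) < ∞ := by
    calc ∫⁻ z in ball (0 : ℂ) 1, ENNReal.ofReal (W z ^ 2)
        ≤ ∫⁻ z in ball (0 : ℂ) 1, (ENNReal.ofReal (2 * B ^ 2) +
            ∫⁻ t in Icc (1 / 2 : ℝ) 1, G (t • z)) :=
          setLIntegral_mono' measurableSet_ball hmain
      _ = ENNReal.ofReal (2 * B ^ 2) * volume (ball (0 : ℂ) 1) +
            ∫⁻ z in ball (0 : ℂ) 1, ∫⁻ t in Icc (1 / 2 : ℝ) 1, G (t • z) := by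
          rw [lintegral_add_left measurable_const, setLIntegral_const]
      _ ≤ ENNReal.ofReal (2 * B ^ 2) * volume (ball (0 : ℂ) 1) +
            ∫⁻ t in Icc (1 / 2 : ℝ) 1, ∫⁻ z : ℂ, G (t • z) := by
          gcongr
          refine (setLIntegral_le_lintegral _ _).trans (le_of_eq ?_)
          rw [lintegral_lintegral_swap]
          refine (hGmeas.comp ?_).aemeasurable
          exact (measurable_snd.smul measurable_fst)
      _ ≤ ENNReal.ofReal (2 * B ^ 2) * volume (ball (0 : ℂ) 1) +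
            ∫⁻ t in Icc (1 / 2 : ℝ) 1, ENNReal.ofReal 4 * ∫⁻ z : ℂ, G z := by
          refine add_le_add le_rfl ?_
          refine setLIntegral_mono' measurableSet_Icc fun t ht => ?_
          have ht0 : t ≠ 0 := by have := ht.1; intro h; rw [h] at this; norm_num at this
          have hmap := Measure.map_addHaar_smul (volume : Measure ℂ) ht0
          have : ∫⁻ z : ℂ, G (t • z) = ∫⁻ z, G z ∂(Measure.map (fun z : ℂ => t • z) volume) := by
            rw [lintegral_map hGmeas (measurable_const_smul t)]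
          rw [this, hmap, lintegral_smul_measure, smul_eq_mul]
          gcongr
          rw [Complex.finrank_real_complex, abs_of_nonneg (by positivity)]
          have h14 : (1 / 2 : ℝ) ≤ t := ht.1
          rw [inv_le_comm₀ (by positivity) (by norm_num)]
          nlinarith
      _ < ∞ := by
          rw [setLIntegral_const, Real.volume_Icc]
          refine ENNReal.add_lt_top.2 ⟨ENNReal.mul_lt_top ENNReal.ofReal_lt_top measure_ball_lt_top, ?_⟩
          exact ENNReal.mul_lt_top (ENNReal.mul_lt_top ENNReal.ofReal_lt_top hGfin)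
            ENNReal.ofReal_lt_top
  refine ⟨((hW.continuousOn.pow 2).aestronglyMeasurable measurableSet_ball), ?_⟩
  rw [hasFiniteIntegral_iff_ofReal (ae_of_all _ fun z => sq_nonneg _)]
  exact hfin

end Crest.Agent.R101
end

-- ▼ part R101/EnC
section

/-! Row 101, part P5 (helper251): bounds, integrability on the disc, the `T` part and the cross
term of the energy identity. -/

set_option autoImplicit false

open MeasureTheory Metric Set Filter Topology Complex
open scoped ContDiff ComplexConjugate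

namespace Crest.Agent.R101.En

open Crest.Agent.R101

theorem gr_eq (v : ℂ → ℝ) (z : ℂ) : gr v z = (dx v z : ℂ) + (dy v z : ℂ) * I := rfl

theorem gr_re (v : ℂ → ℝ) (z : ℂ) : (gr v z).re = dx v z := by simp [gr_eq]
theorem gr_im (v : ℂ → ℝ) (z : ℂ) : (gr v z).im = dy v z := by simp [gr_eq]

theorem norm_gr_sq (v : ℂ → ℝ) (z : ℂ) : ‖gr v z‖ ^ 2 = g2 v z := by
  rw [← normSq_eq_norm_sq, normSq_apply, gr_re, gr_im, g2]; ring

theorem integrableOn_inv_norm : IntegrableOn (fun z : ℂ => ‖z‖⁻¹) (ball 0 1) := by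
  have h := (integrableOn_fun_norm_addHaar (volume : Measure ℂ) (f := fun y : ℝ => y⁻¹) (r := 1)).2 ?_
  · exact h
  · have : IntegrableOn (fun _ : ℝ => (1:ℝ)) (Ioo 0 1) := by
      apply integrableOn_const <;> simp
    apply this.congr_fun _ measurableSet_Ioo
    intro y hy
    have hy0 : y ≠ 0 := ne_of_gt hy.1
    simp [hy0]

theorem aesm_of_continuousOn {E : Type*} [NormedAddCommGroup E] {g : ℂ → E}
    (hg : ContinuousOn g D0) : AEStronglyMeasurable g (volume.restrict (ball (0:ℂ) 1)) := by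
  have h1 : AEStronglyMeasurable g (volume.restrict D0) :=
    hg.aestronglyMeasurable isOpen_D0.measurableSet
  have h2 : volume.restrict (ball (0:ℂ) 1) = volume.restrict D0 := by
    apply Measure.restrict_congr_set
    unfold D0
    exact (diff_null_ae_eq_self (by simp)).symm
  rw [h2]; exact h1

/-- integrability criterion on the disc. -/
theorem intOn {g H : ℂ → ℝ} (hg : ContinuousOn g D0) {r0 C : ℝ}
    (hH : IntegrableOn H (ball (0:ℂ) 1))
    (h0 : ∀ z ∈ D0, ‖z‖ < r0 → |g z| ≤ C / ‖z‖)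
    (h1 : ∀ z ∈ D0, r0 ≤ ‖z‖ → |g z| ≤ H z) : IntegrableOn g (ball (0:ℂ) 1) := by
  have hb : IntegrableOn (fun z : ℂ => |C| * ‖z‖⁻¹ + |H z|) (ball (0:ℂ) 1) :=
    (integrableOn_inv_norm.const_mul |C|).add hH.abs
  apply Integrable.mono' hb (aesm_of_continuousOn hg)
  filter_upwards [ae_restrict_mem measurableSet_ball, ae_ne_zero_disc] with z hz hz0
  have hz1 : ‖z‖ < 1 := by simpa using hz
  have hzD : z ∈ D0 := mem_D0.2 ⟨hz1, hz0⟩
  rw [Real.norm_eq_abs]
  have hzn : 0 < ‖z‖ := norm_pos_iff.2 hz0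
  rcases lt_or_ge ‖z‖ r0 with h | h
  · have := h0 z hzD h
    have h2 : C / ‖z‖ ≤ |C| * ‖z‖⁻¹ := by
      rw [div_eq_mul_inv]
      exact mul_le_mul_of_nonneg_right (le_abs_self C) (by positivity)
    have h3 := abs_nonneg (H z)
    linarith
  · have := h1 z hzD h
    have h2 := le_abs_self (H z)
    have h3 : 0 ≤ |C| * ‖z‖⁻¹ := by positivity
    linarith

/-! ### The function `M` -/

section M

variable {β z : ℂ}

theorem hasDerivAt_MM (hz : z ≠ 0) : HasDerivAt (MM β) (MM' β z) z := by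
  have h1 : HasDerivAt (fun ζ : ℂ => β / ζ) (-β / z ^ 2) z := by
    have h := (hasDerivAt_inv hz).const_mul β
    have e : β * -(z ^ 2)⁻¹ = -β / z ^ 2 := by rw [div_eq_mul_inv]; ring
    rw [e] at h
    simpa only [div_eq_mul_inv] using h
  have h2 : HasDerivAt (fun ζ : ℂ => conj β * ζ) (conj β) z := by
    simpa using (hasDerivAt_id z).const_mul (conj β)
  exact h1.add h2

theorem hasDerivAt_MM' (hz : z ≠ 0) : HasDerivAt (MM' β) (2 * β / z ^ 3) z := by
  have h1 : HasDerivAt (fun ζ : ℂ => -β / ζ ^ 2) (2 * β / z ^ 3) z := by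
    have h := (hasDerivAt_pow 2 z).fun_inv (pow_ne_zero 2 hz)
    have h' := h.const_mul (-β)
    have e : -β * (-((2:ℕ) * z ^ (2 - 1)) / (z ^ 2) ^ 2) = 2 * β / z ^ 3 := by
      field_simp
      push_cast
      ring
    rw [e] at h'
    simpa only [div_eq_mul_inv] using h'
  exact h1.add_const (conj β)

theorem RR_eq (hz : z ≠ 0) : RR β z = (β * conj z).im * ((1 - ‖z‖ ^ 2) / ‖z‖ ^ 2) := by
  have h1 : ‖z‖ ^ 2 = z.re * z.re + z.im * z.im := by
    rw [← normSq_eq_norm_sq, normSq_apply]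
  have h2 : z.re * z.re + z.im * z.im ≠ 0 := by
    rw [← normSq_apply]; simpa using hz
  rw [RR, MM, h1, add_im, div_im, normSq_apply]
  simp only [mul_im, conj_re, conj_im]
  generalize z.re * z.re + z.im * z.im = n at *
  field_simp
  ring

theorem norm_MM_le (hβ : ‖β‖ = 1) (hz : z ≠ 0) (hz1 : ‖z‖ ≤ 1) : ‖MM β z‖ ≤ 2 / ‖z‖ := by
  have hzn : 0 < ‖z‖ := norm_pos_iff.2 hz
  rw [MM]
  refine (norm_add_le _ _).trans ?_
  rw [norm_div, norm_mul, hβ, norm_conj, hβ, one_mul]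
  have : ‖z‖ ≤ 1 / ‖z‖ := by
    rw [le_div_iff₀ hzn]; nlinarith
  calc 1 / ‖z‖ + ‖z‖ ≤ 1 / ‖z‖ + 1 / ‖z‖ := by linarith
    _ = 2 / ‖z‖ := by ring

theorem norm_MM'_le (hβ : ‖β‖ = 1) (hz : z ≠ 0) (hz1 : ‖z‖ ≤ 1) : ‖MM' β z‖ ≤ 2 / ‖z‖ ^ 2 := by
  have hzn : 0 < ‖z‖ := norm_pos_iff.2 hz
  rw [MM']
  refine (norm_add_le _ _).trans ?_
  rw [norm_div, norm_neg, norm_pow, hβ, norm_conj, hβ]
  have : 1 ≤ 1 / ‖z‖ ^ 2 := by
    rw [le_div_iff₀ (by positivity)]
    have := pow_le_one₀ (n := 2) hzn.le hz1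
    linarith
  calc 1 / ‖z‖ ^ 2 + 1 ≤ 1 / ‖z‖ ^ 2 + 1 / ‖z‖ ^ 2 := by linarith
    _ = 2 / ‖z‖ ^ 2 := by ring

theorem abs_RR_le (hβ : ‖β‖ = 1) (hz : z ≠ 0) (hz1 : ‖z‖ ≤ 1) :
    |RR β z| ≤ (1 - ‖z‖ ^ 2) / ‖z‖ := by
  have hzn : 0 < ‖z‖ := norm_pos_iff.2 hz
  have h0 : 0 ≤ 1 - ‖z‖ ^ 2 := by
    have := pow_le_one₀ (n := 2) hzn.le hz1
    linarith
  rw [RR_eq hz, abs_mul, abs_of_nonneg (by positivity : 0 ≤ (1 - ‖z‖ ^ 2) / ‖z‖ ^ 2)]
  have h1 : |(β * conj z).im| ≤ ‖z‖ := by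
    refine (abs_im_le_norm _).trans ?_
    rw [norm_mul, hβ, norm_conj, one_mul]
  calc |(β * conj z).im| * ((1 - ‖z‖ ^ 2) / ‖z‖ ^ 2) ≤ ‖z‖ * ((1 - ‖z‖ ^ 2) / ‖z‖ ^ 2) :=
        mul_le_mul_of_nonneg_right h1 (by positivity)
    _ = (1 - ‖z‖ ^ 2) / ‖z‖ := by field_simp

theorem abs_RR_le' (hβ : ‖β‖ = 1) (hz : z ≠ 0) (hz1 : ‖z‖ ≤ 1) : |RR β z| ≤ 1 / ‖z‖ := by
  have hzn : 0 < ‖z‖ := norm_pos_iff.2 hz
  refine (abs_RR_le hβ hz hz1).trans ?_
  apply div_le_div_of_nonneg_right _ hzn.le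
  have : 0 ≤ ‖z‖ ^ 2 := by positivity
  linarith

theorem differentiableOn_MM : DifferentiableOn ℂ (MM β) D0 := fun _ hz =>
  (hasDerivAt_MM (mem_D0.1 hz).2).differentiableAt.differentiableWithinAt

theorem differentiableOn_MM' : DifferentiableOn ℂ (MM' β) D0 := fun _ hz =>
  (hasDerivAt_MM' (mem_D0.1 hz).2).differentiableAt.differentiableWithinAt

end M

/-- holomorphic functions on the punctured disc are real-smooth. -/
theorem contDiffOn_of_holo {F : ℂ → ℂ} (hF : DifferentiableOn ℂ F D0) (m : ℕ∞) :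
    ContDiffOn ℝ m F D0 :=
  (hF.contDiffOn isOpen_D0).restrict_scalars ℝ

theorem contDiffOn_RR (β : ℂ) (m : ℕ∞) : ContDiffOn ℝ m (RR β) D0 :=
  (Complex.imCLM.contDiff).comp_contDiffOn (contDiffOn_of_holo differentiableOn_MM m)

theorem contDiffOn_conj {F : ℂ → ℂ} {m : ℕ∞} (hF : ContDiffOn ℝ m F D0) :
    ContDiffOn ℝ m (fun z => conj (F z)) D0 :=
  (Complex.conjCLE.contDiff).comp_contDiffOn hF

theorem contDiffOn_ofReal {F : ℂ → ℝ} {m : ℕ∞} (hF : ContDiffOn ℝ m F D0) :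
    ContDiffOn ℝ m (fun z => (F z : ℂ)) D0 :=
  (Complex.ofRealCLM.contDiff).comp_contDiffOn hF

section conf

variable {φ : ℂ → ℂ}

theorem D0_sub : D0 ⊆ ball (0:ℂ) 1 := fun _ hz => hz.1

theorem conf_differentiableOn_D0 (h : Conf φ) : DifferentiableOn ℂ φ D0 := h.holo.mono D0_sub

theorem conf_deriv_differentiableOn (h : Conf φ) : DifferentiableOn ℂ (deriv φ) (ball 0 1) :=
  h.holo.deriv isOpen_ball

theorem conf_hasDerivAt (h : Conf φ) {z : ℂ} (hz : z ∈ ball (0:ℂ) 1) :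
    HasDerivAt φ (deriv φ z) z :=
  (h.holo.differentiableAt (isOpen_ball.mem_nhds hz)).hasDerivAt

theorem conf_hasDerivAt' (h : Conf φ) {z : ℂ} (hz : z ∈ ball (0:ℂ) 1) :
    HasDerivAt (deriv φ) (deriv (deriv φ) z) z :=
  ((conf_deriv_differentiableOn h).differentiableAt (isOpen_ball.mem_nhds hz)).hasDerivAt

theorem conf_norm_le (h : Conf φ) : ∃ C : ℝ, 0 < C ∧ ∀ z ∈ ball (0:ℂ) 1, ‖φ z‖ ≤ C * ‖z‖ := by
  obtain ⟨C, hC⟩ := h.bdd
  have hC0 : 0 ≤ C := (norm_nonneg _).trans (hC 0 (by simp))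
  refine ⟨C + 1, by linarith, fun z hz => ?_⟩
  have hm : MapsTo φ (ball 0 1) (closedBall (φ 0) (C + 1)) := by
    intro w hw
    rw [h.zero, mem_closedBall, dist_zero_right]
    have := hC w hw
    linarith
  have := Complex.dist_le_div_mul_dist_of_mapsTo_ball h.holo hm hz
  rw [h.zero] at this
  simpa using this

/-- near `0`, `φ'` is bounded. -/
theorem conf_deriv_bdd (h : Conf φ) {r : ℝ} (hr : r < 1) :
    ∃ C : ℝ, 0 < C ∧ ∀ z, ‖z‖ ≤ r → ‖deriv φ z‖ ≤ C := by
  have hc : ContinuousOn (deriv φ) (closedBall 0 r) :=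
    (conf_deriv_differentiableOn h).continuousOn.mono (closedBall_subset_ball hr)
  obtain ⟨C, hC⟩ := (isCompact_closedBall (0:ℂ) r).exists_bound_of_continuousOn hc
  refine ⟨|C| + 1, by positivity, fun z hz => ?_⟩
  have := hC z (by simpa using hz)
  linarith [le_abs_self C]

end conf

/-! ### The `T` part -/

section T

variable {φ : ℂ → ℂ} {β : ℂ}

/-- `T = i R conj(φ) φ'`. -/
noncomputable def TT (φ : ℂ → ℂ) (β z : ℂ) : ℂ := I * (RR β z : ℂ) * conj (φ z) * deriv φ z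

theorem hasDb_RR {z : ℂ} (hz : z ≠ 0) : HasDb (fun w => (RR β w : ℂ)) (I * conj (MM' β z)) z := by
  have h1 := hasDerivAt_MM (β := β) hz
  have hd : DifferentiableAt ℝ (RR β) z := by
    have := h1.differentiableAt.restrictScalars ℝ
    exact (Complex.imCLM.differentiableAt).comp z this
  have h2 := hasDb_ofReal hd
  have h3 := gr_im_of_hasDerivAt h1
  rw [show gr (RR β) z = gr (fun w => (MM β w).im) z from rfl, h3] at h2
  exact h2

theorem hasDb_TT (h : Conf φ) {z : ℂ} (hz : z ∈ D0) :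
    HasDb (TT φ β) (2 * I * (RR β z : ℂ) * (deriv φ z * conj (deriv φ z))
      - deriv φ z * conj (MM' β z * φ z)) z := by
  have hz0 := (mem_D0.1 hz).2
  have hzb : z ∈ ball (0:ℂ) 1 := hz.1
  have h1 := (hasDb_RR (β := β) hz0).const_mul I
  have h2 := h1.mul (hasDb_conj_of_hasDerivAt (conf_hasDerivAt h hzb))
  have h3 := h2.mul (hasDb_of_hasDerivAt (conf_hasDerivAt' h hzb))
  have hI : I * I = -1 := I_mul_I
  have e : I * (RR β z : ℂ) * conj (φ z) * 0 + deriv φ z * (I * (RR β z : ℂ) * (2 * conj (deriv φ z))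
      + conj (φ z) * (I * (I * conj (MM' β z)))) = 2 * I * (RR β z : ℂ) * (deriv φ z * conj (deriv φ z))
      - deriv φ z * conj (MM' β z * φ z) := by
    rw [map_mul]
    linear_combination (deriv φ z * conj (φ z) * conj (MM' β z)) * hI
  rw [← e]
  exact h3

theorem contDiffOn_phi (h : Conf φ) (m : ℕ∞) : ContDiffOn ℝ m φ D0 :=
  contDiffOn_of_holo (conf_differentiableOn_D0 h) m

theorem contDiffOn_dphi (h : Conf φ) (m : ℕ∞) : ContDiffOn ℝ m (deriv φ) D0 :=
  contDiffOn_of_holo ((conf_deriv_differentiableOn h).mono D0_sub) m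

theorem contDiffOn_TT (h : Conf φ) (m : ℕ∞) : ContDiffOn ℝ m (TT φ β) D0 := by
  unfold TT
  exact (((contDiffOn_const).mul (contDiffOn_ofReal (contDiffOn_RR β m))).mul
    (contDiffOn_conj (contDiffOn_phi h m))).mul (contDiffOn_dphi h m)

theorem norm_dphi_le (z : ℂ) : ‖deriv φ z‖ ≤ 1 + rho φ z := by
  rw [rho]
  nlinarith [sq_nonneg (‖deriv φ z‖ - 1), norm_nonneg (deriv φ z)]

theorem rho_nonneg (z : ℂ) : 0 ≤ rho φ z := by rw [rho]; positivity

/-- bound for `T`. -/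
theorem norm_TT_le (h : Conf φ) (hβ : ‖β‖ = 1) : ∃ C : ℝ, 0 < C ∧ ∀ z ∈ D0,
    ‖TT φ β z‖ ≤ C * ((1 - ‖z‖ ^ 2) * ‖deriv φ z‖) := by
  obtain ⟨C, hC, hb⟩ := conf_norm_le h
  refine ⟨C, hC, fun z hz => ?_⟩
  have hz0 := (mem_D0.1 hz).2
  have hz1 := (mem_D0.1 hz).1
  have hzn : 0 < ‖z‖ := norm_pos_iff.2 hz0
  have h1 := abs_RR_le hβ hz0 hz1.le
  have h2 := hb z hz.1
  rw [TT, norm_mul, norm_mul, norm_mul, norm_I, one_mul, norm_real, norm_conj, Real.norm_eq_abs]
  have h3 : 0 ≤ (1 - ‖z‖ ^ 2) / ‖z‖ := (abs_nonneg _).trans h1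
  calc |RR β z| * ‖φ z‖ * ‖deriv φ z‖ ≤ ((1 - ‖z‖ ^ 2) / ‖z‖ * (C * ‖z‖)) * ‖deriv φ z‖ :=
        mul_le_mul_of_nonneg_right (mul_le_mul h1 h2 (norm_nonneg _) h3) (norm_nonneg _)
    _ = C * ((1 - ‖z‖ ^ 2) * ‖deriv φ z‖) := by field_simp

theorem norm_dbT_le (h : Conf φ) (hβ : ‖β‖ = 1) : ∃ C : ℝ, 0 < C ∧ ∀ z ∈ D0,
    ‖2 * I * (RR β z : ℂ) * (deriv φ z * conj (deriv φ z)) - deriv φ z * conj (MM' β z * φ z)‖
      ≤ C * ((rho φ z + ‖deriv φ z‖) / ‖z‖) := by
  obtain ⟨C, hC, hb⟩ := conf_norm_le h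
  refine ⟨2 + 2 * C, by positivity, fun z hz => ?_⟩
  have hz0 := (mem_D0.1 hz).2
  have hz1 := (mem_D0.1 hz).1
  have hzn : 0 < ‖z‖ := norm_pos_iff.2 hz0
  have h1 := abs_RR_le' hβ hz0 hz1.le
  have h2 := hb z hz.1
  have h3 := norm_MM'_le hβ hz0 hz1.le
  have hρ : 0 ≤ rho φ z := rho_nonneg z
  refine (norm_sub_le _ _).trans ?_
  have e1 : ‖2 * I * (RR β z : ℂ) * (deriv φ z * conj (deriv φ z))‖ = 2 * |RR β z| * rho φ z := by
    rw [norm_mul, norm_mul, norm_mul, norm_mul, norm_I, norm_real, norm_conj, rho, Real.norm_eq_abs,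
      Complex.norm_two]
    ring
  have e2 : ‖deriv φ z * conj (MM' β z * φ z)‖ = ‖deriv φ z‖ * (‖MM' β z‖ * ‖φ z‖) := by
    rw [norm_mul, norm_conj, norm_mul]
  rw [e1, e2]
  have h4 : 2 * |RR β z| * rho φ z ≤ 2 * (1 / ‖z‖) * rho φ z :=
    mul_le_mul_of_nonneg_right (by linarith) hρ
  have h5 : ‖deriv φ z‖ * (‖MM' β z‖ * ‖φ z‖) ≤ ‖deriv φ z‖ * (2 / ‖z‖ ^ 2 * (C * ‖z‖)) :=
    mul_le_mul_of_nonneg_left (mul_le_mul h3 h2 (norm_nonneg _) (by positivity)) (norm_nonneg _)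
  have h6 : ‖deriv φ z‖ * (2 / ‖z‖ ^ 2 * (C * ‖z‖)) = 2 * C * (‖deriv φ z‖ / ‖z‖) := by
    field_simp
  have h7 : 2 * (1 / ‖z‖) * rho φ z = 2 * (rho φ z / ‖z‖) := by ring
  have h8 : 0 ≤ rho φ z / ‖z‖ := by positivity
  have h9 : 0 ≤ ‖deriv φ z‖ / ‖z‖ := by positivity
  rw [add_div]
  nlinarith [mul_nonneg hC.le h8]

/-- weighted divergence lemma used for both parts: `v` smooth, `c` a constant (`1` or `-I`). -/
theorem TT_weak (h : Conf φ) (hβ : ‖β‖ = 1) {v : ℂ → ℝ} (hv : ContDiff ℝ ∞ v) {c : ℂ} (hc : ‖c‖ = 1) :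
    IntegrableOn (fun z => (c * (TT φ β z * gr v z)).re) (ball (0:ℂ) 1) ∧
    IntegrableOn (fun z => (c * ((2 * I * (RR β z : ℂ) * (deriv φ z * conj (deriv φ z))
      - deriv φ z * conj (MM' β z * φ z)) * (v z : ℂ))).re) (ball (0:ℂ) 1) ∧
    ∫ z in ball (0:ℂ) 1, (c * (TT φ β z * gr v z)).re =
      - ∫ z in ball (0:ℂ) 1, (c * ((2 * I * (RR β z : ℂ) * (deriv φ z * conj (deriv φ z))
      - deriv φ z * conj (MM' β z * φ z)) * (v z : ℂ))).re := by
  obtain ⟨C1, hC1, hT⟩ := norm_TT_le h hβ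
  obtain ⟨C2, hC2, hdT⟩ := norm_dbT_le h hβ
  obtain ⟨C3, hC3, hd⟩ := conf_deriv_bdd h (r := 1 / 2) (by norm_num)
  -- bounds for `v` on the closed disc
  obtain ⟨V, hV⟩ := (isCompact_closedBall (0:ℂ) 1).exists_bound_of_continuousOn
    hv.continuous.continuousOn
  have hfc : Continuous (fderiv ℝ v) := hv.continuous_fderiv (by norm_num)
  have hgc : Continuous (gr v) := by
    unfold gr
    exact (Complex.continuous_ofReal.comp (hfc.clm_apply continuous_const)).add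
      ((Complex.continuous_ofReal.comp (hfc.clm_apply continuous_const)).mul continuous_const)
  obtain ⟨G, hG⟩ := (isCompact_closedBall (0:ℂ) 1).exists_bound_of_continuousOn hgc.continuousOn
  have hV0 : 0 ≤ V := (norm_nonneg _).trans (hV 0 (by simp))
  have hG0 : 0 ≤ G := (norm_nonneg _).trans (hG 0 (by simp))
  have hmem : ∀ z ∈ D0, z ∈ closedBall (0:ℂ) 1 := fun z hz => ball_subset_closedBall hz.1
  have hTc : ContinuousOn (TT φ β) D0 := (contDiffOn_TT h 0).continuousOn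
  have hdTc : ContinuousOn (fun z => 2 * I * (RR β z : ℂ) * (deriv φ z * conj (deriv φ z))
      - deriv φ z * conj (MM' β z * φ z)) D0 := by
    have h1 := (contDiffOn_dphi h 0).continuousOn
    have h2 := (contDiffOn_phi h 0).continuousOn
    have h3 := (contDiffOn_ofReal (contDiffOn_RR β 0)).continuousOn
    have h4 : ContinuousOn (MM' β) D0 := differentiableOn_MM'.continuousOn
    exact ((continuousOn_const.mul h3).mul (h1.mul (Complex.continuous_conj.comp_continuousOn h1))).sub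
      (h1.mul (Complex.continuous_conj.comp_continuousOn (h4.mul h2)))
  have hρi : IntegrableOn (fun z => 1 + rho φ z) (ball (0:ℂ) 1) := by
    apply Integrable.add _ h.rho_int
    apply integrableOn_const
    · exact measure_ball_lt_top.ne
    · simp
  have hrho : ∀ z ∈ D0, ‖z‖ < 1 / 2 → rho φ z ≤ C3 ^ 2 := by
    intro z _ hz
    rw [rho]
    exact pow_le_pow_left₀ (norm_nonneg _) (hd z hz.le) 2
  -- first integrand
  have i1 : IntegrableOn (fun z => (c * (TT φ β z * gr v z)).re) (ball (0:ℂ) 1) := by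
    refine intOn (H := fun z => C1 * G * (1 + rho φ z)) (r0 := 1 / 2) (C := C1 * C3 * G)
      ?_ ?_ ?_ ?_
    · exact Complex.continuous_re.comp_continuousOn
        (continuousOn_const.mul (hTc.mul hgc.continuousOn))
    · exact hρi.const_mul _
    · intro z hz hz2
      have hzn : 0 < ‖z‖ := norm_pos_iff.2 (mem_D0.1 hz).2
      have hz1 := (mem_D0.1 hz).1
      refine (abs_re_le_norm _).trans ?_
      rw [norm_mul, hc, one_mul, norm_mul]
      have a1 := hT z hz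
      have a2 := hG z (hmem z hz)
      have a3 := hd z hz2.le
      have a4 : (1 - ‖z‖ ^ 2) * ‖deriv φ z‖ ≤ 1 * C3 :=
        mul_le_mul (by nlinarith [sq_nonneg ‖z‖]) a3 (norm_nonneg _) (by norm_num)
      have a5 : ‖TT φ β z‖ ≤ C1 * C3 := by
        refine a1.trans ?_
        nlinarith
      rw [le_div_iff₀ hzn]
      have a6 : ‖TT φ β z‖ * ‖gr v z‖ ≤ C1 * C3 * G := mul_le_mul a5 a2 (norm_nonneg _) (by positivity)
      have a7 : 0 ≤ ‖TT φ β z‖ * ‖gr v z‖ := by positivity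
      nlinarith
    · intro z hz _
      have hz1 := (mem_D0.1 hz).1
      refine (abs_re_le_norm _).trans ?_
      rw [norm_mul, hc, one_mul, norm_mul]
      have a1 := hT z hz
      have a2 := hG z (hmem z hz)
      have a4 : (1 - ‖z‖ ^ 2) * ‖deriv φ z‖ ≤ 1 * (1 + rho φ z) :=
        mul_le_mul (by nlinarith [sq_nonneg ‖z‖]) (norm_dphi_le z) (norm_nonneg _) (by norm_num)
      have hρ0 := rho_nonneg (φ := φ) z
      have a5 : ‖TT φ β z‖ ≤ C1 * (1 + rho φ z) := by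
        refine a1.trans ?_
        nlinarith
      calc ‖TT φ β z‖ * ‖gr v z‖ ≤ C1 * (1 + rho φ z) * G :=
            mul_le_mul a5 a2 (norm_nonneg _) (by positivity)
        _ = C1 * G * (1 + rho φ z) := by ring
  have i2 : IntegrableOn (fun z => (c * ((2 * I * (RR β z : ℂ) * (deriv φ z * conj (deriv φ z))
      - deriv φ z * conj (MM' β z * φ z)) * (v z : ℂ))).re) (ball (0:ℂ) 1) := by
    refine intOn (H := fun z => 4 * C2 * V * (1 + rho φ z)) (r0 := 1 / 2)
      (C := C2 * V * (C3 ^ 2 + C3)) ?_ ?_ ?_ ?_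
    · exact Complex.continuous_re.comp_continuousOn
        (continuousOn_const.mul (hdTc.mul
          (Complex.continuous_ofReal.comp hv.continuous).continuousOn))
    · exact hρi.const_mul _
    · intro z hz hz2
      have hzn : 0 < ‖z‖ := norm_pos_iff.2 (mem_D0.1 hz).2
      refine (abs_re_le_norm _).trans ?_
      rw [norm_mul, hc, one_mul, norm_mul, norm_real]
      have a1 := hdT z hz
      have a2 := hV z (hmem z hz)
      have a3 := hd z hz2.le
      have a4 := hrho z hz hz2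
      have a5 : (rho φ z + ‖deriv φ z‖) / ‖z‖ ≤ (C3 ^ 2 + C3) / ‖z‖ :=
        div_le_div_of_nonneg_right (by linarith) hzn.le
      have a6 : C2 * ((rho φ z + ‖deriv φ z‖) / ‖z‖) ≤ C2 * ((C3 ^ 2 + C3) / ‖z‖) :=
        mul_le_mul_of_nonneg_left a5 hC2.le
      have a7 := a1.trans a6
      calc _ ≤ C2 * ((C3 ^ 2 + C3) / ‖z‖) * V := mul_le_mul a7 a2 (norm_nonneg _) (by positivity)
        _ = C2 * V * (C3 ^ 2 + C3) / ‖z‖ := by ring
    · intro z hz hz2
      have hzn : 0 < ‖z‖ := norm_pos_iff.2 (mem_D0.1 hz).2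
      refine (abs_re_le_norm _).trans ?_
      rw [norm_mul, hc, one_mul, norm_mul, norm_real]
      have a1 := hdT z hz
      have a2 := hV z (hmem z hz)
      have hρ0 := rho_nonneg (φ := φ) z
      have a3 := norm_dphi_le (φ := φ) z
      have a5 : (rho φ z + ‖deriv φ z‖) / ‖z‖ ≤ 4 * (1 + rho φ z) := by
        rw [div_le_iff₀ hzn]
        nlinarith [norm_nonneg (deriv φ z)]
      have a6 : C2 * ((rho φ z + ‖deriv φ z‖) / ‖z‖) ≤ C2 * (4 * (1 + rho φ z)) :=
        mul_le_mul_of_nonneg_left a5 hC2.le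
      have a7 := a1.trans a6
      calc _ ≤ C2 * (4 * (1 + rho φ z)) * V := mul_le_mul a7 a2 (norm_nonneg _) (by positivity)
        _ = 4 * C2 * V * (1 + rho φ z) := by ring
  refine ⟨i1, i2, ?_⟩
  -- the divergence lemma
  have hvd : ∀ z, DifferentiableAt ℝ v z := fun z => hv.differentiable (by norm_num) z
  have hdb : ∀ z ∈ D0, db (fun w => c * (TT φ β w * (v w : ℂ))) z =
      c * (TT φ β z * gr v z) + c * ((2 * I * (RR β z : ℂ) * (deriv φ z * conj (deriv φ z))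
      - deriv φ z * conj (MM' β z * φ z)) * (v z : ℂ)) := by
    intro z hz
    have := ((hasDb_TT (β := β) h hz).mul (hasDb_ofReal (hvd z))).const_mul c
    rw [this.db_eq]; ring
  have hae : ∀ᵐ z ∂(volume.restrict (ball (0:ℂ) 1)), z ∈ D0 := by
    filter_upwards [ae_restrict_mem measurableSet_ball, ae_ne_zero_disc] with z hz hz0
    exact ⟨hz, by simpa using hz0⟩
  have hsum : IntegrableOn (fun z => (db (fun w => c * (TT φ β w * (v w : ℂ))) z).re)
      (ball (0:ℂ) 1) := by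
    apply (i1.add i2).congr
    filter_upwards [hae] with z hz
    rw [hdb z hz, add_re]; rfl
  have hGC : ContDiffOn ℝ 1 (fun w => c * (TT φ β w * (v w : ℂ))) D0 :=
    contDiffOn_const.mul ((contDiffOn_TT h 1).mul
      (contDiffOn_ofReal ((hv.of_le (by norm_num)).contDiffOn)))
  have key := integral_re_db_eq_zero hGC
    (H := fun z => (c * (TT φ β z * (v z : ℂ)) * z).re / (‖z‖ ^ 2 * (1 - ‖z‖ ^ 2))) ?_ ?_ hsum
  · have e : ∫ z in ball (0:ℂ) 1, (db (fun w => c * (TT φ β w * (v w : ℂ))) z).re =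
        (∫ z in ball (0:ℂ) 1, (c * (TT φ β z * gr v z)).re) +
        ∫ z in ball (0:ℂ) 1, (c * ((2 * I * (RR β z : ℂ) * (deriv φ z * conj (deriv φ z))
      - deriv φ z * conj (MM' β z * φ z)) * (v z : ℂ))).re := by
      rw [← integral_add i1 i2]
      apply integral_congr_ae
      filter_upwards [hae] with z hz
      rw [hdb z hz, add_re]
    rw [e] at key
    linarith
  · refine intOn (H := fun z => 2 * C1 * V * (1 + rho φ z)) (r0 := 1 / 2) (C := C1 * V * C3)
      ?_ ?_ ?_ ?_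
    · apply ContinuousOn.div
      · exact Complex.continuous_re.comp_continuousOn
          ((continuousOn_const.mul (hTc.mul
            (Complex.continuous_ofReal.comp hv.continuous).continuousOn)).mul continuousOn_id)
      · fun_prop
      · intro z hz
        have hzn : 0 < ‖z‖ := norm_pos_iff.2 (mem_D0.1 hz).2
        have hz1 := (mem_D0.1 hz).1
        have : 0 < 1 - ‖z‖ ^ 2 := by nlinarith
        positivity
    · exact hρi.const_mul _
    · intro z hz hz2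
      have hzn : 0 < ‖z‖ := norm_pos_iff.2 (mem_D0.1 hz).2
      have hz1 := (mem_D0.1 hz).1
      have h1z : 0 < 1 - ‖z‖ ^ 2 := by nlinarith
      rw [abs_div, abs_of_pos (show 0 < ‖z‖ ^ 2 * (1 - ‖z‖ ^ 2) by positivity),
        div_le_div_iff₀ (by positivity) hzn]
      have b1 : |(c * (TT φ β z * (v z : ℂ)) * z).re| ≤ ‖TT φ β z‖ * ‖v z‖ * ‖z‖ := by
        refine (abs_re_le_norm _).trans ?_
        rw [norm_mul, norm_mul, hc, one_mul, norm_mul, norm_real]
      have a1 := hT z hz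
      have a2 := hV z (hmem z hz)
      have a3 := hd z hz2.le
      have a4 : ‖TT φ β z‖ ≤ C1 * ((1 - ‖z‖ ^ 2) * C3) :=
        a1.trans (mul_le_mul_of_nonneg_left (mul_le_mul_of_nonneg_left a3 h1z.le) hC1.le)
      have a5 : ‖TT φ β z‖ * ‖v z‖ ≤ C1 * ((1 - ‖z‖ ^ 2) * C3) * V :=
        mul_le_mul a4 a2 (norm_nonneg _) (by positivity)
      calc |(c * (TT φ β z * (v z : ℂ)) * z).re| * ‖z‖ ≤ ‖TT φ β z‖ * ‖v z‖ * ‖z‖ * ‖z‖ :=
            mul_le_mul_of_nonneg_right b1 hzn.le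
        _ ≤ C1 * ((1 - ‖z‖ ^ 2) * C3) * V * ‖z‖ * ‖z‖ := by gcongr
        _ = C1 * V * C3 * (‖z‖ ^ 2 * (1 - ‖z‖ ^ 2)) := by ring
    · intro z hz hz2
      have hzn : 0 < ‖z‖ := norm_pos_iff.2 (mem_D0.1 hz).2
      have hz1 := (mem_D0.1 hz).1
      have h1z : 0 < 1 - ‖z‖ ^ 2 := by nlinarith
      have hρ0 := rho_nonneg (φ := φ) z
      rw [abs_div, abs_of_pos (show 0 < ‖z‖ ^ 2 * (1 - ‖z‖ ^ 2) by positivity),
        div_le_iff₀ (by positivity)]
      have b1 : |(c * (TT φ β z * (v z : ℂ)) * z).re| ≤ ‖TT φ β z‖ * ‖v z‖ * ‖z‖ := by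
        refine (abs_re_le_norm _).trans ?_
        rw [norm_mul, norm_mul, hc, one_mul, norm_mul, norm_real]
      have a1 := hT z hz
      have a2 := hV z (hmem z hz)
      have a4 : ‖TT φ β z‖ ≤ C1 * ((1 - ‖z‖ ^ 2) * (1 + rho φ z)) :=
        a1.trans (mul_le_mul_of_nonneg_left (mul_le_mul_of_nonneg_left (norm_dphi_le z) h1z.le)
          hC1.le)
      have a5 : ‖TT φ β z‖ * ‖v z‖ ≤ C1 * ((1 - ‖z‖ ^ 2) * (1 + rho φ z)) * V :=
        mul_le_mul a4 a2 (norm_nonneg _) (by positivity)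
      calc |(c * (TT φ β z * (v z : ℂ)) * z).re| ≤ ‖TT φ β z‖ * ‖v z‖ * ‖z‖ := b1
        _ ≤ C1 * ((1 - ‖z‖ ^ 2) * (1 + rho φ z)) * V * ‖z‖ := by gcongr
        _ ≤ C1 * ((1 - ‖z‖ ^ 2) * (1 + rho φ z)) * V * (2 * ‖z‖ ^ 2) := by
            gcongr
            nlinarith
        _ = 2 * C1 * V * (1 + rho φ z) * (‖z‖ ^ 2 * (1 - ‖z‖ ^ 2)) := by ring
  · intro z hz
    have hzn : 0 < ‖z‖ := norm_pos_iff.2 (mem_D0.1 hz).2
    have hz1 := (mem_D0.1 hz).1
    have h1z : 0 < 1 - ‖z‖ ^ 2 := by nlinarith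
    field_simp

end T

end Crest.Agent.R101.En
end

-- ▼ part R101/EnD

/-! Row 101, part P5 (helper251): the cross term of the energy identity. -/

set_option autoImplicit false

open MeasureTheory Metric Set Filter Topology Complex
open scoped ContDiff ComplexConjugate

namespace Crest.Agent.R101.En

open Crest.Agent.R101

variable {φ : ℂ → ℂ} {W : ℂ → ℝ} {μ c0 : ℝ} {β : ℂ}

/-- near-zero bounds. -/
theorem near (h : Conf φ) (hW : WSet φ W μ c0) : ∃ C r : ℝ, 0 < C ∧ 0 < r ∧ r < 1 ∧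
    (∀ z ∈ ball (0:ℂ) 1, ‖φ z‖ ≤ C * ‖z‖) ∧
    (∀ z : ℂ, ‖z‖ < r → ‖deriv φ z‖ ≤ C) ∧
    (∀ z : ℂ, ‖z‖ < r → |W z| ≤ C * ‖z‖ ^ 2) ∧
    (∀ z : ℂ, ‖z‖ < r → ‖gr W z‖ ≤ C * ‖z‖) := by
  obtain ⟨C1, hC1, h1⟩ := conf_norm_le h
  obtain ⟨C2, r, hr, hr1, h2⟩ := hW.growth
  obtain ⟨C3, hC3, h3⟩ := conf_deriv_bdd h hr1
  refine ⟨C1 + C3 + 2 * |C2|, r, by positivity, hr, hr1, ?_, ?_, ?_, ?_⟩
  · intro z hz
    refine (h1 z hz).trans (mul_le_mul_of_nonneg_right ?_ (norm_nonneg _))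
    have := abs_nonneg C2
    linarith
  · intro z hz
    refine (h3 z hz.le).trans ?_
    have := abs_nonneg C2
    linarith
  · intro z hz
    have := (h2 z (by simpa using hz)).1
    refine this.trans (mul_le_mul_of_nonneg_right ?_ (by positivity))
    have := abs_nonneg C2
    linarith [le_abs_self C2]
  · intro z hz
    obtain ⟨_, hx, hy⟩ := h2 z (by simpa using hz)
    have e : ‖gr W z‖ ≤ |dx W z| + |dy W z| := by
      have := Complex.norm_le_abs_re_add_abs_im (gr W z)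
      rwa [gr_re, gr_im] at this
    refine e.trans ?_
    have h4 : C2 * ‖z‖ ≤ |C2| * ‖z‖ := mul_le_mul_of_nonneg_right (le_abs_self _) (norm_nonneg _)
    have h5 : 0 ≤ (C1 + C3) * ‖z‖ := by positivity
    nlinarith

theorem Wcont (hW : WSet φ W μ c0) : ContinuousOn W D0 := hW.adm.c1.continuousOn.mono D0_sub

theorem grcont (hW : WSet φ W μ c0) : ContinuousOn (gr W) D0 := by
  have h1 : ContinuousOn (fderiv ℝ W) (ball 0 1) :=
    hW.adm.c1.continuousOn_fderiv_of_isOpen isOpen_ball le_rfl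
  have h2 : ContinuousOn (fderiv ℝ W) D0 := h1.mono D0_sub
  unfold gr
  exact (Complex.continuous_ofReal.comp_continuousOn (h2.clm_apply continuousOn_const)).add
    ((Complex.continuous_ofReal.comp_continuousOn (h2.clm_apply continuousOn_const)).mul
      continuousOn_const)

theorem intW (h : Conf φ) (hW : WSet φ W μ c0) (hL2 : IntegrableOn (fun z => W z ^ 2) (ball 0 1))
    {g : ℂ → ℝ} (hg : ContinuousOn g D0) {K : ℝ} (hK : 0 ≤ K)
    (hb : ∀ z ∈ D0, |g z| ≤ K * (|W z| * (‖deriv φ z‖ + rho φ z) / ‖z‖ ^ 2)) :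
    IntegrableOn g (ball (0:ℂ) 1) := by
  obtain ⟨C, r, hC, hr, hr1, h1, h2, h3, h4⟩ := near h hW
  refine intOn (H := fun z => K / r ^ 2 * (2 * rho φ z + (W z ^ 2 + rho φ z * W z ^ 2)))
    (r0 := r) (C := K * (C * (C + C ^ 2))) hg ?_ ?_ ?_
  · exact ((h.rho_int.const_mul 2).add (hL2.add hW.adm.l2)).const_mul _
  · intro z hz hz2
    have hzn : 0 < ‖z‖ := norm_pos_iff.2 (mem_D0.1 hz).2
    have hz1 := (mem_D0.1 hz).1
    refine (hb z hz).trans ?_
    have a1 := h3 z hz2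
    have a2 := h2 z hz2
    have a3 : rho φ z ≤ C ^ 2 := by rw [rho]; exact pow_le_pow_left₀ (norm_nonneg _) a2 2
    have a4 : |W z| * (‖deriv φ z‖ + rho φ z) ≤ C * ‖z‖ ^ 2 * (C + C ^ 2) :=
      mul_le_mul a1 (by linarith) (add_nonneg (norm_nonneg _) (rho_nonneg z)) (by positivity)
    have a5 : |W z| * (‖deriv φ z‖ + rho φ z) / ‖z‖ ^ 2 ≤ C * (C + C ^ 2) := by
      rw [div_le_iff₀ (by positivity)]
      calc _ ≤ _ := a4
        _ = _ := by ring
    calc _ ≤ K * (C * (C + C ^ 2)) := mul_le_mul_of_nonneg_left a5 hK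
      _ ≤ K * (C * (C + C ^ 2)) / ‖z‖ := by
          rw [le_div_iff₀ hzn]
          have : 0 ≤ K * (C * (C + C ^ 2)) := by positivity
          nlinarith
  · intro z hz hz2
    have hzn : 0 < ‖z‖ := norm_pos_iff.2 (mem_D0.1 hz).2
    refine (hb z hz).trans ?_
    have hρ := rho_nonneg (φ := φ) z
    have a1 : |W z| * ‖deriv φ z‖ ≤ rho φ z + W z ^ 2 := by
      rw [rho, ← sq_abs (W z)]
      nlinarith [sq_nonneg (|W z| - ‖deriv φ z‖), sq_nonneg (|W z|), sq_nonneg ‖deriv φ z‖]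
    have a2 : |W z| * rho φ z ≤ rho φ z + rho φ z * W z ^ 2 := by
      rw [← sq_abs (W z)]
      nlinarith [sq_nonneg (|W z| - 1), abs_nonneg (W z),
        mul_nonneg hρ (sq_nonneg (|W z| - 1)), mul_nonneg hρ (abs_nonneg (W z)),
        mul_nonneg hρ (sq_nonneg (|W z|))]
    have a3 : |W z| * (‖deriv φ z‖ + rho φ z) ≤ 2 * rho φ z + (W z ^ 2 + rho φ z * W z ^ 2) := by
      rw [mul_add]; linarith
    have a4 : r ^ 2 ≤ ‖z‖ ^ 2 := pow_le_pow_left₀ hr.le hz2 2
    have a5 : 0 ≤ |W z| * (‖deriv φ z‖ + rho φ z) := by positivity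
    calc K * (|W z| * (‖deriv φ z‖ + rho φ z) / ‖z‖ ^ 2)
        ≤ K * ((2 * rho φ z + (W z ^ 2 + rho φ z * W z ^ 2)) / r ^ 2) := by
          apply mul_le_mul_of_nonneg_left _ hK
          exact div_le_div₀ (a5.trans a3) a3 (by positivity) a4
      _ = K / r ^ 2 * (2 * rho φ z + (W z ^ 2 + rho φ z * W z ^ 2)) := by ring

/-- crude bound for `h'`. -/
theorem norm_hp_le (h : Conf φ) (hβ : ‖β‖ = 1) : ∃ C : ℝ, 0 < C ∧ ∀ z ∈ D0,
    ‖hp φ β z‖ ≤ C * ((1 + ‖deriv φ z‖) / ‖z‖) := by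
  obtain ⟨C, hC, hb⟩ := conf_norm_le h
  refine ⟨2 * C + 2, by positivity, fun z hz => ?_⟩
  have hz0 := (mem_D0.1 hz).2
  have hz1 := (mem_D0.1 hz).1
  have hzn : 0 < ‖z‖ := norm_pos_iff.2 hz0
  rw [hp]
  refine (norm_add_le _ _).trans ?_
  rw [norm_mul, norm_mul]
  have h1 : ‖MM' β z‖ * ‖φ z‖ ≤ 2 / ‖z‖ ^ 2 * (C * ‖z‖) :=
    mul_le_mul (norm_MM'_le hβ hz0 hz1.le) (hb z hz.1) (norm_nonneg _) (by positivity)
  have h2 : ‖MM β z‖ * ‖deriv φ z‖ ≤ 2 / ‖z‖ * ‖deriv φ z‖ :=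
    mul_le_mul_of_nonneg_right (norm_MM_le hβ hz0 hz1.le) (norm_nonneg _)
  have e : 2 / ‖z‖ ^ 2 * (C * ‖z‖) = 2 * C * (1 / ‖z‖) := by field_simp
  rw [e] at h1
  have h3 : 0 ≤ 1 / ‖z‖ := by positivity
  have h4 : 0 ≤ ‖deriv φ z‖ * (1 / ‖z‖) := by positivity
  have e2 : 2 / ‖z‖ * ‖deriv φ z‖ = 2 * (‖deriv φ z‖ * (1 / ‖z‖)) := by ring
  have e3 : (1 + ‖deriv φ z‖) / ‖z‖ = 1 / ‖z‖ + ‖deriv φ z‖ * (1 / ‖z‖) := by ring
  rw [e2] at h2
  rw [e3]
  nlinarith [mul_nonneg hC.le h4]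

theorem hasDerivAt_Mphi (h : Conf φ) {z : ℂ} (hz : z ∈ D0) :
    HasDerivAt (fun w => MM β w * φ w) (hp φ β z) z := by
  have := (hasDerivAt_MM (β := β) (mem_D0.1 hz).2).mul (conf_hasDerivAt h hz.1)
  rw [hp]
  exact this

theorem contDiffOn_MM (β : ℂ) (m : ℕ∞) : ContDiffOn ℝ m (MM β) D0 :=
  contDiffOn_of_holo differentiableOn_MM m

theorem contDiffOn_MM' (β : ℂ) (m : ℕ∞) : ContDiffOn ℝ m (MM' β) D0 :=
  contDiffOn_of_holo differentiableOn_MM' m

theorem contDiffOn_hp (h : Conf φ) (β : ℂ) (m : ℕ∞) : ContDiffOn ℝ m (hp φ β) D0 := by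
  unfold hp
  exact ((contDiffOn_MM' β m).mul (contDiffOn_phi h m)).add
    ((contDiffOn_MM β m).mul (contDiffOn_dphi h m))

/-- the cross density `X = conj(φ') R (M φ) (W_x - i W_y)`. -/
noncomputable def XX (φ : ℂ → ℂ) (W : ℂ → ℝ) (β z : ℂ) : ℂ :=
  conj (deriv φ z) * (RR β z : ℂ) * (MM β z * φ z) * conj (gr W z)

theorem intX (h : Conf φ) (hW : WSet φ W μ c0) (hβ : ‖β‖ = 1) :
    IntegrableOn (fun z => (XX φ W β z).im) (ball (0:ℂ) 1) := by
  obtain ⟨C, r, hC, hr, hr1, h1, h2, h3, h4⟩ := near h hW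
  have hb : ∀ z ∈ D0, |(XX φ W β z).im| ≤ 2 * C * (‖deriv φ z‖ * ‖gr W z‖ / ‖z‖) := by
    intro z hz
    have hz0 := (mem_D0.1 hz).2
    have hz1 := (mem_D0.1 hz).1
    have hzn : 0 < ‖z‖ := norm_pos_iff.2 hz0
    refine (abs_im_le_norm _).trans ?_
    rw [XX, norm_mul, norm_mul, norm_mul, norm_mul, norm_conj, norm_conj, norm_real,
      Real.norm_eq_abs]
    have a1 := abs_RR_le' hβ hz0 hz1.le
    have a2 : ‖MM β z‖ * ‖φ z‖ ≤ 2 / ‖z‖ * (C * ‖z‖) :=
      mul_le_mul (norm_MM_le hβ hz0 hz1.le) (h1 z hz.1) (norm_nonneg _) (by positivity)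
    have a3 : |RR β z| * (‖MM β z‖ * ‖φ z‖) ≤ 1 / ‖z‖ * (2 / ‖z‖ * (C * ‖z‖)) :=
      mul_le_mul a1 a2 (by positivity) (by positivity)
    have a4 : ‖deriv φ z‖ * ‖gr W z‖ * (|RR β z| * (‖MM β z‖ * ‖φ z‖)) ≤
        ‖deriv φ z‖ * ‖gr W z‖ * (1 / ‖z‖ * (2 / ‖z‖ * (C * ‖z‖))) :=
      mul_le_mul_of_nonneg_left a3 (by positivity)
    calc ‖deriv φ z‖ * |RR β z| * (‖MM β z‖ * ‖φ z‖) * ‖gr W z‖
        = ‖deriv φ z‖ * ‖gr W z‖ * (|RR β z| * (‖MM β z‖ * ‖φ z‖)) := by ring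
      _ ≤ _ := a4
      _ = 2 * C * (‖deriv φ z‖ * ‖gr W z‖ / ‖z‖) := by field_simp
  refine intOn (H := fun z => 2 * C / r * (rho φ z + g2 W z)) (r0 := r) (C := 2 * C * (C * C))
    ?_ ?_ ?_ ?_
  · unfold XX
    have h1 := (contDiffOn_dphi h 0).continuousOn
    have h2 := (contDiffOn_phi h 0).continuousOn
    have h3 := (contDiffOn_ofReal (contDiffOn_RR β 0)).continuousOn
    have h4 := (contDiffOn_MM β 0).continuousOn
    exact Complex.continuous_im.comp_continuousOn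
      ((((Complex.continuous_conj.comp_continuousOn h1).mul h3).mul (h4.mul h2)).mul
      (Complex.continuous_conj.comp_continuousOn (grcont hW)))
  · exact (h.rho_int.add hW.adm.en).const_mul _
  · intro z hz hz2
    have hzn : 0 < ‖z‖ := norm_pos_iff.2 (mem_D0.1 hz).2
    refine (hb z hz).trans ?_
    have a1 : ‖deriv φ z‖ * ‖gr W z‖ ≤ C * (C * ‖z‖) :=
      mul_le_mul (h2 z hz2) (h4 z hz2) (norm_nonneg _) hC.le
    rw [← mul_div_assoc]
    apply div_le_div_of_nonneg_right _ hzn.le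
    have hz1 := (mem_D0.1 hz).1
    calc 2 * C * (‖deriv φ z‖ * ‖gr W z‖) ≤ 2 * C * (C * (C * ‖z‖)) :=
          mul_le_mul_of_nonneg_left a1 (by positivity)
      _ ≤ 2 * C * (C * C) := by
          have : 0 < 2 * C * (C * C) := by positivity
          nlinarith
  · intro z hz hz2
    have hzn : 0 < ‖z‖ := norm_pos_iff.2 (mem_D0.1 hz).2
    refine (hb z hz).trans ?_
    have a1 : ‖deriv φ z‖ * ‖gr W z‖ ≤ rho φ z + g2 W z := by
      rw [rho, ← norm_gr_sq]
      nlinarith [sq_nonneg (‖deriv φ z‖ - ‖gr W z‖), sq_nonneg (‖gr W z‖), sq_nonneg ‖deriv φ z‖]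
    calc 2 * C * (‖deriv φ z‖ * ‖gr W z‖ / ‖z‖) ≤ 2 * C * ((rho φ z + g2 W z) / r) := by
          apply mul_le_mul_of_nonneg_left _ (by positivity)
          exact div_le_div₀ ((by positivity : 0 ≤ ‖deriv φ z‖ * ‖gr W z‖).trans a1) a1 hr hz2
      _ = 2 * C / r * (rho φ z + g2 W z) := by ring

theorem int2 (h : Conf φ) (hW : WSet φ W μ c0) (hβ : ‖β‖ = 1)
    (hL2 : IntegrableOn (fun z => W z ^ 2) (ball 0 1)) :
    IntegrableOn (fun z => W z * (conj (deriv φ z) * MM' β z * (MM β z * φ z)).re)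
      (ball (0:ℂ) 1) := by
  obtain ⟨C, hC, hb⟩ := conf_norm_le h
  refine intW h hW hL2 ?_ (K := 4 * C) (by positivity) ?_
  · have h1 := (contDiffOn_dphi h 0).continuousOn
    have h2 := (contDiffOn_phi h 0).continuousOn
    have h4 := (contDiffOn_MM β 0).continuousOn
    have h5 := (contDiffOn_MM' β 0).continuousOn
    exact (Wcont hW).mul (Complex.continuous_re.comp_continuousOn
      (((Complex.continuous_conj.comp_continuousOn h1).mul h5).mul (h4.mul h2)))
  · intro z hz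
    have hz0 := (mem_D0.1 hz).2
    have hz1 := (mem_D0.1 hz).1
    have hzn : 0 < ‖z‖ := norm_pos_iff.2 hz0
    have hρ := rho_nonneg (φ := φ) z
    rw [abs_mul]
    have a0 : |(conj (deriv φ z) * MM' β z * (MM β z * φ z)).re| ≤
        ‖deriv φ z‖ * (‖MM' β z‖ * (‖MM β z‖ * ‖φ z‖)) := by
      refine (abs_re_le_norm _).trans ?_
      rw [norm_mul, norm_mul, norm_mul, norm_conj]
      exact le_of_eq (by ring)
    have a2 : ‖MM β z‖ * ‖φ z‖ ≤ 2 / ‖z‖ * (C * ‖z‖) :=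
      mul_le_mul (norm_MM_le hβ hz0 hz1.le) (hb z hz.1) (norm_nonneg _) (by positivity)
    have a3 : ‖MM' β z‖ * (‖MM β z‖ * ‖φ z‖) ≤ 2 / ‖z‖ ^ 2 * (2 / ‖z‖ * (C * ‖z‖)) :=
      mul_le_mul (norm_MM'_le hβ hz0 hz1.le) a2 (by positivity) (by positivity)
    have a4 : 2 / ‖z‖ ^ 2 * (2 / ‖z‖ * (C * ‖z‖)) = 4 * C / ‖z‖ ^ 2 := by field_simp; ring
    rw [a4] at a3
    calc |W z| * |(conj (deriv φ z) * MM' β z * (MM β z * φ z)).re|
        ≤ |W z| * (‖deriv φ z‖ * (4 * C / ‖z‖ ^ 2)) :=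
          mul_le_mul_of_nonneg_left (a0.trans (mul_le_mul_of_nonneg_left a3 (norm_nonneg _)))
            (abs_nonneg _)
      _ = 4 * C * (|W z| * ‖deriv φ z‖ / ‖z‖ ^ 2) := by ring
      _ ≤ 4 * C * (|W z| * (‖deriv φ z‖ + rho φ z) / ‖z‖ ^ 2) := by gcongr; linarith

theorem int3 (h : Conf φ) (hW : WSet φ W μ c0) (hβ : ‖β‖ = 1)
    (hL2 : IntegrableOn (fun z => W z ^ 2) (ball 0 1)) :
    IntegrableOn (fun z => W z * (RR β z * (conj (deriv φ z) * hp φ β z).im))
      (ball (0:ℂ) 1) := by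
  obtain ⟨C, hC, hb⟩ := norm_hp_le h hβ
  refine intW h hW hL2 ?_ (K := C) (by positivity) ?_
  · have h1 := (contDiffOn_dphi h 0).continuousOn
    have h3 := (contDiffOn_RR β 0).continuousOn
    have h4 := (contDiffOn_hp h β 0).continuousOn
    exact (Wcont hW).mul (h3.mul (Complex.continuous_im.comp_continuousOn
      ((Complex.continuous_conj.comp_continuousOn h1).mul h4)))
  · intro z hz
    have hz0 := (mem_D0.1 hz).2
    have hz1 := (mem_D0.1 hz).1
    have hzn : 0 < ‖z‖ := norm_pos_iff.2 hz0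
    rw [abs_mul, abs_mul]
    have a0 : |(conj (deriv φ z) * hp φ β z).im| ≤
        ‖deriv φ z‖ * (C * ((1 + ‖deriv φ z‖) / ‖z‖)) := by
      refine (abs_im_le_norm _).trans ?_
      rw [norm_mul, norm_conj]
      exact mul_le_mul_of_nonneg_left (hb z hz) (norm_nonneg _)
    have a1 := abs_RR_le' hβ hz0 hz1.le
    have a2 : |RR β z| * |(conj (deriv φ z) * hp φ β z).im| ≤
        1 / ‖z‖ * (‖deriv φ z‖ * (C * ((1 + ‖deriv φ z‖) / ‖z‖))) :=
      mul_le_mul a1 a0 (abs_nonneg _) (by positivity)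
    calc |W z| * (|RR β z| * |(conj (deriv φ z) * hp φ β z).im|)
        ≤ |W z| * (1 / ‖z‖ * (‖deriv φ z‖ * (C * ((1 + ‖deriv φ z‖) / ‖z‖)))) :=
          mul_le_mul_of_nonneg_left a2 (abs_nonneg _)
      _ = C * (|W z| * (‖deriv φ z‖ + rho φ z) / ‖z‖ ^ 2) := by rw [rho]; field_simp

/-- **Cross term.** -/
theorem cross_term (h : Conf φ) (hW : WSet φ W μ c0) (hβ : ‖β‖ = 1)
    (hL2 : IntegrableOn (fun z => W z ^ 2) (ball 0 1)) :
    ∫ z in ball (0:ℂ) 1, (XX φ W β z).im =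
      (∫ z in ball (0:ℂ) 1, W z * (conj (deriv φ z) * MM' β z * (MM β z * φ z)).re)
      - 2 * ∫ z in ball (0:ℂ) 1, W z * (RR β z * (conj (deriv φ z) * hp φ β z).im) := by
  have i1 := intX h hW hβ
  have i2 := int2 h hW hβ hL2
  have i3 := int3 h hW hβ hL2
  set G : ℂ → ℂ := fun z => I * (((RR β z : ℂ) * conj (MM β z * φ z)) * deriv φ z * (W z : ℂ))
    with hG
  have hdb : ∀ z ∈ D0, (db G z).re = (XX φ W β z).im
      - W z * (conj (deriv φ z) * MM' β z * (MM β z * φ z)).re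
      + 2 * (W z * (RR β z * (conj (deriv φ z) * hp φ β z).im)) := by
    intro z hz
    have hz0 := (mem_D0.1 hz).2
    have hWd : DifferentiableAt ℝ W z :=
      (hW.adm.c1.contDiffAt (isOpen_ball.mem_nhds hz.1)).differentiableAt (by norm_num)
    have h1 := ((((hasDb_RR (β := β) hz0).mul (hasDb_conj_of_hasDerivAt
      (hasDerivAt_Mphi (β := β) h hz))).mul (hasDb_of_hasDerivAt (conf_hasDerivAt' h hz.1))).mul
      (hasDb_ofReal hWd)).const_mul I
    rw [h1.db_eq, XX]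
    simp only [mul_re, mul_im, add_re, add_im, conj_re, conj_im, I_re, I_im, ofReal_re, ofReal_im,
      zero_re, zero_im, re_ofNat, im_ofNat]
    ring
  have hae : ∀ᵐ z ∂(volume.restrict (ball (0:ℂ) 1)), z ∈ D0 := by
    filter_upwards [ae_restrict_mem measurableSet_ball, ae_ne_zero_disc] with z hz hz0
    exact ⟨hz, by simpa using hz0⟩
  have hsum : IntegrableOn (fun z => (db G z).re) (ball (0:ℂ) 1) := by
    apply ((i1.sub i2).add (i3.const_mul 2)).congr
    filter_upwards [hae] with z hz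
    rw [hdb z hz]; rfl
  have hGC : ContDiffOn ℝ 1 G D0 :=
    contDiffOn_const.mul ((((contDiffOn_ofReal (contDiffOn_RR β 1)).mul
      (contDiffOn_conj ((contDiffOn_MM β 1).mul (contDiffOn_phi h 1)))).mul
      (contDiffOn_dphi h 1)).mul (contDiffOn_ofReal (hW.adm.c1.mono D0_sub)))
  have key := integral_re_db_eq_zero hGC
    (H := fun z => (G z * z).re / (‖z‖ ^ 2 * (1 - ‖z‖ ^ 2))) ?_ ?_ hsum
  · have e : ∫ z in ball (0:ℂ) 1, (db G z).re = (∫ z in ball (0:ℂ) 1, (XX φ W β z).im)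
        - (∫ z in ball (0:ℂ) 1, W z * (conj (deriv φ z) * MM' β z * (MM β z * φ z)).re)
        + 2 * ∫ z in ball (0:ℂ) 1, W z * (RR β z * (conj (deriv φ z) * hp φ β z).im) := by
      have i12 : IntegrableOn (fun z => (XX φ W β z).im
          - W z * (conj (deriv φ z) * MM' β z * (MM β z * φ z)).re) (ball (0:ℂ) 1) := i1.sub i2
      have i3' : IntegrableOn (fun z => 2 * (W z * (RR β z * (conj (deriv φ z) * hp φ β z).im)))
          (ball (0:ℂ) 1) := i3.const_mul 2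
      rw [← integral_const_mul, ← integral_sub i1 i2, ← integral_add i12 i3']
      apply integral_congr_ae
      filter_upwards [hae] with z hz
      rw [hdb z hz]
    rw [e] at key
    linarith
  · obtain ⟨C, hC, hb⟩ := conf_norm_le h
    refine intW h hW hL2 ?_ (K := 2 * C) (by positivity) ?_
    · apply ContinuousOn.div
      · exact Complex.continuous_re.comp_continuousOn (hGC.continuousOn.mul continuousOn_id)
      · fun_prop
      · intro z hz
        have hzn : 0 < ‖z‖ := norm_pos_iff.2 (mem_D0.1 hz).2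
        have hz1 := (mem_D0.1 hz).1
        have : 0 < 1 - ‖z‖ ^ 2 := by nlinarith
        positivity
    · intro z hz
      have hz0 := (mem_D0.1 hz).2
      have hz1 := (mem_D0.1 hz).1
      have hzn : 0 < ‖z‖ := norm_pos_iff.2 hz0
      have h1z : 0 < 1 - ‖z‖ ^ 2 := by nlinarith
      have hρ := rho_nonneg (φ := φ) z
      rw [abs_div, abs_of_pos (show 0 < ‖z‖ ^ 2 * (1 - ‖z‖ ^ 2) by positivity),
        div_le_iff₀ (by positivity)]
      refine (abs_re_le_norm _).trans ?_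
      rw [hG]
      simp only [norm_mul, norm_I, norm_real, norm_conj, Real.norm_eq_abs, one_mul]
      have a1 := abs_RR_le hβ hz0 hz1.le
      have a2 : ‖MM β z‖ * ‖φ z‖ ≤ 2 / ‖z‖ * (C * ‖z‖) :=
        mul_le_mul (norm_MM_le hβ hz0 hz1.le) (hb z hz.1) (norm_nonneg _) (by positivity)
      have a3 : |RR β z| * (‖MM β z‖ * ‖φ z‖) ≤ (1 - ‖z‖ ^ 2) / ‖z‖ * (2 / ‖z‖ * (C * ‖z‖)) :=
        mul_le_mul a1 a2 (by positivity) (by positivity)
      calc |RR β z| * (‖MM β z‖ * ‖φ z‖) * ‖deriv φ z‖ * |W z| * ‖z‖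
          ≤ (1 - ‖z‖ ^ 2) / ‖z‖ * (2 / ‖z‖ * (C * ‖z‖)) * ‖deriv φ z‖ * |W z| * ‖z‖ := by gcongr
        _ = 2 * C * (|W z| * ‖deriv φ z‖ / ‖z‖ ^ 2) * (‖z‖ ^ 2 * (1 - ‖z‖ ^ 2)) := by
            field_simp
        _ ≤ 2 * C * (|W z| * (‖deriv φ z‖ + rho φ z) / ‖z‖ ^ 2) * (‖z‖ ^ 2 * (1 - ‖z‖ ^ 2)) := by
            gcongr
            linarith
  · intro z hz
    have hzn : 0 < ‖z‖ := norm_pos_iff.2 (mem_D0.1 hz).2
    have hz1 := (mem_D0.1 hz).1
    have h1z : 0 < 1 - ‖z‖ ^ 2 := by nlinarith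
    field_simp

end Crest.Agent.R101.En
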