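import Mathlib
import Crest.Agent.R101.Defs

-- ▼ part R101/DiscPars
section

/-! Parseval's identity on the unit disc: if `f z = ∑ c n z^n` on the punctured unit disc then
`∫⁻_{|z|<1} |f|² = ∑ π |c n|²/(n+1)` in `[0,∞]`. -/

set_option autoImplicit false

open MeasureTheory Metric Set Complex ComplexConjugate Filter Topology
open scoped Real ENNReal NNReal

namespace Crest.Agent.R101

/-- Parseval on the circle of radius `r < 1`. -/
theorem hasSum_circle {f : ℂ → ℂ} {c : ℕ → ℂ} {r : ℝ} (hr : 0 < r) (hr1 : r < 1)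
    (hs : ∀ z : ℂ, z ≠ 0 → ‖z‖ < 1 → HasSum (fun n => c n * z ^ n) (f z)) :
    HasSum (fun n => ‖c n‖ ^ 2 * r ^ (2 * n))
      (Real.circleAverage (fun z => ‖f (r * z)‖ ^ 2) 0 1) := by
  classical
  set p : ℕ → Polynomial ℂ := fun N =>
    ∑ n ∈ Finset.range N, Polynomial.C (c n * (r : ℂ) ^ n) * Polynomial.X ^ n with hp
  have hcoef : ∀ N n, (p N).coeff n = if n < N then c n * (r : ℂ) ^ n else 0 := by
    intro N n
    rw [hp]
    simp only [Polynomial.finsetSum_coeff, Polynomial.coeff_C_mul, Polynomial.coeff_X_pow]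
    simp
  have hsum : ∀ N, ∑ n ∈ Finset.range N, ‖c n‖ ^ 2 * r ^ (2 * n) =
      Real.circleAverage (fun z => ‖(p N).eval z‖ ^ 2) 0 1 := by
    intro N
    rw [← Polynomial.sum_sq_norm_coeff_eq_circleAverage]
    have hsub : (p N).support ⊆ Finset.range N := by
      intro n hn
      rw [Polynomial.mem_support_iff, hcoef] at hn
      by_contra h
      rw [Finset.mem_range] at h
      simp [h] at hn
    rw [Finset.sum_subset hsub]
    · apply Finset.sum_congr rfl
      intro n hn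
      rw [Finset.mem_range] at hn
      rw [hcoef, if_pos hn, norm_mul, norm_pow, Complex.norm_real, Real.norm_eq_abs,
        abs_of_pos hr, mul_pow, ← pow_mul, mul_comm n 2]
    · intro n _ hn
      rw [Polynomial.mem_support_iff, not_not] at hn
      rw [hn]; simp
  have heval : ∀ N z, (p N).eval z = ∑ n ∈ Finset.range N, c n * ((r : ℂ) * z) ^ n := by
    intro N z
    rw [hp]
    simp only [Polynomial.eval_finsetSum, Polynomial.eval_mul, Polynomial.eval_C,
      Polynomial.eval_pow, Polynomial.eval_X]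
    apply Finset.sum_congr rfl
    intro n _
    rw [mul_pow]; ring
  -- summability of the coefficients
  have hsr : Summable (fun n => ‖c n‖ * r ^ n) := by
    have h := (hs (r : ℂ) (by exact_mod_cast hr.ne') (by simpa [abs_of_pos hr] using hr1)).summable.norm
    refine h.congr fun n => ?_
    rw [norm_mul, norm_pow, Complex.norm_real, Real.norm_eq_abs, abs_of_pos hr]
  set K : ℝ := ∑' n, ‖c n‖ * r ^ n with hK
  have hlim : Tendsto (fun N => ∑ n ∈ Finset.range N, ‖c n‖ ^ 2 * r ^ (2 * n)) atTop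
      (𝓝 (Real.circleAverage (fun z => ‖f (r * z)‖ ^ 2) 0 1)) := by
    simp_rw [hsum]
    unfold Real.circleAverage
    apply Tendsto.const_smul
    apply intervalIntegral.tendsto_integral_filter_of_dominated_convergence (fun _ => K ^ 2)
    · apply Eventually.of_forall
      intro N
      apply Continuous.aestronglyMeasurable
      have h1 : Continuous (fun z : ℂ => ‖(p N).eval z‖ ^ 2) :=
        ((p N).continuous.norm).pow 2
      exact h1.comp (continuous_circleMap 0 1)
    · apply Eventually.of_forall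
      intro N
      apply Eventually.of_forall
      intro θ _
      rw [Real.norm_eq_abs, abs_of_nonneg (by positivity)]
      have h1 : ‖(p N).eval (circleMap 0 1 θ)‖ ≤ K := by
        rw [heval]
        refine (norm_sum_le _ _).trans ?_
        refine le_trans (le_of_eq ?_) (hsr.sum_le_tsum (Finset.range N) (fun n _ => by positivity))
        apply Finset.sum_congr rfl
        intro n _
        rw [norm_mul, norm_pow, norm_mul, Complex.norm_real, Real.norm_eq_abs, abs_of_pos hr]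
        simp
      have h0 : 0 ≤ ‖(p N).eval (circleMap 0 1 θ)‖ := norm_nonneg _
      exact pow_le_pow_left₀ h0 h1 2
    · exact intervalIntegrable_const
    · apply Eventually.of_forall
      intro θ _
      have hz : (r : ℂ) * circleMap 0 1 θ ≠ 0 := by
        apply mul_ne_zero (by exact_mod_cast hr.ne')
        simp [circleMap]
      have hn : ‖(r : ℂ) * circleMap 0 1 θ‖ < 1 := by
        rw [norm_mul, Complex.norm_real, Real.norm_eq_abs, abs_of_pos hr]
        simpa using hr1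
      have h := (hs _ hz hn).tendsto_sum_nat
      simp_rw [heval]
      exact (h.norm).pow 2
  exact (hasSum_iff_tendsto_nat_of_nonneg (fun n => by positivity) _).2 hlim

/-- Parseval on the unit disc, `[0,∞]`-valued. -/
theorem disc_parseval {f : ℂ → ℂ} {c : ℕ → ℂ}
    (hs : ∀ z : ℂ, z ≠ 0 → ‖z‖ < 1 → HasSum (fun n => c n * z ^ n) (f z)) :
    ∫⁻ z in ball (0 : ℂ) 1, ENNReal.ofReal (‖f z‖ ^ 2) =
      ∑' n : ℕ, ENNReal.ofReal (π * ‖c n‖ ^ 2 / (n + 1)) := by
  classical
  -- the polar density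
  set e : ℝ → ℝ → ℂ := fun r θ => (r : ℂ) * (Real.cos θ + Real.sin θ * I) with he
  have hen : ∀ r θ : ℝ, ‖e r θ‖ = |r| := by
    intro r θ
    rw [he]
    simp only [norm_mul, Complex.norm_real, Real.norm_eq_abs]
    rw [Complex.ofReal_cos, Complex.ofReal_sin, ← Complex.exp_mul_I, Complex.norm_exp_ofReal_mul_I,
      mul_one]
  set g : ℂ → ℝ≥0∞ := (ball (0 : ℂ) 1).indicator (fun z => ENNReal.ofReal (‖f z‖ ^ 2)) with hg
  have h1 : ∫⁻ z in ball (0 : ℂ) 1, ENNReal.ofReal (‖f z‖ ^ 2) = ∫⁻ z, g z := by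
    rw [hg, lintegral_indicator measurableSet_ball]
  rw [h1, ← Complex.lintegral_comp_polarCoord_symm]
  -- reduce to the rectangle
  have h2 : ∫⁻ p in polarCoord.target, ENNReal.ofReal p.1 • g (Complex.polarCoord.symm p) =
      ∫⁻ p in Ioo (0 : ℝ) 1 ×ˢ Ioo (-π) π, ENNReal.ofReal (p.1 * ‖f (e p.1 p.2)‖ ^ 2) := by
    have hT : polarCoord.target = Ioi (0 : ℝ) ×ˢ Ioo (-π) π := rfl
    rw [hT]
    have hsub : Ioo (0 : ℝ) 1 ×ˢ Ioo (-π) π ⊆ Ioi (0 : ℝ) ×ˢ Ioo (-π) π :=
      prod_mono Ioo_subset_Ioi_self (subset_refl _)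
    have hm1 : MeasurableSet (Ioo (0 : ℝ) 1 ×ˢ Ioo (-π) π) := measurableSet_Ioo.prod measurableSet_Ioo
    have hm2 : MeasurableSet (Ioi (0 : ℝ) ×ˢ Ioo (-π) π) := measurableSet_Ioi.prod measurableSet_Ioo
    rw [← lintegral_indicator hm1, ← lintegral_indicator hm2]
    apply lintegral_congr
    rintro ⟨r, θ⟩
    by_cases hin : (r, θ) ∈ Ioi (0 : ℝ) ×ˢ Ioo (-π) π
    · rw [indicator_of_mem hin]
      have hr : 0 < r := hin.1
      have hval : Complex.polarCoord.symm (r, θ) = e r θ := by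
        rw [Complex.polarCoord_symm_apply, he]
      rw [hval, smul_eq_mul]
      by_cases hr1 : r < 1
      · rw [indicator_of_mem (show (r, θ) ∈ Ioo (0 : ℝ) 1 ×ˢ Ioo (-π) π from ⟨⟨hr, hr1⟩, hin.2⟩)]
        have hmem : e r θ ∈ ball (0 : ℂ) 1 := by
          rw [mem_ball_zero_iff, hen, abs_of_pos hr]; exact hr1
        rw [hg, indicator_of_mem hmem, ← ENNReal.ofReal_mul hr.le]
      · rw [indicator_of_notMem (show (r, θ) ∉ Ioo (0 : ℝ) 1 ×ˢ Ioo (-π) π from fun h => hr1 h.1.2)]
        have hmem : e r θ ∉ ball (0 : ℂ) 1 := by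
          rw [mem_ball_zero_iff, hen, abs_of_pos hr]; exact hr1
        rw [hg, indicator_of_notMem hmem, mul_zero]
    · rw [indicator_of_notMem hin, indicator_of_notMem (fun h => hin (hsub h))]
  rw [h2]
  -- Tonelli
  have hpt : ∀ r θ : ℝ, 0 < r → r < 1 → Tendsto (fun N => ∑ n ∈ Finset.range N, c n * (e r θ) ^ n)
      atTop (𝓝 (f (e r θ))) := by
    intro r θ hr hr1
    have hne : e r θ ≠ 0 := by
      rw [← norm_pos_iff, hen, abs_of_pos hr]; exact hr
    have hlt : ‖e r θ‖ < 1 := by rw [hen, abs_of_pos hr]; exact hr1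
    exact (hs _ hne hlt).tendsto_sum_nat
  have hmeas : AEMeasurable (fun p : ℝ × ℝ => ENNReal.ofReal (p.1 * ‖f (e p.1 p.2)‖ ^ 2))
      ((volume.restrict (Ioo (0 : ℝ) 1)).prod (volume.restrict (Ioo (-π) π))) := by
    rw [Measure.prod_restrict]
    have hA : AEMeasurable (fun p : ℝ × ℝ => f (e p.1 p.2))
        ((volume.prod volume).restrict (Ioo (0 : ℝ) 1 ×ˢ Ioo (-π) π)) := by
      apply aemeasurable_of_tendsto_metrizable_ae (u := atTop)
        (f := fun (N : ℕ) (p : ℝ × ℝ) => ∑ n ∈ Finset.range N, c n * (e p.1 p.2) ^ n)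
      · intro N
        apply Measurable.aemeasurable
        apply Continuous.measurable
        rw [he]
        fun_prop
      · rw [ae_restrict_iff' (measurableSet_Ioo.prod measurableSet_Ioo)]
        exact Eventually.of_forall fun p hp => hpt p.1 p.2 hp.1.1 hp.1.2
    exact ((measurable_fst.aemeasurable).mul (hA.norm.pow_const 2)).ennreal_ofReal
  have hprod : (volume : Measure (ℝ × ℝ)).restrict (Ioo (0 : ℝ) 1 ×ˢ Ioo (-π) π) =
      (volume.restrict (Ioo (0 : ℝ) 1)).prod (volume.restrict (Ioo (-π) π)) := by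
    rw [Measure.prod_restrict]; rfl
  rw [hprod, lintegral_prod _ hmeas]
  -- inner integral
  have hinner : ∀ r ∈ Ioo (0 : ℝ) 1, ∫⁻ θ in Ioo (-π) π, ENNReal.ofReal (r * ‖f (e r θ)‖ ^ 2) =
      ∑' n : ℕ, ENNReal.ofReal (2 * π * ‖c n‖ ^ 2 * r ^ (2 * n + 1)) := by
    intro r hr
    have hP := hasSum_circle hr.1 hr.2 hs
    have hcont : Continuous (fun θ => ‖f (e r θ)‖ ^ 2) := by
      -- uniform limit
      have hsr : Summable (fun n => ‖c n‖ * r ^ n) := by
        have h := (hs (r : ℂ) (by exact_mod_cast hr.1.ne')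
          (by simpa [abs_of_pos hr.1] using hr.2)).summable.norm
        refine h.congr fun n => ?_
        rw [norm_mul, norm_pow, Complex.norm_real, Real.norm_eq_abs, abs_of_pos hr.1]
      have hc : Continuous (fun θ => ∑' n, c n * (e r θ) ^ n) := by
        apply continuous_tsum _ hsr
        · intro n θ
          rw [norm_mul, norm_pow, hen, abs_of_pos hr.1]
        · intro n
          rw [he]
          fun_prop
      have heq : (fun θ => f (e r θ)) = (fun θ => ∑' n, c n * (e r θ) ^ n) := by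
        funext θ
        have hne : e r θ ≠ 0 := by
          rw [← norm_pos_iff, hen, abs_of_pos hr.1]; exact hr.1
        have hlt : ‖e r θ‖ < 1 := by rw [hen, abs_of_pos hr.1]; exact hr.2
        exact (hs _ hne hlt).tsum_eq.symm
      have h3 : Continuous (fun θ => f (e r θ)) := by rw [heq]; exact hc
      exact h3.norm.pow 2
    have hper : Real.circleAverage (fun z => ‖f (r * z)‖ ^ 2) 0 1 =
        (2 * π)⁻¹ * ∫ θ in Ioo (-π) π, ‖f (e r θ)‖ ^ 2 := by
      unfold Real.circleAverage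
      rw [smul_eq_mul]
      congr 1
      have hfun : ∀ θ : ℝ, ‖f ((r : ℂ) * circleMap 0 1 θ)‖ ^ 2 = ‖f (e r θ)‖ ^ 2 := by
        intro θ
        congr 3
        rw [he]
        simp only [circleMap, zero_add, Complex.ofReal_one, one_mul]
        rw [Complex.exp_mul_I, Complex.ofReal_cos, Complex.ofReal_sin]
      simp_rw [hfun]
      have hP2 : Function.Periodic (fun θ => ‖f (e r θ)‖ ^ 2) (2 * π) := by
        intro θ
        simp only [he, Real.cos_add_two_pi, Real.sin_add_two_pi]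
      have h4 := hP2.intervalIntegral_add_eq 0 (-π)
      rw [show (0 : ℝ) + 2 * π = 2 * π by ring, show -π + 2 * π = π by ring] at h4
      rw [h4, intervalIntegral.integral_of_le (by linarith [Real.pi_pos]),
        integral_Ioc_eq_integral_Ioo]
    rw [hper] at hP
    have hint : IntegrableOn (fun θ => r * ‖f (e r θ)‖ ^ 2) (Ioo (-π) π) :=
      ((hcont.const_mul r).integrableOn_Icc).mono_set Ioo_subset_Icc_self
    rw [← ofReal_integral_eq_lintegral_ofReal hint
      (Eventually.of_forall fun θ => by have := hr.1; positivity), integral_const_mul]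
    have hS : HasSum (fun n => 2 * π * ‖c n‖ ^ 2 * r ^ (2 * n + 1))
        (r * ∫ θ in Ioo (-π) π, ‖f (e r θ)‖ ^ 2) := by
      have h5 := hP.mul_left (2 * π * r)
      have h6 : 2 * π * r * ((2 * π)⁻¹ * ∫ θ in Ioo (-π) π, ‖f (e r θ)‖ ^ 2) =
          r * ∫ θ in Ioo (-π) π, ‖f (e r θ)‖ ^ 2 := by
        have : (2 * π) ≠ 0 := by positivity
        field_simp
      rw [h6] at h5
      have h7 : (fun n => 2 * π * ‖c n‖ ^ 2 * r ^ (2 * n + 1)) =
          fun n => 2 * π * r * (‖c n‖ ^ 2 * r ^ (2 * n)) := by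
        funext n; ring
      rw [h7]
      exact h5
    rw [← hS.tsum_eq, ENNReal.ofReal_tsum_of_nonneg _ hS.summable]
    intro n
    have := hr.1
    positivity
  rw [setLIntegral_congr_fun measurableSet_Ioo hinner, lintegral_tsum]
  · apply tsum_congr
    intro n
    have hint : IntegrableOn (fun r : ℝ => 2 * π * ‖c n‖ ^ 2 * r ^ (2 * n + 1)) (Ioo (0 : ℝ) 1) :=
      ((continuous_const.mul (continuous_pow (2 * n + 1))).integrableOn_Icc).mono_set
        Ioo_subset_Icc_self
    rw [← ofReal_integral_eq_lintegral_ofReal hint]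
    · congr 1
      rw [integral_const_mul, ← integral_Ioc_eq_integral_Ioo,
        ← intervalIntegral.integral_of_le zero_le_one, integral_pow]
      push_cast
      have : (n : ℝ) + 1 ≠ 0 := by positivity
      field_simp
      ring
    · rw [EventuallyLE, ae_restrict_iff' measurableSet_Ioo]
      exact Eventually.of_forall fun r hr => by
        have := hr.1
        simp only [Pi.zero_apply]
        positivity
  · intro n
    apply Measurable.aemeasurable
    fun_prop

end Crest.Agent.R101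
end

-- ▼ part R101/Pars

/-! Row 101, P6: `∫|h'|²` for `h = M φ`, summed over `β = 1, i`. -/

set_option autoImplicit false

open MeasureTheory Metric Set Complex ComplexConjugate Filter Topology
open scoped Real ENNReal NNReal

namespace Crest.Agent.R101

/-- Taylor coefficients at `0`. -/
noncomputable def tcoef (f : ℂ → ℂ) (n : ℕ) : ℂ :=
  ((Nat.factorial n : ℕ) : ℂ)⁻¹ * iteratedDeriv n f 0

theorem hasSum_tcoef {f : ℂ → ℂ} (hf : DifferentiableOn ℂ f (ball 0 1)) {z : ℂ} (hz : ‖z‖ < 1) :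
    HasSum (fun n => tcoef f n * z ^ n) (f z) := by
  have h := Complex.hasSum_taylorSeries_on_ball hf (z := z) (by simpa using hz)
  refine h.congr_fun ?_
  intro n
  simp [tcoef, smul_eq_mul]
  ring

theorem tcoef_deriv (f : ℂ → ℂ) (n : ℕ) : tcoef (deriv f) n = (n + 1) * tcoef f (n + 1) := by
  unfold tcoef
  rw [iteratedDeriv_succ', Nat.factorial_succ]
  push_cast
  have h1 : ((n : ℂ) + 1) ≠ 0 := by exact_mod_cast Nat.succ_ne_zero n
  have h2 : ((Nat.factorial n : ℕ) : ℂ) ≠ 0 := by exact_mod_cast Nat.factorial_ne_zero n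
  field_simp

theorem tcoef_zero (f : ℂ → ℂ) : tcoef f 0 = f 0 := by simp [tcoef]

section
variable {φ : ℂ → ℂ} (hd : DifferentiableOn ℂ φ (ball 0 1)) (h0 : φ 0 = 0)
include hd h0

theorem hasSum_zderiv {z : ℂ} (hz : ‖z‖ < 1) :
    HasSum (fun n : ℕ => (n : ℂ) * tcoef φ n * z ^ n) (z * deriv φ z) := by
  have h1 := (hasSum_tcoef (hd.deriv isOpen_ball) hz).mul_left z
  have h2 : HasSum (fun n : ℕ => ((n + 1 : ℕ) : ℂ) * tcoef φ (n + 1) * z ^ (n + 1)) (z * deriv φ z) := by
    refine h1.congr_fun ?_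
    intro n
    rw [tcoef_deriv]
    push_cast
    ring
  have h3 := (hasSum_nat_add_iff (f := fun n : ℕ => (n : ℂ) * tcoef φ n * z ^ n) 1).1 h2
  simpa using h3

/-- `(z φ)'`. -/
theorem hasSum_B {z : ℂ} (hz : ‖z‖ < 1) :
    HasSum (fun n : ℕ => (((n : ℂ) + 1) * tcoef φ n) * z ^ n) (φ z + z * deriv φ z) := by
  refine ((hasSum_tcoef hd hz).add (hasSum_zderiv hd h0 hz)).congr_fun ?_
  intro n
  ring

/-- `(φ/z)'`. -/
theorem hasSum_A {z : ℂ} (hz0 : z ≠ 0) (hz : ‖z‖ < 1) :
    HasSum (fun n : ℕ => (((n : ℂ) + 1) * tcoef φ (n + 2)) * z ^ n) ((z * deriv φ z - φ z) / z ^ 2) := by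
  have h1 : HasSum (fun n : ℕ => ((n : ℂ) - 1) * tcoef φ n * z ^ n) (z * deriv φ z - φ z) := by
    refine ((hasSum_zderiv hd h0 hz).sub (hasSum_tcoef hd hz)).congr_fun ?_
    intro n
    ring
  have h2 := (hasSum_nat_add_iff (f := fun n : ℕ => ((n : ℂ) - 1) * tcoef φ n * z ^ n)
    (g := z * deriv φ z - φ z) 2).2 (by
      simpa [Finset.sum_range_succ, tcoef_zero, h0] using h1)
  have h3 := h2.div_const (z ^ 2)
  refine h3.congr_fun ?_
  intro n
  rw [pow_add]
  have : z ^ 2 ≠ 0 := pow_ne_zero 2 hz0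
  push_cast
  field_simp
  ring

end

theorem hp_one (φ : ℂ → ℂ) {z : ℂ} (hz : z ≠ 0) :
    hp φ 1 z = (z * deriv φ z - φ z) / z ^ 2 + (φ z + z * deriv φ z) := by
  simp only [hp, MM, MM', map_one]
  field_simp
  ring

theorem hp_I (φ : ℂ → ℂ) {z : ℂ} (hz : z ≠ 0) :
    hp φ I z = I * ((z * deriv φ z - φ z) / z ^ 2 - (φ z + z * deriv φ z)) := by
  simp only [hp, MM, MM', conj_I]
  field_simp
  ring

theorem hp_sum (φ : ℂ → ℂ) {z : ℂ} (hz : z ≠ 0) :
    ‖hp φ 1 z‖ ^ 2 + ‖hp φ I z‖ ^ 2 =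
      2 * (‖(z * deriv φ z - φ z) / z ^ 2‖ ^ 2 + ‖φ z + z * deriv φ z‖ ^ 2) := by
  rw [hp_one φ hz, hp_I φ hz, norm_mul, norm_I, one_mul]
  have := parallelogram_law_with_norm ℝ ((z * deriv φ z - φ z) / z ^ 2) (φ z + z * deriv φ z)
  simpa only [sq] using this

theorem aemeas_hp {φ : ℂ → ℂ} (hd : DifferentiableOn ℂ φ (ball 0 1)) (β : ℂ) :
    AEStronglyMeasurable (hp φ β) (volume.restrict (ball 0 1)) := by
  have h1 : AEStronglyMeasurable φ (volume.restrict (ball 0 1)) :=
    hd.continuousOn.aestronglyMeasurable measurableSet_ball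
  have h2 : AEStronglyMeasurable (deriv φ) (volume.restrict (ball 0 1)) :=
    (hd.deriv isOpen_ball).continuousOn.aestronglyMeasurable measurableSet_ball
  have h3 : AEStronglyMeasurable (MM' β) (volume.restrict (ball 0 1)) := by
    apply Measurable.aestronglyMeasurable
    unfold MM'
    fun_prop
  have h4 : AEStronglyMeasurable (MM β) (volume.restrict (ball 0 1)) := by
    apply Measurable.aestronglyMeasurable
    unfold MM
    fun_prop
  exact (h3.mul h1).add (h4.mul h2)

/-- P6 (Parseval, file `Pars.lean`). -/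
theorem parseval {φ : ℂ → ℂ} (hφ : Conf φ) :
    IntegrableOn (fun ζ => ‖hp φ 1 ζ‖ ^ 2) (ball 0 1) ∧
    IntegrableOn (fun ζ => ‖hp φ I ζ‖ ^ 2) (ball 0 1) ∧
    (∫ ζ in ball (0 : ℂ) 1, ‖hp φ 1 ζ‖ ^ 2) + (∫ ζ in ball (0 : ℂ) 1, ‖hp φ I ζ‖ ^ 2) =
      4 * ∫ ζ in ball (0 : ℂ) 1, rho φ ζ := by
  have hd := hφ.holo
  have h0 := hφ.zero
  set c : ℕ → ℂ := tcoef φ with hc
  have hc0 : c 0 = 0 := by rw [hc, tcoef_zero, h0]
  -- the three lintegrals
  have LA := disc_parseval (f := fun z => (z * deriv φ z - φ z) / z ^ 2)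
    (c := fun n : ℕ => ((n : ℂ) + 1) * c (n + 2)) (fun z hz hz1 => hasSum_A hd h0 hz hz1)
  have LB := disc_parseval (f := fun z => φ z + z * deriv φ z)
    (c := fun n : ℕ => ((n : ℂ) + 1) * c n) (fun z _ hz1 => hasSum_B hd h0 hz1)
  have LD := disc_parseval (f := deriv φ) (c := fun n : ℕ => ((n : ℂ) + 1) * c (n + 1))
    (fun z _ hz1 => by
      refine (hasSum_tcoef (hd.deriv isOpen_ball) hz1).congr_fun ?_
      intro n
      rw [tcoef_deriv])
  have hnorm : ∀ (n : ℕ) (a : ℂ), π * ‖((n : ℂ) + 1) * a‖ ^ 2 / ((n : ℝ) + 1) =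
      π * ((n : ℝ) + 1) * ‖a‖ ^ 2 := by
    intro n a
    have h1 : ‖((n : ℂ) + 1)‖ = (n : ℝ) + 1 := by
      rw [show ((n : ℂ) + 1) = (((n : ℝ) + 1 : ℝ) : ℂ) by push_cast; rfl, Complex.norm_real,
        Real.norm_eq_abs, abs_of_pos (by positivity)]
    rw [norm_mul, h1]
    have : (n : ℝ) + 1 ≠ 0 := by positivity
    field_simp
  simp_rw [hnorm] at LA LB LD
  -- the sum
  have hsum : (∫⁻ z in ball (0 : ℂ) 1, ENNReal.ofReal (‖(z * deriv φ z - φ z) / z ^ 2‖ ^ 2)) +
      (∫⁻ z in ball (0 : ℂ) 1, ENNReal.ofReal (‖φ z + z * deriv φ z‖ ^ 2)) =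
      2 * ∫⁻ z in ball (0 : ℂ) 1, ENNReal.ofReal (‖deriv φ z‖ ^ 2) := by
    rw [LA, LB, LD]
    have e1 : ∑' n : ℕ, ENNReal.ofReal (π * ((n : ℝ) + 1) * ‖c n‖ ^ 2) =
        ∑' n : ℕ, ENNReal.ofReal (π * ((n : ℝ) + 2) * ‖c (n + 1)‖ ^ 2) := by
      rw [tsum_eq_zero_add' ENNReal.summable, hc0]
      simp only [norm_zero, ne_eq, OfNat.ofNat_ne_zero, not_false_eq_true, zero_pow, mul_zero,
        ENNReal.ofReal_zero, zero_add]
      apply tsum_congr
      intro n
      congr 1
      push_cast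
      ring
    have e2 : ∑' n : ℕ, ENNReal.ofReal (π * ((n : ℝ) + 1) * ‖c (n + 2)‖ ^ 2) =
        ∑' n : ℕ, ENNReal.ofReal (π * (n : ℝ) * ‖c (n + 1)‖ ^ 2) := by
      rw [tsum_eq_zero_add' (f := fun n : ℕ => ENNReal.ofReal (π * (n : ℝ) * ‖c (n + 1)‖ ^ 2))
        ENNReal.summable]
      simp only [Nat.cast_zero, mul_zero, zero_mul, ENNReal.ofReal_zero, zero_add]
      apply tsum_congr
      intro n
      congr 1
      push_cast
      ring
    rw [e1, e2, ← ENNReal.tsum_add, ← ENNReal.tsum_mul_left]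
    apply tsum_congr
    intro n
    rw [← ENNReal.ofReal_add (by positivity) (by positivity),
      show (2 : ℝ≥0∞) = ENNReal.ofReal 2 by simp, ← ENNReal.ofReal_mul (by norm_num)]
    congr 1
    ring
  have hne : ∀ᵐ z ∂(volume.restrict (ball (0 : ℂ) 1)), z ≠ 0 := by
    apply ae_restrict_of_ae
    rw [ae_iff]
    simp
  have hfin : (∫⁻ z in ball (0 : ℂ) 1, ENNReal.ofReal (‖deriv φ z‖ ^ 2)) < ∞ := by
    have h := hφ.rho_int.2
    have h' := (hasFiniteIntegral_iff_ofReal (f := rho φ)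
      (Eventually.of_forall fun z => by simp only [Pi.zero_apply, rho]; positivity)).1 h
    exact h'
  have hm1 := aemeas_hp hd 1
  have hm2 := aemeas_hp hd I
  have hm1' : AEMeasurable (fun z => ENNReal.ofReal (‖hp φ 1 z‖ ^ 2))
      (volume.restrict (ball 0 1)) := (hm1.norm.aemeasurable.pow_const 2).ennreal_ofReal
  have htot : (∫⁻ z in ball (0 : ℂ) 1, ENNReal.ofReal (‖hp φ 1 z‖ ^ 2)) +
      (∫⁻ z in ball (0 : ℂ) 1, ENNReal.ofReal (‖hp φ I z‖ ^ 2)) =
      4 * ∫⁻ z in ball (0 : ℂ) 1, ENNReal.ofReal (‖deriv φ z‖ ^ 2) := by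
    rw [← lintegral_add_left' hm1']
    have hmB : AEMeasurable (fun z => ENNReal.ofReal (‖φ z + z * deriv φ z‖ ^ 2))
        (volume.restrict (ball 0 1)) := by
      have h1 : AEStronglyMeasurable φ (volume.restrict (ball 0 1)) :=
        hd.continuousOn.aestronglyMeasurable measurableSet_ball
      have h2 : AEStronglyMeasurable (deriv φ) (volume.restrict (ball 0 1)) :=
        (hd.deriv isOpen_ball).continuousOn.aestronglyMeasurable measurableSet_ball
      exact ((h1.add (measurable_id.aestronglyMeasurable.mul h2)).norm.aemeasurable.pow_const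
        2).ennreal_ofReal
    have e3 : ∫⁻ z in ball (0 : ℂ) 1, (ENNReal.ofReal (‖hp φ 1 z‖ ^ 2) +
        ENNReal.ofReal (‖hp φ I z‖ ^ 2)) = ∫⁻ z in ball (0 : ℂ) 1,
        2 * (ENNReal.ofReal (‖(z * deriv φ z - φ z) / z ^ 2‖ ^ 2) +
          ENNReal.ofReal (‖φ z + z * deriv φ z‖ ^ 2)) := by
      apply lintegral_congr_ae
      filter_upwards [hne] with z hz
      rw [← ENNReal.ofReal_add (by positivity) (by positivity), hp_sum φ hz,
        ← ENNReal.ofReal_add (by positivity) (by positivity),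
        show (2 : ℝ≥0∞) = ENNReal.ofReal 2 by simp, ← ENNReal.ofReal_mul (by norm_num)]
    rw [e3, lintegral_const_mul' _ _ (by simp), lintegral_add_right' _ hmB, hsum, ← mul_assoc]
    norm_num
  have hlt : (∫⁻ z in ball (0 : ℂ) 1, ENNReal.ofReal (‖hp φ 1 z‖ ^ 2)) +
      (∫⁻ z in ball (0 : ℂ) 1, ENNReal.ofReal (‖hp φ I z‖ ^ 2)) < ∞ := by
    rw [htot]
    exact ENNReal.mul_lt_top (by simp) hfin
  have hl1 := lt_of_le_of_lt (le_self_add) hlt
  have hl2 := lt_of_le_of_lt (le_add_self) hlt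
  have hi1 : IntegrableOn (fun ζ => ‖hp φ 1 ζ‖ ^ 2) (ball 0 1) := by
    refine ⟨(hm1.norm.pow 2), ?_⟩
    rw [hasFiniteIntegral_iff_ofReal (Eventually.of_forall fun z => by
      simp only [Pi.zero_apply]; positivity)]
    exact hl1
  have hi2 : IntegrableOn (fun ζ => ‖hp φ I ζ‖ ^ 2) (ball 0 1) := by
    refine ⟨(hm2.norm.pow 2), ?_⟩
    rw [hasFiniteIntegral_iff_ofReal (Eventually.of_forall fun z => by
      simp only [Pi.zero_apply]; positivity)]
    exact hl2
  refine ⟨hi1, hi2, ?_⟩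
  rw [integral_eq_lintegral_of_nonneg_ae (Eventually.of_forall fun z => by
      simp only [Pi.zero_apply]; positivity) hi1.1,
    integral_eq_lintegral_of_nonneg_ae (Eventually.of_forall fun z => by
      simp only [Pi.zero_apply]; positivity) hi2.1,
    integral_eq_lintegral_of_nonneg_ae (f := rho φ) (Eventually.of_forall fun z => by
      simp only [Pi.zero_apply, rho]; positivity) hφ.rho_int.1,
    ← ENNReal.toReal_add hl1.ne hl2.ne, htot, ENNReal.toReal_mul]
  simp [rho]

end Crest.Agent.R101
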