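import Mathlib
import Crest.Agent.R101.Defs
import Crest.Agent.R101.HolDense
import Crest.Agent.Lib.InjHolo
import Crest.Agent.R101.HodgeAbs
import Crest.Agent.R101.EnD
import Crest.Agent.R101.CoreC
import Crest.Agent.R101.Pars

-- ▼ part R101/Hol
section

/-! Row 101 (helper157): an integrable weakly holomorphic field on the disc which is orthogonal to
all `conj z ^ k` vanishes. -/

set_option autoImplicit false

open MeasureTheory Metric Set Complex ComplexConjugate Filter Topology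
open scoped ContDiff

namespace Crest.Agent.R101

/-- `2 ∂̄` -/
noncomputable def Lop (B : ℂ → ℂ) (z : ℂ) : ℂ := fderiv ℝ B z 1 + fderiv ℝ B z I * I

theorem Lop_mul {A B : ℂ → ℂ} {z : ℂ} (hA : DifferentiableAt ℝ A z) (hB : DifferentiableAt ℝ B z) :
    Lop (fun z => A z * B z) z = A z * Lop B z + B z * Lop A z := by
  unfold Lop
  rw [fderiv_fun_mul hA hB]
  simp only [add_apply, smul_apply, smul_eq_mul]
  ring

theorem Lop_sub {A B : ℂ → ℂ} {z : ℂ} (hA : DifferentiableAt ℝ A z) (hB : DifferentiableAt ℝ B z) :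
    Lop (fun z => A z - B z) z = Lop A z - Lop B z := by
  unfold Lop
  rw [fderiv_fun_sub hA hB]
  simp only [sub_apply]
  ring

theorem Lop_holo {A : ℂ → ℂ} {z : ℂ} (hA : DifferentiableAt ℂ A z) : Lop A z = 0 := by
  unfold Lop
  rw [hA.fderiv_restrictScalars ℝ]
  simp only [ContinuousLinearMap.coe_restrictScalars']
  have : fderiv ℂ A z I = I * fderiv ℂ A z 1 := by
    simp
  rw [this]
  linear_combination (fderiv ℂ A z 1) * I_mul_I

theorem Lop_conj_comp {A : ℂ → ℂ} {z : ℂ} (hA : DifferentiableAt ℂ A (conj z)) :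
    Lop (fun z => A (conj z)) z = 2 * deriv A (conj z) := by
  unfold Lop
  have h1 : HasFDerivAt A ((fderiv ℂ A (conj z)).restrictScalars ℝ) (conj z) :=
    hA.hasFDerivAt.restrictScalars ℝ
  have h2 : HasFDerivAt (fun z : ℂ => conj z) (conjCLE : ℂ →L[ℝ] ℂ) z := conjCLE.hasFDerivAt
  have h3 := (h1.comp z h2).fderiv
  have h4 : (A ∘ fun z : ℂ => conj z) = fun z => A (conj z) := rfl
  rw [h4] at h3
  rw [h3]
  simp only [ContinuousLinearMap.comp_apply, ContinuousLinearEquiv.coe_coe, conjCLE_apply,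
    map_one, conj_I, ContinuousLinearMap.coe_restrictScalars']
  have e1 : fderiv ℂ A (conj z) (-I) = -(I * fderiv ℂ A (conj z) 1) := by
    simp
  rw [e1, ← fderiv_apply_one_eq_deriv]
  linear_combination (-(fderiv ℂ A (conj z) 1)) * I_mul_I

theorem Lop_mono (a b : ℕ) (z : ℂ) :
    Lop (fun z => z ^ a * conj z ^ b) z = 2 * b * (z ^ a * conj z ^ (b - 1)) := by
  have h2 : Lop (fun z => conj z ^ b) z = 2 * (b * conj z ^ (b - 1)) := by
    have := Lop_conj_comp (A := fun z => z ^ b) (z := z) (by fun_prop)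
    rw [this]; simp
  have h1 : Lop (fun z => z ^ a) z = 0 := Lop_holo (by fun_prop)
  have hd1 : DifferentiableAt ℝ (fun z : ℂ => z ^ a) z := by fun_prop
  have hd2 : DifferentiableAt ℝ (fun z : ℂ => conj z ^ b) z := by
    have : DifferentiableAt ℝ (fun z : ℂ => conj z) z := conjCLE.differentiableAt
    exact this.pow b
  rw [Lop_mul hd1 hd2, h1, h2]
  ring

theorem Lop_ofReal {b : ℂ → ℝ} {z : ℂ} (hb : DifferentiableAt ℝ b z) :
    Lop (fun z => (b z : ℂ)) z = (dx b z : ℂ) + dy b z * I := by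
  unfold Lop dx dy
  have h := (ofRealCLM.hasFDerivAt.comp z hb.hasFDerivAt).fderiv
  have h4 : (ofRealCLM ∘ b) = fun z => (b z : ℂ) := rfl
  rw [h4] at h
  rw [h]
  simp

section

variable {F : ℂ → ℂ}

theorem Lop_split {B : ℂ → ℂ} {z : ℂ} (hB : DifferentiableAt ℝ B z) :
    Lop B z = ((dx (fun z => (B z).re) z : ℂ) + dy (fun z => (B z).re) z * I) +
      I * ((dx (fun z => (B z).im) z : ℂ) + dy (fun z => (B z).im) z * I) := by
  have hr : DifferentiableAt ℝ (fun z => (B z).re) z := reCLM.differentiableAt.comp z hB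
  have hi : DifferentiableAt ℝ (fun z => (B z).im) z := imCLM.differentiableAt.comp z hB
  have h1 := (reCLM.hasFDerivAt.comp z hB.hasFDerivAt).fderiv
  have h2 := (imCLM.hasFDerivAt.comp z hB.hasFDerivAt).fderiv
  have h1' : (reCLM ∘ B) = fun z => (B z).re := rfl
  have h2' : (imCLM ∘ B) = fun z => (B z).im := rfl
  rw [h1'] at h1
  rw [h2'] at h2
  unfold Lop dx dy
  rw [h1, h2]
  simp only [ContinuousLinearMap.comp_apply, reCLM_apply, imCLM_apply]
  have a1 := re_add_im (fderiv ℝ B z 1)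
  have a2 := re_add_im (fderiv ℝ B z I)
  linear_combination -a1 - I * a2

theorem int_Lop_compact (hF : IntegrableOn F (ball 0 1))
    (H1 : ∀ B : ℂ → ℝ, ContDiff ℝ ∞ B → HasCompactSupport B → tsupport B ⊆ ball 0 1 →
      ∫ z in ball (0 : ℂ) 1, F z * ((dx B z : ℂ) + dy B z * I) = 0)
    {B : ℂ → ℂ} (hB : ContDiff ℝ ∞ B) (hc : HasCompactSupport B) (hs : tsupport B ⊆ ball 0 1) :
    ∫ z in ball (0 : ℂ) 1, F z * Lop B z = 0 := by
  have hre : ContDiff ℝ ∞ fun z => (B z).re := reCLM.contDiff.comp hB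
  have him : ContDiff ℝ ∞ fun z => (B z).im := imCLM.contDiff.comp hB
  have hrc : HasCompactSupport fun z => (B z).re := hc.comp_left (g := Complex.re) rfl
  have hic : HasCompactSupport fun z => (B z).im := hc.comp_left (g := Complex.im) rfl
  have hrs : tsupport (fun z => (B z).re) ⊆ ball 0 1 := by
    refine (closure_mono ?_).trans hs
    intro z hz
    rw [Function.mem_support] at hz ⊢
    intro h; exact hz (by rw [h]; rfl)
  have his : tsupport (fun z => (B z).im) ⊆ ball 0 1 := by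
    refine (closure_mono ?_).trans hs
    intro z hz
    rw [Function.mem_support] at hz ⊢
    intro h; exact hz (by rw [h]; rfl)
  have bint : ∀ b : ℂ → ℝ, ContDiff ℝ ∞ b → HasCompactSupport b →
      IntegrableOn (fun z => F z * ((dx b z : ℂ) + dy b z * I)) (ball 0 1) := by
    intro b hb hbc
    have hcont : Continuous (fderiv ℝ b) := hb.continuous_fderiv (by simp)
    have hcs : HasCompactSupport (fderiv ℝ b) := hbc.fderiv ℝ
    obtain ⟨C, hC⟩ := hcs.exists_bound_of_continuous hcont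
    refine Integrable.mul_bdd (c := C + C) hF ?_ ?_
    · apply Continuous.aestronglyMeasurable
      unfold dx dy
      fun_prop
    · refine Eventually.of_forall fun z => ?_
      have e1 : |dx b z| ≤ C := by
        have := (fderiv ℝ b z).le_opNorm 1
        rw [norm_one, mul_one] at this
        exact this.trans (hC z)
      have e2 : |dy b z| ≤ C := by
        have := (fderiv ℝ b z).le_opNorm I
        rw [norm_I, mul_one] at this
        exact this.trans (hC z)
      refine (norm_add_le _ _).trans ?_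
      rw [norm_mul, norm_I, mul_one, norm_real, norm_real, Real.norm_eq_abs, Real.norm_eq_abs]
      linarith
  have e : ∀ z, F z * Lop B z = F z * ((dx (fun z => (B z).re) z : ℂ) +
      dy (fun z => (B z).re) z * I) + I * (F z * ((dx (fun z => (B z).im) z : ℂ) +
      dy (fun z => (B z).im) z * I)) := by
    intro z
    rw [Lop_split (hB.differentiable (by simp) z)]
    ring
  simp_rw [e]
  rw [integral_add (bint _ hre hrc) ((bint _ him hic).const_mul I), integral_const_mul,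
    H1 _ hre hrc hrs, H1 _ him hic his]
  simp

/-- smooth cut-off on the line: `0` for `t ≤ 1`, `1` for `t ≥ 2`. -/
noncomputable def Sst (t : ℝ) : ℝ := Real.smoothTransition (t - 1)

theorem Sst_contDiff : ContDiff ℝ ∞ Sst := by
  unfold Sst
  exact Real.smoothTransition.contDiff.comp (contDiff_id.sub contDiff_const)

theorem Sst_nonneg (t : ℝ) : 0 ≤ Sst t := Real.smoothTransition.nonneg _

theorem Sst_le_one (t : ℝ) : Sst t ≤ 1 := Real.smoothTransition.le_one _

theorem Sst_zero {t : ℝ} (ht : t ≤ 1) : Sst t = 0 :=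
  Real.smoothTransition.zero_of_nonpos (by linarith)

theorem Sst_one {t : ℝ} (ht : 2 ≤ t) : Sst t = 1 :=
  Real.smoothTransition.one_of_one_le (by linarith)

theorem Sst_deriv_zero {t : ℝ} (ht : 2 < t) : deriv Sst t = 0 := by
  have : Sst =ᶠ[𝓝 t] fun _ => 1 := by
    filter_upwards [eventually_gt_nhds ht] with s hs
    exact Sst_one hs.le
  rw [this.deriv_eq]
  simp

theorem Sst_deriv_zero' {t : ℝ} (ht : t < 1) : deriv Sst t = 0 := by
  have : Sst =ᶠ[𝓝 t] fun _ => 0 := by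
    filter_upwards [eventually_lt_nhds ht] with s hs
    exact Sst_zero hs.le
  rw [this.deriv_eq]
  simp

theorem Sst_bound : ∃ C : ℝ, ∀ t : ℝ, |t * deriv Sst t| ≤ C := by
  have hcont : Continuous fun t => t * deriv Sst t :=
    continuous_id.mul (Sst_contDiff.continuous_deriv (by simp))
  have hcs : HasCompactSupport fun t => t * deriv Sst t := by
    refine HasCompactSupport.of_support_subset_isCompact (isCompact_Icc (a := (1 : ℝ)) (b := 2)) ?_
    intro t ht
    rw [Function.mem_support] at ht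
    by_contra hne
    rw [mem_Icc, not_and_or, not_le, not_le] at hne
    rcases hne with h | h
    · exact ht (by rw [Sst_deriv_zero' h, mul_zero])
    · exact ht (by rw [Sst_deriv_zero h, mul_zero])
  obtain ⟨C, hC⟩ := hcs.exists_bound_of_continuous hcont
  exact ⟨C, fun t => hC t⟩

/-- `|z|²` as a polynomial. -/
noncomputable def Nsq (z : ℂ) : ℝ := z.re ^ 2 + z.im ^ 2

theorem Nsq_eq (z : ℂ) : (Nsq z : ℂ) = z * conj z := by
  rw [mul_conj, normSq_apply]; unfold Nsq; push_cast; ring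

theorem Nsq_norm (z : ℂ) : Nsq z = ‖z‖ ^ 2 := by
  rw [← normSq_eq_norm_sq, normSq_apply]; unfold Nsq; ring

theorem Nsq_contDiff : ContDiff ℝ ∞ Nsq := by
  unfold Nsq
  exact (reCLM.contDiff.pow 2).add (imCLM.contDiff.pow 2)

/-- the disc cut-off -/
noncomputable def chi (n : ℕ) (z : ℂ) : ℝ := Sst ((n + 1) * (1 - Nsq z))

theorem chi_contDiff (n : ℕ) : ContDiff ℝ ∞ (chi n) := by
  unfold chi
  exact Sst_contDiff.comp (contDiff_const.mul (contDiff_const.sub Nsq_contDiff))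

theorem chi_Lop (n : ℕ) (z : ℂ) :
    Lop (fun z => (chi n z : ℂ)) z =
      ((deriv Sst ((n + 1) * (1 - Nsq z)) * (n + 1) : ℝ) : ℂ) * (-2 * z) := by
  rw [Lop_ofReal ((chi_contDiff n).differentiable (by simp) z)]
  have hN : HasFDerivAt Nsq ((2 * z.re) • reCLM + (2 * z.im) • imCLM) z := by
    unfold Nsq
    have h1 := (reCLM.hasFDerivAt (x := z)).pow 2
    have h2 := (imCLM.hasFDerivAt (x := z)).pow 2
    refine (h1.add h2).congr_fderiv ?_
    ext w <;> simp
  have h3 : HasFDerivAt (fun z => (n + 1 : ℝ) * (1 - Nsq z))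
      ((n + 1 : ℝ) • (-((2 * z.re) • reCLM + (2 * z.im) • imCLM))) z :=
    (hN.const_sub 1).const_mul _
  have h4 : HasDerivAt Sst (deriv Sst ((n + 1) * (1 - Nsq z))) ((n + 1) * (1 - Nsq z)) :=
    ((Sst_contDiff.differentiable (by simp)) _).hasDerivAt
  have h5 := (h4.comp_hasFDerivAt z h3).fderiv
  have h6 : (Sst ∘ fun z => (n + 1 : ℝ) * (1 - Nsq z)) = chi n := rfl
  rw [h6] at h5
  unfold dx dy
  rw [h5]
  have hz : z = z.re + z.im * I := (re_add_im z).symm
  simp only [smul_apply, neg_apply, add_apply, reCLM_apply, imCLM_apply, one_re, one_im, I_re,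
    I_im, smul_eq_mul]
  generalize deriv Sst ((n + 1) * (1 - Nsq z)) = d
  push_cast
  linear_combination (2 * (d : ℂ) * (n + 1)) * hz

theorem chi_support (n : ℕ) {z : ℂ} (hz : chi n z ≠ 0) : ‖z‖ ^ 2 ≤ 1 - 1 / (n + 1 : ℝ) := by
  have h1 : ¬ ((n + 1 : ℝ) * (1 - Nsq z) ≤ 1) := fun h => hz (Sst_zero h)
  rw [not_le] at h1
  have hn : (0 : ℝ) < n + 1 := by positivity
  have h2 : 1 / (n + 1 : ℝ) ≤ 1 - Nsq z := by
    rw [div_le_iff₀ hn]; nlinarith
  rw [← Nsq_norm]; linarith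

theorem int_Lop_vanishing (hF : IntegrableOn F (ball 0 1))
    (H1 : ∀ B : ℂ → ℝ, ContDiff ℝ ∞ B → HasCompactSupport B → tsupport B ⊆ ball 0 1 →
      ∫ z in ball (0 : ℂ) 1, F z * ((dx B z : ℂ) + dy B z * I) = 0)
    {P Q : ℂ → ℂ} (hP : ContDiff ℝ ∞ P) (hQ : Continuous Q)
    (hPQ : ∀ z, P z = ((1 - Nsq z : ℝ) : ℂ) * Q z) :
    ∫ z in ball (0 : ℂ) 1, F z * Lop P z = 0 := by
  obtain ⟨C, hC⟩ := Sst_bound
  have hC0 : 0 ≤ C := (abs_nonneg _).trans (hC 0)
  have hLP : Continuous (Lop P) := by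
    have : Continuous (fderiv ℝ P) := hP.continuous_fderiv (by simp)
    unfold Lop
    fun_prop
  obtain ⟨CP, hCP⟩ := (isCompact_closedBall (0 : ℂ) 1).exists_bound_of_continuousOn
    hLP.continuousOn
  obtain ⟨CQ, hCQ⟩ := (isCompact_closedBall (0 : ℂ) 1).exists_bound_of_continuousOn
    hQ.continuousOn
  have hzero : ∀ n : ℕ, ∫ z in ball (0 : ℂ) 1, F z * Lop (fun z => (chi n z : ℂ) * P z) z = 0 := by
    intro n
    have hsub : Function.support (fun z => (chi n z : ℂ) * P z) ⊆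
        {z : ℂ | ‖z‖ ^ 2 ≤ 1 - 1 / (n + 1 : ℝ)} := by
      intro z hz
      rw [Function.mem_support] at hz
      refine chi_support n ?_
      intro h; exact hz (by rw [h]; simp)
    have hclosed : IsClosed {z : ℂ | ‖z‖ ^ 2 ≤ 1 - 1 / (n + 1 : ℝ)} :=
      isClosed_le (by fun_prop) continuous_const
    have hsubset : {z : ℂ | ‖z‖ ^ 2 ≤ 1 - 1 / (n + 1 : ℝ)} ⊆ ball 0 1 := by
      intro z hz
      rw [mem_ofPred_eq] at hz
      have hn : (0 : ℝ) < 1 / (n + 1) := by positivity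
      rw [mem_ball_zero_iff]
      nlinarith [norm_nonneg z]
    have hts : tsupport (fun z => (chi n z : ℂ) * P z) ⊆ {z : ℂ | ‖z‖ ^ 2 ≤ 1 - 1 / (n + 1 : ℝ)} :=
      closure_minimal hsub hclosed
    refine int_Lop_compact hF H1 ?_ ?_ (hts.trans hsubset)
    · exact (ofRealCLM.contDiff.comp (chi_contDiff n)).mul hP
    · refine HasCompactSupport.of_support_subset_isCompact
        (isCompact_closedBall (0 : ℂ) 1) ?_
      exact (hsub.trans hsubset).trans ball_subset_closedBall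
  have hform : ∀ n : ℕ, ∀ z, Lop (fun z => (chi n z : ℂ) * P z) z =
      chi n z * Lop P z + Q z * (-2 * z) *
        (((n + 1) * (1 - Nsq z) * deriv Sst ((n + 1) * (1 - Nsq z)) : ℝ) : ℂ) := by
    intro n z
    rw [Lop_mul (A := fun z => (chi n z : ℂ)) (B := P), chi_Lop, hPQ z]
    · push_cast; ring
    · exact (ofRealCLM.contDiff.comp (chi_contDiff n)).differentiable (by simp) z
    · exact hP.differentiable (by simp) z
  have hlim : Tendsto (fun n : ℕ => ∫ z in ball (0 : ℂ) 1,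
      F z * Lop (fun z => (chi n z : ℂ) * P z) z) atTop
      (𝓝 (∫ z in ball (0 : ℂ) 1, F z * Lop P z)) := by
    refine tendsto_integral_of_dominated_convergence
      (fun z => ‖F z‖ * (CP + CQ * 2 * C)) ?_ ?_ ?_ ?_
    · intro n
      refine hF.aestronglyMeasurable.mul ?_
      apply Continuous.aestronglyMeasurable
      have h1 : ContDiff ℝ ∞ fun z => (chi n z : ℂ) * P z :=
        (ofRealCLM.contDiff.comp (chi_contDiff n)).mul hP
      have h2 : Continuous (fderiv ℝ fun z => (chi n z : ℂ) * P z) :=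
        h1.continuous_fderiv (by simp)
      unfold Lop
      fun_prop
    · exact hF.norm.mul_const _
    · intro n
      refine (ae_restrict_iff' measurableSet_ball).2 (Eventually.of_forall fun z hz => ?_)
      rw [norm_mul]
      refine mul_le_mul_of_nonneg_left ?_ (norm_nonneg _)
      rw [hform n z]
      have hz' : z ∈ closedBall (0 : ℂ) 1 := ball_subset_closedBall hz
      have hz1 : ‖z‖ ≤ 1 := by simpa using hz'
      refine (norm_add_le _ _).trans ?_
      have e1 : ‖(chi n z : ℂ) * Lop P z‖ ≤ CP := by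
        rw [norm_mul, norm_real, Real.norm_eq_abs,
          abs_of_nonneg (show 0 ≤ chi n z from Sst_nonneg _)]
        calc chi n z * ‖Lop P z‖ ≤ 1 * ‖Lop P z‖ :=
              mul_le_mul_of_nonneg_right (Sst_le_one _) (norm_nonneg _)
          _ = ‖Lop P z‖ := one_mul _
          _ ≤ CP := hCP z hz'
      have e2 : ‖Q z * (-2 * z) *
          (((n + 1) * (1 - Nsq z) * deriv Sst ((n + 1) * (1 - Nsq z)) : ℝ) : ℂ)‖ ≤
          CQ * 2 * C := by
        rw [norm_mul, norm_mul, norm_mul, norm_real, Real.norm_eq_abs]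
        have h1 : ‖(-2 : ℂ)‖ * ‖z‖ ≤ 2 := by
          rw [norm_neg]; norm_num
          linarith
        have h2 := hC ((n + 1) * (1 - Nsq z))
        have hCQ0 : 0 ≤ CQ := (norm_nonneg _).trans (hCQ z hz')
        gcongr
        exact hCQ z hz'
      linarith
    · refine (ae_restrict_iff' measurableSet_ball).2 (Eventually.of_forall fun z hz => ?_)
      have hz1 : ‖z‖ < 1 := by simpa using hz
      have hN : 0 < 1 - Nsq z := by rw [Nsq_norm]; nlinarith [norm_nonneg z]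
      refine tendsto_const_nhds.congr' ?_
      have h0 : Tendsto (fun n : ℕ => ((n : ℝ) + 1) * (1 - Nsq z)) atTop atTop :=
        (tendsto_atTop_add_const_right _ _ tendsto_natCast_atTop_atTop).atTop_mul_const hN
      filter_upwards [h0.eventually_gt_atTop 2] with n hn
      rw [hform n z, Sst_deriv_zero hn]
      unfold chi
      rw [Sst_one hn.le]
      push_cast
      ring
  have : Tendsto (fun n : ℕ => (0 : ℂ)) atTop (𝓝 (∫ z in ball (0 : ℂ) 1, F z * Lop P z)) := by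
    refine hlim.congr fun n => hzero n
  exact (tendsto_nhds_unique this tendsto_const_nhds)

theorem hol_zero (hF : IntegrableOn F (ball 0 1))
    (H1 : ∀ B : ℂ → ℝ, ContDiff ℝ ∞ B → HasCompactSupport B → tsupport B ⊆ ball 0 1 →
      ∫ z in ball (0 : ℂ) 1, F z * ((dx B z : ℂ) + dy B z * I) = 0)
    (H2 : ∀ k : ℕ, ∫ z in ball (0 : ℂ) 1, F z * conj z ^ k = 0) :
    ∀ᵐ z ∂(volume.restrict (ball (0 : ℂ) 1)), F z = 0 := by
  have mint : ∀ a b : ℕ, IntegrableOn (fun z => F z * (z ^ a * conj z ^ b)) (ball 0 1) := by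
    intro a b
    refine Integrable.mul_bdd (c := 1) hF ?_ ?_
    · exact Continuous.aestronglyMeasurable (by fun_prop)
    · refine (ae_restrict_iff' measurableSet_ball).2 (Eventually.of_forall fun z hz => ?_)
      have hz1 : ‖z‖ ≤ 1 := by simpa using (ball_subset_closedBall hz : z ∈ closedBall (0:ℂ) 1)
      rw [norm_mul, norm_pow, norm_pow, RCLike.norm_conj]
      exact mul_le_one₀ (pow_le_one₀ (norm_nonneg _) hz1) (by positivity)
        (pow_le_one₀ (norm_nonneg _) hz1)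
  have hrec : ∀ a b : ℕ, (b : ℂ) * ∫ z in ball (0 : ℂ) 1, F z * (z ^ a * conj z ^ (b - 1)) =
      (b + 1 : ℂ) * ∫ z in ball (0 : ℂ) 1, F z * (z ^ (a + 1) * conj z ^ b) := by
    intro a b
    have hcd : ∀ a b : ℕ, ContDiff ℝ ∞ fun z : ℂ => z ^ a * conj z ^ b := by
      intro a b
      have h1 : ContDiff ℝ ∞ fun z : ℂ => conj z := conjCLE.contDiff
      exact (contDiff_id.pow a).mul (h1.pow b)
    have h := int_Lop_vanishing hF H1
      (P := fun z => z ^ a * conj z ^ b - z ^ (a + 1) * conj z ^ (b + 1))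
      (Q := fun z => z ^ a * conj z ^ b) ((hcd _ _).sub (hcd _ _)) (by fun_prop) (by
        intro z
        push_cast
        rw [Nsq_eq]
        ring)
    have e : ∀ z, F z * Lop (fun z => z ^ a * conj z ^ b - z ^ (a + 1) * conj z ^ (b + 1)) z =
        2 * (b * (F z * (z ^ a * conj z ^ (b - 1)))) -
        2 * ((b + 1) * (F z * (z ^ (a + 1) * conj z ^ b))) := by
      intro z
      rw [Lop_sub ((hcd a b).differentiable (by simp) z)
        ((hcd (a + 1) (b + 1)).differentiable (by simp) z), Lop_mono, Lop_mono]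
      simp only [Nat.add_sub_cancel]
      push_cast
      ring
    simp_rw [e] at h
    rw [integral_sub (((mint a (b - 1)).const_mul _).const_mul _)
      (((mint (a + 1) b).const_mul _).const_mul _), integral_const_mul, integral_const_mul,
      integral_const_mul, integral_const_mul] at h
    linear_combination h / 2
  have hm : ∀ a b : ℕ, ∫ z in ball (0 : ℂ) 1, F z * (z ^ a * conj z ^ b) = 0 := by
    intro a
    induction a with
    | zero =>
      intro b
      simpa using H2 b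
    | succ a ih =>
      intro b
      have h := hrec a b
      rw [ih (b - 1), mul_zero] at h
      have hb : (b + 1 : ℂ) ≠ 0 := by exact_mod_cast Nat.succ_ne_zero b
      exact (mul_eq_zero.1 h.symm).resolve_left hb
  exact ae_zero_of_moments hF hm

end

end Crest.Agent.R101
end

-- ▼ part R101/Friedlander
section

/-! Row 101: the Dirichlet eigenvalue of the disc with weight `ρ` is at least the first positive
Neumann eigenvalue `μ` (Friedlander / Filonov trick with plane waves `e^{i √μ Re φ}`). -/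

set_option autoImplicit false

open MeasureTheory Metric Set Complex ComplexConjugate Filter Topology
open scoped ContDiff

namespace Crest.Agent.R101

namespace FR

/-! ### Integration by parts on the disc -/

theorem continuous_of_mul {B G : ℂ → ℝ} (hB : Continuous B) (hs : tsupport B ⊆ ball 0 1)
    (hG : ContinuousOn G (ball 0 1)) : Continuous (fun z => B z * G z) := by
  refine continuous_iff_continuousAt.2 fun z => ?_
  by_cases hz : z ∈ tsupport B
  · exact hB.continuousAt.mul (hG.continuousAt (isOpen_ball.mem_nhds (hs hz)))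
  · have h1 : (fun z => B z * G z) =ᶠ[𝓝 z] fun _ => 0 := by
      have h2 : (tsupport B)ᶜ ∈ 𝓝 z := (isClosed_tsupport B).isOpen_compl.mem_nhds hz
      filter_upwards [h2] with w hw
      rw [image_eq_zero_of_notMem_tsupport hw, zero_mul]
    exact (continuousAt_const (y := (0 : ℝ))).congr h1.symm

theorem integrable_mul {B G : ℂ → ℝ} (hB : Continuous B) (hc : HasCompactSupport B)
    (hs : tsupport B ⊆ ball 0 1)
    (hG : ContinuousOn G (ball 0 1)) : Integrable (fun z => B z * G z) :=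
  (continuous_of_mul hB hs hG).integrable_of_hasCompactSupport hc.mul_right

theorem integral_ball_eq {B G : ℂ → ℝ} (hs : tsupport B ⊆ ball 0 1) :
    ∫ z in ball (0 : ℂ) 1, B z * G z = ∫ z, B z * G z := by
  refine setIntegral_eq_integral_of_forall_compl_eq_zero fun z hz => ?_
  rw [image_eq_zero_of_notMem_tsupport (fun h => hz (hs h)), zero_mul]

/-- integration by parts: `B` compactly supported in the disc, `G` is `C¹` on the disc. -/
theorem ibp {B G : ℂ → ℝ} (hB : ContDiff ℝ 1 B) (hc : HasCompactSupport B)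
    (hs : tsupport B ⊆ ball 0 1) (hG : ContDiffOn ℝ 1 G (ball 0 1)) (v : ℂ) :
    ∫ z in ball (0 : ℂ) 1, fderiv ℝ B z v * G z = - ∫ z in ball (0 : ℂ) 1, B z * fderiv ℝ G z v := by
  have hBc : Continuous B := hB.continuous
  have hdB : Continuous (fun z => fderiv ℝ B z v) :=
    (hB.continuous_fderiv one_ne_zero).clm_apply continuous_const
  have hdBs : tsupport (fun z => fderiv ℝ B z v) ⊆ tsupport B :=
    (tsupport_fderiv_apply_subset ℝ v)
  have hdBc : HasCompactSupport (fun z => fderiv ℝ B z v) := hc.fderiv_apply ℝ v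
  have hdG : ContinuousOn (fun z => fderiv ℝ G z v) (ball 0 1) :=
    (hG.continuousOn_fderiv_of_isOpen isOpen_ball le_rfl).clm_apply continuousOn_const
  rw [integral_ball_eq hs, integral_ball_eq (hdBs.trans hs)]
  have := integral_mul_fderiv_eq_neg_fderiv_mul_of_integrable (μ := (volume : Measure ℂ))
    (f := B) (g := G) (v := v)
    (integrable_mul hdB hdBc (hdBs.trans hs) hG.continuousOn)
    (integrable_mul hBc hc hs hdG) (integrable_mul hBc hc hs hG.continuousOn)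
    (fun x _ => (hB.differentiable one_ne_zero).differentiableAt)
    (fun x hx => (hG.differentiableOn one_ne_zero).differentiableAt (isOpen_ball.mem_nhds (hs hx)))
  linarith

/-! ### The energy form -/

theorem dx_lin {v w : ℂ → ℝ} {z : ℂ} (hv : DifferentiableAt ℝ v z) (hw : DifferentiableAt ℝ w z)
    (a b : ℝ) : dx (fun z => a * v z + b * w z) z = a * dx v z + b * dx w z := by
  have := ((hv.hasFDerivAt.const_mul a).add (hw.hasFDerivAt.const_mul b)).fderiv
  simp only [dx]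
  rw [show (fun z => a * v z + b * w z) = ((fun z => a * v z) + fun z => b * w z) from rfl]
  rw [show ((fun z => a * v z) + fun z => b * w z) = (fun z => a * v z) + fun z => b * w z from rfl]
    at this
  rw [this]; simp

theorem dy_lin {v w : ℂ → ℝ} {z : ℂ} (hv : DifferentiableAt ℝ v z) (hw : DifferentiableAt ℝ w z)
    (a b : ℝ) : dy (fun z => a * v z + b * w z) z = a * dy v z + b * dy w z := by
  have := ((hv.hasFDerivAt.const_mul a).add (hw.hasFDerivAt.const_mul b)).fderiv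
  simp only [dy]
  rw [show (fun z => a * v z + b * w z) = ((fun z => a * v z) + fun z => b * w z) from rfl]
  rw [this]; simp

theorem cont_rho {φ : ℂ → ℂ} (h : Conf φ) : ContinuousOn (rho φ) (ball 0 1) := by
  have h1 : ContinuousOn (deriv φ) (ball 0 1) := (h.holo.deriv isOpen_ball).continuousOn
  exact (h1.norm).pow 2

theorem cont_dx {v : ℂ → ℝ} (h : ContDiffOn ℝ 1 v (ball 0 1)) : ContinuousOn (dx v) (ball 0 1) :=
  (h.continuousOn_fderiv_of_isOpen isOpen_ball le_rfl).clm_apply continuousOn_const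

theorem cont_dy {v : ℂ → ℝ} (h : ContDiffOn ℝ 1 v (ball 0 1)) : ContinuousOn (dy v) (ball 0 1) :=
  (h.continuousOn_fderiv_of_isOpen isOpen_ball le_rfl).clm_apply continuousOn_const


theorem cont_ip {v w : ℂ → ℝ} (hv : ContDiffOn ℝ 1 v (ball 0 1))
    (hw : ContDiffOn ℝ 1 w (ball 0 1)) : ContinuousOn (ip v w) (ball 0 1) :=
  ((cont_dx hv).mul (cont_dx hw)).add ((cont_dy hv).mul (cont_dy hw))

theorem diffAt {v : ℂ → ℝ} (h : ContDiffOn ℝ 1 v (ball 0 1)) {z : ℂ} (hz : z ∈ ball (0 : ℂ) 1) :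
    DifferentiableAt ℝ v z :=
  (h.differentiableOn one_ne_zero).differentiableAt (isOpen_ball.mem_nhds hz)

theorem int_ip {φ : ℂ → ℂ} {v w : ℂ → ℝ} (hv : Adm φ v) (hw : Adm φ w) :
    IntegrableOn (ip v w) (ball 0 1) := by
  refine Integrable.mono' (hv.en.add hw.en)
    ((cont_ip hv.c1 hw.c1).aestronglyMeasurable measurableSet_ball) ?_
  refine ae_of_all _ fun z => ?_
  simp only [ip, Pi.add_apply, g2, Real.norm_eq_abs]
  rw [abs_le]
  constructor <;>
    nlinarith [sq_nonneg (dx v z + dx w z), sq_nonneg (dy v z + dy w z),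
      sq_nonneg (dx v z - dx w z), sq_nonneg (dy v z - dy w z), sq_nonneg (dx v z),
      sq_nonneg (dy v z), sq_nonneg (dx w z), sq_nonneg (dy w z)]

theorem rho_nonneg (φ : ℂ → ℂ) (z : ℂ) : 0 ≤ rho φ z := sq_nonneg _

theorem int_rho {φ : ℂ → ℂ} (hφ : Conf φ) {v w : ℂ → ℝ} (hv : Adm φ v) (hw : Adm φ w) :
    IntegrableOn (fun z => rho φ z * v z * w z) (ball 0 1) := by
  refine Integrable.mono' (hv.l2.add hw.l2)
    ((((cont_rho hφ).mul hv.c1.continuousOn).mul hw.c1.continuousOn).aestronglyMeasurable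
      measurableSet_ball) ?_
  refine ae_of_all _ fun z => ?_
  have h0 := rho_nonneg φ z
  simp only [Pi.add_apply, Real.norm_eq_abs]
  rw [mul_assoc, abs_mul, abs_of_nonneg h0, ← mul_add]
  refine mul_le_mul_of_nonneg_left ?_ h0
  rw [abs_le]
  constructor <;> nlinarith [sq_nonneg (v z + w z), sq_nonneg (v z - w z), sq_nonneg (v z),
    sq_nonneg (w z)]

theorem g2_lin {v w : ℂ → ℝ} (hv : ContDiffOn ℝ 1 v (ball 0 1))
    (hw : ContDiffOn ℝ 1 w (ball 0 1)) (a b : ℝ) {z : ℂ} (hz : z ∈ ball (0 : ℂ) 1) :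
    g2 (fun z => a * v z + b * w z) z = a ^ 2 * g2 v z + 2 * (a * b) * ip v w z + b ^ 2 * g2 w z := by
  simp only [g2, ip, dx_lin (diffAt hv hz) (diffAt hw hz), dy_lin (diffAt hv hz) (diffAt hw hz)]
  ring

theorem Adm_lin {φ : ℂ → ℂ} (hφ : Conf φ) {v w : ℂ → ℝ} (hv : Adm φ v) (hw : Adm φ w) (a b : ℝ) :
    Adm φ (fun z => a * v z + b * w z) where
  c1 := (contDiffOn_const.mul hv.c1).add (contDiffOn_const.mul hw.c1)
  l2 := by
    have h1 : IntegrableOn (fun z => a ^ 2 * (rho φ z * v z ^ 2) +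
        2 * (a * b) * (rho φ z * v z * w z) + b ^ 2 * (rho φ z * w z ^ 2)) (ball 0 1) :=
      ((hv.l2.const_mul _).add ((int_rho hφ hv hw).const_mul _)).add (hw.l2.const_mul _)
    refine h1.congr_fun (fun z _ => ?_) measurableSet_ball
    simp only; ring
  en := by
    have h1 : IntegrableOn (fun z => a ^ 2 * g2 v z + 2 * (a * b) * ip v w z + b ^ 2 * g2 w z)
        (ball 0 1) :=
      ((hv.en.const_mul _).add ((int_ip hv hw).const_mul _)).add (hw.en.const_mul _)
    exact h1.congr_fun (fun z hz => (g2_lin hv.c1 hw.c1 a b hz).symm) measurableSet_ball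

/-- the quadratic form. -/
noncomputable def EE (φ : ℂ → ℂ) (μ : ℝ) (v w : ℂ → ℝ) : ℝ :=
  (∫ z in ball (0 : ℂ) 1, ip v w z) - μ * ∫ z in ball (0 : ℂ) 1, rho φ z * v z * w z

theorem EE_self (φ : ℂ → ℂ) (μ : ℝ) (v : ℂ → ℝ) :
    EE φ μ v v = (∫ z in ball (0 : ℂ) 1, g2 v z) - μ * ∫ z in ball (0 : ℂ) 1, rho φ z * v z ^ 2 := by
  simp only [EE]
  congr 3
  · ext z; simp only [ip, g2]; ring
  · ext z; ring

theorem EE_comm (φ : ℂ → ℂ) (μ : ℝ) (v w : ℂ → ℝ) : EE φ μ v w = EE φ μ w v := by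
  simp only [EE]
  congr 3
  · ext z; simp only [ip]; ring
  · ext z; ring

theorem EE_lin {φ : ℂ → ℂ} (hφ : Conf φ) (μ : ℝ) {v w u : ℂ → ℝ} (hv : Adm φ v) (hw : Adm φ w)
    (hu : Adm φ u) (a b : ℝ) :
    EE φ μ (fun z => a * v z + b * w z) u = a * EE φ μ v u + b * EE φ μ w u := by
  have h1 : ∫ z in ball (0 : ℂ) 1, ip (fun z => a * v z + b * w z) u z =
      a * (∫ z in ball (0 : ℂ) 1, ip v u z) + b * ∫ z in ball (0 : ℂ) 1, ip w u z := by
    rw [← integral_const_mul, ← integral_const_mul, ← integral_add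
      ((int_ip hv hu).const_mul _) ((int_ip hw hu).const_mul _)]
    refine setIntegral_congr_fun measurableSet_ball fun z hz => ?_
    simp only [ip, dx_lin (diffAt hv.c1 hz) (diffAt hw.c1 hz),
      dy_lin (diffAt hv.c1 hz) (diffAt hw.c1 hz)]
    ring
  have h2 : ∫ z in ball (0 : ℂ) 1, rho φ z * (a * v z + b * w z) * u z =
      a * (∫ z in ball (0 : ℂ) 1, rho φ z * v z * u z) +
        b * ∫ z in ball (0 : ℂ) 1, rho φ z * w z * u z := by
    rw [← integral_const_mul, ← integral_const_mul, ← integral_add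
      ((int_rho hφ hv hu).const_mul _) ((int_rho hφ hw hu).const_mul _)]
    refine setIntegral_congr_fun measurableSet_ball fun z hz => ?_
    ring
  simp only [EE]
  rw [h1, h2]; ring

theorem EE_quad {φ : ℂ → ℂ} (hφ : Conf φ) (μ : ℝ) {v w : ℂ → ℝ} (hv : Adm φ v) (hw : Adm φ w)
    (a b : ℝ) :
    EE φ μ (fun z => a * v z + b * w z) (fun z => a * v z + b * w z) =
      a ^ 2 * EE φ μ v v + 2 * (a * b) * EE φ μ v w + b ^ 2 * EE φ μ w w := by
  have h := Adm_lin hφ hv hw a b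
  rw [EE_lin hφ μ hv hw h, EE_comm φ μ v, EE_comm φ μ w, EE_lin hφ μ hv hw hv,
    EE_lin hφ μ hv hw hw, EE_comm φ μ w v]
  ring

/-! ### Waves `P (Re φ)` -/

/-- `X = Re φ`. -/
noncomputable def XX (φ : ℂ → ℂ) (z : ℂ) : ℝ := (φ z).re

theorem hasFDerivAt_XX {φ : ℂ → ℂ} (h : DifferentiableOn ℂ φ (ball 0 1)) {z : ℂ}
    (hz : z ∈ ball (0 : ℂ) 1) :
    HasFDerivAt (XX φ) (reCLM.comp ((deriv φ z) • (1 : ℂ →L[ℝ] ℂ))) z := by
  have h1 : HasDerivAt φ (deriv φ z) z :=
    (h.differentiableAt (isOpen_ball.mem_nhds hz)).hasDerivAt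
  exact reCLM.hasFDerivAt.comp z h1.complexToReal_fderiv

theorem contDiffOn_of_holo {f : ℂ → ℂ} (h : DifferentiableOn ℂ f (ball 0 1)) :
    ContDiffOn ℝ 1 f (ball 0 1) :=
  ((h.contDiffOn isOpen_ball (n := 1)).restrict_scalars ℝ)

theorem contDiffOn_XX {φ : ℂ → ℂ} (h : DifferentiableOn ℂ φ (ball 0 1)) :
    ContDiffOn ℝ 1 (XX φ) (ball 0 1) :=
  reCLM.contDiff.comp_contDiffOn (contDiffOn_of_holo h)

theorem hasFDerivAt_wave {φ : ℂ → ℂ} (h : DifferentiableOn ℂ φ (ball 0 1)) {P : ℝ → ℝ} {P' : ℝ}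
    {z : ℂ} (hz : z ∈ ball (0 : ℂ) 1) (hP : HasDerivAt P P' (XX φ z)) :
    HasFDerivAt (fun z => P (XX φ z)) (P' • reCLM.comp ((deriv φ z) • (1 : ℂ →L[ℝ] ℂ))) z :=
  hP.comp_hasFDerivAt z (hasFDerivAt_XX h hz)

theorem dx_wave {φ : ℂ → ℂ} (h : DifferentiableOn ℂ φ (ball 0 1)) {P : ℝ → ℝ} {P' : ℝ}
    {z : ℂ} (hz : z ∈ ball (0 : ℂ) 1) (hP : HasDerivAt P P' (XX φ z)) :
    dx (fun z => P (XX φ z)) z = P' * (deriv φ z).re := by
  rw [dx, (hasFDerivAt_wave h hz hP).fderiv]; simp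

theorem dy_wave {φ : ℂ → ℂ} (h : DifferentiableOn ℂ φ (ball 0 1)) {P : ℝ → ℝ} {P' : ℝ}
    {z : ℂ} (hz : z ∈ ball (0 : ℂ) 1) (hP : HasDerivAt P P' (XX φ z)) :
    dy (fun z => P (XX φ z)) z = - (P' * (deriv φ z).im) := by
  rw [dy, (hasFDerivAt_wave h hz hP).fderiv]; simp

theorem rho_eq (φ : ℂ → ℂ) (z : ℂ) : rho φ z = (deriv φ z).re ^ 2 + (deriv φ z).im ^ 2 := by
  rw [rho, ← Complex.normSq_eq_norm_sq, Complex.normSq_apply]; ring

theorem ip_wave {φ : ℂ → ℂ} (h : DifferentiableOn ℂ φ (ball 0 1)) {P Q : ℝ → ℝ} {P' Q' : ℝ}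
    {z : ℂ} (hz : z ∈ ball (0 : ℂ) 1) (hP : HasDerivAt P P' (XX φ z))
    (hQ : HasDerivAt Q Q' (XX φ z)) :
    ip (fun z => P (XX φ z)) (fun z => Q (XX φ z)) z = P' * Q' * rho φ z := by
  rw [ip, dx_wave h hz hP, dy_wave h hz hP, dx_wave h hz hQ, dy_wave h hz hQ, rho_eq]; ring

theorem g2_wave {φ : ℂ → ℂ} (h : DifferentiableOn ℂ φ (ball 0 1)) {P : ℝ → ℝ} {P' : ℝ}
    {z : ℂ} (hz : z ∈ ball (0 : ℂ) 1) (hP : HasDerivAt P P' (XX φ z)) :
    g2 (fun z => P (XX φ z)) z = P' ^ 2 * rho φ z := by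
  rw [g2, dx_wave h hz hP, dy_wave h hz hP, rho_eq]; ring

theorem int_rho_cont {φ : ℂ → ℂ} (hφ : Conf φ) {Q : ℝ → ℝ} (hQ : Continuous Q) :
    IntegrableOn (fun z => Q (XX φ z) * rho φ z) (ball 0 1) := by
  obtain ⟨C, hC⟩ := hφ.bdd
  obtain ⟨K, hK⟩ := (isCompact_Icc (a := -C) (b := C)).exists_bound_of_continuousOn hQ.continuousOn
  have hX : ContinuousOn (XX φ) (ball 0 1) := (contDiffOn_XX hφ.holo).continuousOn
  refine Integrable.mono' (hφ.rho_int.const_mul K)
    (((hQ.comp_continuousOn hX).mul (cont_rho hφ)).aestronglyMeasurable measurableSet_ball) ?_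
  refine (ae_restrict_iff' measurableSet_ball).2 (ae_of_all _ fun z hz => ?_)
  have h1 : XX φ z ∈ Icc (-C) C := by
    have := (Complex.abs_re_le_norm (φ z)).trans (hC z hz)
    exact abs_le.1 this
  rw [norm_mul, Real.norm_eq_abs (rho φ z), abs_of_nonneg (rho_nonneg φ z)]
  exact mul_le_mul_of_nonneg_right (hK _ h1) (rho_nonneg φ z)

theorem Adm_wave {φ : ℂ → ℂ} (hφ : Conf φ) {P : ℝ → ℝ} (hP : ContDiff ℝ 1 P) :
    Adm φ (fun z => P (XX φ z)) where
  c1 := hP.comp_contDiffOn (contDiffOn_XX hφ.holo)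
  l2 := by
    refine (int_rho_cont hφ (hP.continuous.pow 2)).congr_fun (fun z _ => ?_) measurableSet_ball
    simp only [Pi.pow_apply]; ring
  en := by
    refine (int_rho_cont hφ ((hP.continuous_deriv le_rfl).pow 2)).congr_fun (fun z hz => ?_)
      measurableSet_ball
    exact (g2_wave hφ.holo hz
      ((hP.differentiable one_ne_zero).differentiableAt.hasDerivAt)).symm

theorem ip_B_wave {φ : ℂ → ℂ} (h : DifferentiableOn ℂ φ (ball 0 1)) {B : ℂ → ℝ}
    (hB : ContDiff ℝ 1 B) (hc : HasCompactSupport B)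
    (hs : tsupport B ⊆ ball 0 1) {P P' P'' : ℝ → ℝ} (hP : ∀ t, HasDerivAt P (P' t) t)
    (hP' : ∀ t, HasDerivAt P' (P'' t) t) (hP'' : Continuous P'') :
    ∫ z in ball (0 : ℂ) 1, ip B (fun z => P (XX φ z)) z =
      - ∫ z in ball (0 : ℂ) 1, B z * (P'' (XX φ z) * rho φ z) := by
  have hd : DifferentiableOn ℂ (deriv φ) (ball 0 1) := h.deriv isOpen_ball
  have hX : ContDiffOn ℝ 1 (XX φ) (ball 0 1) := contDiffOn_XX h
  have hP1 : ContDiff ℝ 1 P' := by
    rw [contDiff_one_iff_deriv]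
    refine ⟨fun t => (hP' t).differentiableAt, ?_⟩
    rw [show deriv P' = P'' from funext fun t => (hP' t).deriv]
    exact hP''
  have hre : ContDiffOn ℝ 1 (fun z => (deriv φ z).re) (ball 0 1) :=
    reCLM.contDiff.comp_contDiffOn (contDiffOn_of_holo hd)
  have him : ContDiffOn ℝ 1 (fun z => (deriv φ z).im) (ball 0 1) :=
    imCLM.contDiff.comp_contDiffOn (contDiffOn_of_holo hd)
  have hG1 : ContDiffOn ℝ 1 (fun z => P' (XX φ z) * (deriv φ z).re) (ball 0 1) :=
    (hP1.comp_contDiffOn hX).mul hre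
  have hG2 : ContDiffOn ℝ 1 (fun z => -(P' (XX φ z) * (deriv φ z).im)) (ball 0 1) :=
    ((hP1.comp_contDiffOn hX).mul him).neg
  have e1 := ibp hB hc hs hG1 1
  have e2 := ibp hB hc hs hG2 I
  have hdB1 : Continuous (fun z => fderiv ℝ B z 1) :=
    (hB.continuous_fderiv one_ne_zero).clm_apply continuous_const
  have hdB2 : Continuous (fun z => fderiv ℝ B z I) :=
    (hB.continuous_fderiv one_ne_zero).clm_apply continuous_const
  have i1 : IntegrableOn (fun z => fderiv ℝ B z 1 * (P' (XX φ z) * (deriv φ z).re)) (ball 0 1) :=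
    (integrable_mul hdB1 (hc.fderiv_apply ℝ 1) ((tsupport_fderiv_apply_subset ℝ 1).trans hs)
      hG1.continuousOn).integrableOn
  have i2 : IntegrableOn (fun z => fderiv ℝ B z I * (-(P' (XX φ z) * (deriv φ z).im)))
      (ball 0 1) :=
    (integrable_mul hdB2 (hc.fderiv_apply ℝ I) ((tsupport_fderiv_apply_subset ℝ I).trans hs)
      hG2.continuousOn).integrableOn
  have j1 : IntegrableOn (fun z => B z * fderiv ℝ (fun z => P' (XX φ z) * (deriv φ z).re) z 1)
      (ball 0 1) :=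
    (integrable_mul hB.continuous hc hs
      ((hG1.continuousOn_fderiv_of_isOpen isOpen_ball le_rfl).clm_apply
        continuousOn_const)).integrableOn
  have j2 : IntegrableOn (fun z => B z * fderiv ℝ (fun z => -(P' (XX φ z) * (deriv φ z).im)) z I)
      (ball 0 1) :=
    (integrable_mul hB.continuous hc hs
      ((hG2.continuousOn_fderiv_of_isOpen isOpen_ball le_rfl).clm_apply
        continuousOn_const)).integrableOn
  have e3 : ∫ z in ball (0 : ℂ) 1, ip B (fun z => P (XX φ z)) z =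
      (∫ z in ball (0 : ℂ) 1, fderiv ℝ B z 1 * (P' (XX φ z) * (deriv φ z).re)) +
      ∫ z in ball (0 : ℂ) 1, fderiv ℝ B z I * (-(P' (XX φ z) * (deriv φ z).im)) := by
    rw [← integral_add i1 i2]
    refine setIntegral_congr_fun measurableSet_ball fun z hz => ?_
    rw [ip, dx_wave h hz (hP _), dy_wave h hz (hP _), dx, dy]
  rw [e3, e1, e2, ← neg_add, ← integral_add j1 j2]
  congr 1
  refine setIntegral_congr_fun measurableSet_ball fun z hz => ?_
  have hd2 : HasDerivAt (deriv φ) (deriv (deriv φ) z) z :=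
    (hd.differentiableAt (isOpen_ball.mem_nhds hz)).hasDerivAt
  have f1 := (hasFDerivAt_wave h hz (hP' (XX φ z))).mul
    (reCLM.hasFDerivAt.comp z hd2.complexToReal_fderiv)
  have f2 := ((hasFDerivAt_wave h hz (hP' (XX φ z))).mul
    (imCLM.hasFDerivAt.comp z hd2.complexToReal_fderiv)).neg
  have g1 : fderiv ℝ (fun z => P' (XX φ z) * (deriv φ z).re) z 1 =
      P' (XX φ z) * (deriv (deriv φ) z).re + (deriv φ z).re * (P'' (XX φ z) * (deriv φ z).re) := by
    have : HasFDerivAt (fun z => P' (XX φ z) * (deriv φ z).re) _ z := f1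
    rw [this.fderiv]; simp
  have g2 : fderiv ℝ (fun z => -(P' (XX φ z) * (deriv φ z).im)) z I =
      -(P' (XX φ z) * (deriv (deriv φ) z).re) + (deriv φ z).im * (P'' (XX φ z) * (deriv φ z).im) := by
    have : HasFDerivAt (fun z => -(P' (XX φ z) * (deriv φ z).im)) _ z := f2
    rw [this.fderiv]; simp; ring
  rw [g1, g2, rho_eq]; ring

theorem rho_integral_pos {φ : ℂ → ℂ} (hφ : Conf φ) : 0 < ∫ z in ball (0 : ℂ) 1, rho φ z := by
  rw [setIntegral_pos_iff_support_of_nonneg_ae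
    (ae_of_all _ fun z => rho_nonneg φ z) hφ.rho_int]
  have h1 : Function.support (rho φ) ∩ ball (0 : ℂ) 1 = ball 0 1 := by
    refine inter_eq_right.2 fun z hz => ?_
    have := Lib.deriv_ne_zero_of_injOn isOpen_ball hφ.holo hφ.inj hz
    simp only [Function.mem_support, rho]
    positivity
  rw [h1]
  exact measure_ball_pos _ _ one_pos

theorem Adm_compact {φ : ℂ → ℂ} (hφ : Conf φ) {B : ℂ → ℝ}
    (hB : ContDiff ℝ 1 B) (hc : HasCompactSupport B) (hs : tsupport B ⊆ ball 0 1) : Adm φ B where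
  c1 := hB.contDiffOn
  l2 := by
    have h1 := (integrable_mul hB.continuous hc hs
      ((cont_rho hφ).mul hB.continuous.continuousOn)).integrableOn (s := ball (0 : ℂ) 1)
    refine h1.congr_fun (fun z _ => ?_) measurableSet_ball
    simp only [Pi.mul_apply]; ring
  en := by
    have hdB1 : Continuous (fun z => fderiv ℝ B z 1) :=
      (hB.continuous_fderiv one_ne_zero).clm_apply continuous_const
    have hdB2 : Continuous (fun z => fderiv ℝ B z I) :=
      (hB.continuous_fderiv one_ne_zero).clm_apply continuous_const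
    have i1 := (integrable_mul hdB1 (hc.fderiv_apply ℝ 1)
      ((tsupport_fderiv_apply_subset ℝ 1).trans hs)
      hdB1.continuousOn).integrableOn (s := ball (0 : ℂ) 1)
    have i2 := (integrable_mul hdB2 (hc.fderiv_apply ℝ I)
      ((tsupport_fderiv_apply_subset ℝ I).trans hs)
      hdB2.continuousOn).integrableOn (s := ball (0 : ℂ) 1)
    refine (i1.add i2).congr_fun (fun z _ => ?_) measurableSet_ball
    simp only [g2, dx, dy, Pi.add_apply]; ring

theorem EE_nonneg {φ : ℂ → ℂ} {U : ℂ → ℝ} {μ : ℝ} (h : Setting φ U μ) {v : ℂ → ℝ} (hv : Adm φ v)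
    (h0 : ∫ z in ball (0 : ℂ) 1, rho φ z * v z = 0) : 0 ≤ EE φ μ v v := by
  rw [EE_self]; linarith [h.ray v hv h0]

theorem int_rho1 {φ : ℂ → ℂ} (hφ : Conf φ) {v : ℂ → ℝ} (hv : Adm φ v) :
    IntegrableOn (fun z => rho φ z * v z) (ball 0 1) := by
  have h1 := int_rho hφ hv (Adm_wave hφ (P := fun _ => 1) contDiff_const)
  refine h1.congr_fun (fun z _ => ?_) measurableSet_ball
  simp

theorem hd_cos (k t : ℝ) : HasDerivAt (fun t => Real.cos (k * t)) (-(k * Real.sin (k * t))) t := by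
  have h1 : HasDerivAt (fun t => k * t) k t := by
    simpa using (hasDerivAt_id' t).const_mul k
  have := h1.cos
  convert this using 1
  ring

theorem hd_sin (k t : ℝ) : HasDerivAt (fun t => Real.sin (k * t)) (k * Real.cos (k * t)) t := by
  have h1 : HasDerivAt (fun t => k * t) k t := by
    simpa using (hasDerivAt_id' t).const_mul k
  have := h1.sin
  convert this using 1
  ring

/-- plane waves. -/
noncomputable def cc (φ : ℂ → ℂ) (k : ℝ) (z : ℂ) : ℝ := Real.cos (k * XX φ z)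
/-- plane waves. -/
noncomputable def ss (φ : ℂ → ℂ) (k : ℝ) (z : ℂ) : ℝ := Real.sin (k * XX φ z)

theorem Adm_cc {φ : ℂ → ℂ} (hφ : Conf φ) (k : ℝ) : Adm φ (cc φ k) :=
  Adm_wave hφ (P := fun t => Real.cos (k * t)) (Real.contDiff_cos.comp (contDiff_const.mul contDiff_id))

theorem Adm_ss {φ : ℂ → ℂ} (hφ : Conf φ) (k : ℝ) : Adm φ (ss φ k) :=
  Adm_wave hφ (P := fun t => Real.sin (k * t)) (Real.contDiff_sin.comp (contDiff_const.mul contDiff_id))

theorem EE_cc_add_ss {φ : ℂ → ℂ} (hφ : Conf φ) (k : ℝ) :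
    EE φ (k ^ 2) (cc φ k) (cc φ k) + EE φ (k ^ 2) (ss φ k) (ss φ k) = 0 := by
  have hc := Adm_cc hφ k
  have hs := Adm_ss hφ k
  simp only [EE_self]
  rw [sub_add_sub_comm, ← mul_add, ← integral_add hc.en hs.en, ← integral_add hc.l2 hs.l2,
    ← integral_const_mul, sub_eq_zero]
  refine setIntegral_congr_fun measurableSet_ball fun z hz => ?_
  have e1 : g2 (cc φ k) z = _ := g2_wave hφ.holo hz (hd_cos k (XX φ z))
  have e2 : g2 (ss φ k) z = _ := g2_wave hφ.holo hz (hd_sin k (XX φ z))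
  simp only [e1, e2, cc, ss]
  ring

theorem EE_B_cc {φ : ℂ → ℂ} (hφ : Conf φ) (k : ℝ) {B : ℂ → ℝ}
    (hB : ContDiff ℝ 1 B) (hc : HasCompactSupport B) (hs : tsupport B ⊆ ball 0 1) :
    EE φ (k ^ 2) B (cc φ k) = 0 := by
  have h1 := ip_B_wave hφ.holo hB hc hs (P := fun t => Real.cos (k * t))
    (P' := fun t => -(k * Real.sin (k * t))) (P'' := fun t => -(k * (k * Real.cos (k * t))))
    (fun t => hd_cos k t) (fun t => ((hd_sin k t).const_mul k).neg) (by fun_prop)
  rw [EE, show (∫ z in ball (0 : ℂ) 1, ip B (cc φ k) z) = _ from h1, ← integral_neg,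
    ← integral_const_mul, sub_eq_zero]
  refine setIntegral_congr_fun measurableSet_ball fun z hz => ?_
  simp only [cc]; ring

theorem EE_B_ss {φ : ℂ → ℂ} (hφ : Conf φ) (k : ℝ) {B : ℂ → ℝ}
    (hB : ContDiff ℝ 1 B) (hc : HasCompactSupport B) (hs : tsupport B ⊆ ball 0 1) :
    EE φ (k ^ 2) B (ss φ k) = 0 := by
  have h1 := ip_B_wave hφ.holo hB hc hs (P := fun t => Real.sin (k * t))
    (P' := fun t => (k * Real.cos (k * t))) (P'' := fun t => (k * (-(k * Real.sin (k * t)))))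
    (fun t => hd_sin k t) (fun t => ((hd_cos k t).const_mul k)) (by fun_prop)
  rw [EE, show (∫ z in ball (0 : ℂ) 1, ip B (ss φ k) z) = _ from h1, ← integral_neg,
    ← integral_const_mul, sub_eq_zero]
  refine setIntegral_congr_fun measurableSet_ball fun z hz => ?_
  simp only [ss]; ring

theorem EE_twist {φ : ℂ → ℂ} (hφ : Conf φ) (k : ℝ) :
    EE φ (k ^ 2) (ss φ k) (fun z => XX φ z * cc φ k z) -
      EE φ (k ^ 2) (cc φ k) (fun z => XX φ z * ss φ k z) = k * ∫ z in ball (0 : ℂ) 1, rho φ z := by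
  have hc := Adm_cc hφ k
  have hs := Adm_ss hφ k
  have hxc : Adm φ (fun z => XX φ z * cc φ k z) :=
    Adm_wave hφ (P := fun t => t * Real.cos (k * t))
      (contDiff_id.mul (Real.contDiff_cos.comp (contDiff_const.mul contDiff_id)))
  have hxs : Adm φ (fun z => XX φ z * ss φ k z) :=
    Adm_wave hφ (P := fun t => t * Real.sin (k * t))
      (contDiff_id.mul (Real.contDiff_sin.comp (contDiff_const.mul contDiff_id)))
  have i1 := int_ip hs hxc
  have i2 := int_ip hc hxs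
  have j1 := int_rho hφ hs hxc
  have j2 := int_rho hφ hc hxs
  have e1 : ∫ z in ball (0 : ℂ) 1, rho φ z * ss φ k z * (XX φ z * cc φ k z) =
      ∫ z in ball (0 : ℂ) 1, rho φ z * cc φ k z * (XX φ z * ss φ k z) := by
    congr 1; ext z; ring
  simp only [EE]
  rw [e1, sub_sub_sub_cancel_right, ← integral_sub i1 i2, ← integral_const_mul]
  refine setIntegral_congr_fun measurableSet_ball fun z hz => ?_
  have d1 : HasDerivAt (fun t => t * Real.cos (k * t))
      (1 * Real.cos (k * XX φ z) + XX φ z * -(k * Real.sin (k * XX φ z))) (XX φ z) :=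
    (hasDerivAt_id' (XX φ z)).fun_mul (hd_cos k (XX φ z))
  have d2 : HasDerivAt (fun t => t * Real.sin (k * t))
      (1 * Real.sin (k * XX φ z) + XX φ z * (k * Real.cos (k * XX φ z))) (XX φ z) :=
    (hasDerivAt_id' (XX φ z)).fun_mul (hd_sin k (XX φ z))
  have f1 : ip (ss φ k) (fun z => XX φ z * cc φ k z) z = _ :=
    ip_wave hφ.holo hz (hd_sin k (XX φ z)) d1
  have f2 : ip (cc φ k) (fun z => XX φ z * ss φ k z) z = _ :=
    ip_wave hφ.holo hz (hd_cos k (XX φ z)) d2
  simp only [f1, f2]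
  have := Real.sin_sq_add_cos_sq (k * XX φ z)
  linear_combination (k * rho φ z) * this

end FR

open FR in
/-- the Dirichlet eigenvalue is at least `μ`. -/
theorem dirichlet_ge {φ : ℂ → ℂ} {U : ℂ → ℝ} {μ : ℝ} (h : Setting φ U μ) {B : ℂ → ℝ}
    (hB : ContDiff ℝ ∞ B) (hc : HasCompactSupport B) (hs : tsupport B ⊆ ball 0 1) :
    μ * ∫ z in ball (0 : ℂ) 1, rho φ z * B z ^ 2 ≤ ∫ z in ball (0 : ℂ) 1, g2 B z := by
  have hφ := h.conf
  have hB1 : ContDiff ℝ 1 B := hB.of_le (by exact_mod_cast le_top)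
  set k := Real.sqrt μ with hk
  have hk0 : 0 < k := Real.sqrt_pos.2 h.μpos
  have hk2 : k ^ 2 = μ := Real.sq_sqrt h.μpos.le
  have aB := Adm_compact hφ hB1 hc hs
  have ac := Adm_cc hφ k
  have as := Adm_ss hφ k
  have hsum := EE_cc_add_ss hφ k
  have hBc := EE_B_cc hφ k hB1 hc hs
  have hBs := EE_B_ss hφ k hB1 hc hs
  rw [hk2] at hsum hBc hBs
  suffices hE : 0 ≤ EE φ μ B B by rw [EE_self] at hE; linarith
  set Ic := ∫ z in ball (0 : ℂ) 1, rho φ z * cc φ k z with hIc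
  set Is := ∫ z in ball (0 : ℂ) 1, rho φ z * ss φ k z with hIs
  set IB := ∫ z in ball (0 : ℂ) 1, rho φ z * B z with hIB
  have lin : ∀ {v w : ℂ → ℝ} (_ : Adm φ v) (_ : Adm φ w) (a b : ℝ),
      ∫ z in ball (0 : ℂ) 1, rho φ z * (a * v z + b * w z) =
        a * (∫ z in ball (0 : ℂ) 1, rho φ z * v z) + b * ∫ z in ball (0 : ℂ) 1, rho φ z * w z := by
    intro v w hv hw a b
    rw [← integral_const_mul, ← integral_const_mul, ← integral_add
      ((int_rho1 hφ hv).const_mul _) ((int_rho1 hφ hw).const_mul _)]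
    congr 1; ext z; ring
  by_cases hI : Ic ^ 2 + Is ^ 2 = 0
  · exfalso
    have hIc0 : Ic = 0 := by nlinarith [sq_nonneg Ic, sq_nonneg Is]
    have hIs0 : Is = 0 := by nlinarith [sq_nonneg Ic, sq_nonneg Is]
    have hEc := EE_nonneg h ac hIc0
    have hEs := EE_nonneg h as hIs0
    have hEc0 : EE φ μ (cc φ k) (cc φ k) = 0 := by linarith
    have hEs0 : EE φ μ (ss φ k) (ss φ k) = 0 := by linarith
    have a1 : Adm φ (fun _ => (1 : ℝ)) := Adm_wave hφ (P := fun _ => (1 : ℝ)) contDiff_const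
    have hρ := rho_integral_pos hφ
    -- minimisers satisfy the weak equation
    have key : ∀ {e : ℂ → ℝ} (_ : Adm φ e) (_ : ∫ z in ball (0 : ℂ) 1, rho φ z * e z = 0)
        (_ : EE φ μ e e = 0) {v : ℂ → ℝ} (_ : Adm φ v), EE φ μ e v = 0 := by
      intro e ae he he0 v av
      set m := (∫ z in ball (0 : ℂ) 1, rho φ z * v z) / ∫ z in ball (0 : ℂ) 1, rho φ z with hm
      have av0 : Adm φ (fun z => 1 * v z + (-m) * 1) := Adm_lin hφ av a1 1 (-m)
      have hv0 : ∫ z in ball (0 : ℂ) 1, rho φ z * (1 * v z + (-m) * 1) = 0 := by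
        rw [lin av a1]
        simp only [mul_one, one_mul]
        rw [hm]; field_simp; ring
      have hE1 : EE φ μ e (fun _ => (1 : ℝ)) = 0 := by
        rw [EE]
        have t1 : ∫ z in ball (0 : ℂ) 1, ip e (fun _ => (1 : ℝ)) z = 0 := by
          have : ∀ z, ip e (fun _ => (1 : ℝ)) z = 0 := by
            intro z; simp [ip, dx, dy]
          simp [this]
        have t2 : ∫ z in ball (0 : ℂ) 1, rho φ z * e z * 1 = 0 := by
          simpa using he
        rw [t1, t2]; ring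
      have hEv : EE φ μ e (fun z => 1 * v z + (-m) * 1) = EE φ μ e v := by
        rw [EE_comm, EE_lin hφ μ av a1 ae, EE_comm, EE_comm φ μ _ e, hE1]; ring
      rw [← hEv]
      set v0 := (fun z => 1 * v z + (-m) * 1) with hv0'
      have hq : ∀ t : ℝ, 0 ≤ 2 * t * EE φ μ e v0 + t ^ 2 * EE φ μ v0 v0 := by
        intro t
        have a2 := Adm_lin hφ ae av0 1 t
        have := EE_nonneg h a2 (by rw [lin ae av0, he, hv0]; ring)
        rw [EE_quad hφ μ ae av0, he0] at this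
        linarith
      by_contra hne
      set x := EE φ μ e v0
      set y := EE φ μ v0 v0
      have hy : 0 ≤ y := EE_nonneg h av0 hv0
      have := hq (-x / (y + 1))
      have hy1 : 0 < y + 1 := by linarith
      have hx2 : 0 < x ^ 2 := by positivity
      have e1 : 2 * (-x / (y + 1)) * x + (-x / (y + 1)) ^ 2 * y =
          - (x ^ 2 * (y + 2)) / (y + 1) ^ 2 := by
        field_simp; ring
      rw [e1] at this
      have : - (x ^ 2 * (y + 2)) / (y + 1) ^ 2 < 0 := by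
        apply div_neg_of_neg_of_pos
        · nlinarith
        · positivity
      linarith
    have hxc : Adm φ (fun z => XX φ z * cc φ k z) :=
      Adm_wave hφ (P := fun t => t * Real.cos (k * t))
        (contDiff_id.mul (Real.contDiff_cos.comp (contDiff_const.mul contDiff_id)))
    have hxs : Adm φ (fun z => XX φ z * ss φ k z) :=
      Adm_wave hφ (P := fun t => t * Real.sin (k * t))
        (contDiff_id.mul (Real.contDiff_sin.comp (contDiff_const.mul contDiff_id)))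
    have t := EE_twist hφ k
    rw [hk2, key as hIs0 hEs0 hxc, key ac hIc0 hEc0 hxs] at t
    have : 0 < k * ∫ z in ball (0 : ℂ) 1, rho φ z := mul_pos hk0 hρ
    linarith
  · set N := Ic ^ 2 + Is ^ 2 with hN
    set a := -(IB * Ic) / N with ha
    set b := (IB * Is) / N with hb
    have aw1 := Adm_lin hφ ac as a (-b)
    have aw2 := Adm_lin hφ ac as b a
    have av1 := Adm_lin hφ aB aw1 1 1
    have z1 : ∫ z in ball (0 : ℂ) 1, rho φ z * (1 * B z + 1 * (a * cc φ k z + (-b) * ss φ k z)) = 0 := by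
      rw [lin aB aw1, lin ac as, ← hIc, ← hIs, ← hIB, ha, hb]
      field_simp
      rw [hN]; ring
    have z2 : ∫ z in ball (0 : ℂ) 1, rho φ z * (b * cc φ k z + a * ss φ k z) = 0 := by
      rw [lin ac as, ← hIc, ← hIs, ha, hb]
      field_simp
      ring
    have p1 := EE_nonneg h av1 z1
    have p2 := EE_nonneg h aw2 z2
    have hBw : EE φ μ B (fun z => a * cc φ k z + (-b) * ss φ k z) = 0 := by
      rw [EE_comm, EE_lin hφ μ ac as aB, EE_comm φ μ (cc φ k), EE_comm φ μ (ss φ k), hBc, hBs]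
      ring
    rw [EE_quad hφ μ aB aw1, EE_quad hφ μ ac as, hBw] at p1
    rw [EE_quad hφ μ ac as] at p2
    have hEs : EE φ μ (ss φ k) (ss φ k) = - EE φ μ (cc φ k) (cc φ k) := by linarith
    rw [hEs] at p1 p2
    nlinarith

end Crest.Agent.R101
end

-- ▼ part R101/Hodge
section

/-! Row 101 (helper157), P3: the Hodge inequality on the disc. -/

set_option autoImplicit false

open MeasureTheory Metric Set Complex ComplexConjugate Filter Topology
open scoped ContDiff InnerProductSpace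

namespace Crest.Agent.R101

namespace Hdg

/-- the disc measure -/
noncomputable abbrev nu : Measure ℂ := volume.restrict (ball (0 : ℂ) 1)

instance : IsFiniteMeasure nu := ⟨by
  rw [Measure.restrict_apply_univ]; exact measure_ball_lt_top⟩

/-- weighted Cauchy–Schwarz -/
theorem wcs {w f g : ℂ → ℝ} (hw : ∀ z, 0 ≤ w z)
    (hf : IntegrableOn (fun z => w z * f z ^ 2) (ball 0 1))
    (hg : IntegrableOn (fun z => w z * g z ^ 2) (ball 0 1))
    (hfg : IntegrableOn (fun z => w z * f z * g z) (ball 0 1)) :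
    (∫ z in ball (0 : ℂ) 1, w z * f z * g z) ^ 2 ≤
      (∫ z in ball (0 : ℂ) 1, w z * f z ^ 2) * ∫ z in ball (0 : ℂ) 1, w z * g z ^ 2 := by
  set a := ∫ z in ball (0 : ℂ) 1, w z * f z ^ 2
  set b := ∫ z in ball (0 : ℂ) 1, w z * f z * g z
  set c := ∫ z in ball (0 : ℂ) 1, w z * g z ^ 2
  have key : ∀ t : ℝ, 0 ≤ c * (t * t) + (-2 * b) * t + a := by
    intro t
    have h1 : c * (t * t) + (-2 * b) * t + a =
        ∫ z in ball (0 : ℂ) 1, w z * (f z - t * g z) ^ 2 := by
      have e : ∀ z, w z * (f z - t * g z) ^ 2 =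
          ((t * t) * (w z * g z ^ 2) + (-2 * t) * (w z * f z * g z)) + w z * f z ^ 2 := by
        intro z; ring
      have i1 : IntegrableOn (fun z => (t * t) * (w z * g z ^ 2)) (ball 0 1) := hg.const_mul _
      have i2 : IntegrableOn (fun z => (-2 * t) * (w z * f z * g z)) (ball 0 1) :=
        hfg.const_mul _
      have i3 : IntegrableOn (fun z => (t * t) * (w z * g z ^ 2) + (-2 * t) * (w z * f z * g z))
          (ball 0 1) := i1.add i2
      simp_rw [e]
      rw [integral_add i3 hf, integral_add i1 i2, integral_const_mul, integral_const_mul]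
      ring
    rw [h1]
    exact integral_nonneg fun z => mul_nonneg (hw z) (sq_nonneg _)
  have := discrim_le_zero key
  rw [discrim] at this
  nlinarith

/-- complex gradient -/
noncomputable def gC (v : ℂ → ℝ) (z : ℂ) : ℂ := (dx v z : ℂ) + dy v z * I

/-- complex rotated gradient -/
noncomputable def rC (v : ℂ → ℝ) (z : ℂ) : ℂ := (dy v z : ℂ) - dx v z * I

theorem gC_re (v : ℂ → ℝ) (z : ℂ) : (gC v z).re = dx v z := by simp [gC]
theorem gC_im (v : ℂ → ℝ) (z : ℂ) : (gC v z).im = dy v z := by simp [gC]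
theorem rC_re (v : ℂ → ℝ) (z : ℂ) : (rC v z).re = dy v z := by simp [rC]
theorem rC_im (v : ℂ → ℝ) (z : ℂ) : (rC v z).im = -dx v z := by simp [rC]

theorem sq_norm_eq (z : ℂ) : ‖z‖ ^ 2 = z.re ^ 2 + z.im ^ 2 := by
  rw [← normSq_eq_norm_sq, normSq_apply]; ring

theorem gC_norm (v : ℂ → ℝ) (z : ℂ) : ‖gC v z‖ ^ 2 = g2 v z := by
  rw [sq_norm_eq, gC_re, gC_im, g2]

theorem rC_norm (v : ℂ → ℝ) (z : ℂ) : ‖rC v z‖ ^ 2 = g2 v z := by
  rw [sq_norm_eq, rC_re, rC_im, g2]; ring

theorem inner_eq (z w : ℂ) : ⟪z, w⟫_ℝ = z.re * w.re + z.im * w.im := by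
  rw [Complex.inner]; simp; ring

theorem gC_meas {v : ℂ → ℝ} (hv : ContDiffOn ℝ 1 v (ball 0 1)) :
    AEStronglyMeasurable (gC v) nu := by
  have h1 : AEStronglyMeasurable (dx v) nu :=
    (FR.cont_dx hv).aestronglyMeasurable measurableSet_ball
  have h2 : AEStronglyMeasurable (dy v) nu :=
    (FR.cont_dy hv).aestronglyMeasurable measurableSet_ball
  unfold gC
  exact (continuous_ofReal.comp_aestronglyMeasurable h1).add
    ((continuous_ofReal.comp_aestronglyMeasurable h2).mul_const I)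

theorem rC_meas {v : ℂ → ℝ} (hv : ContDiffOn ℝ 1 v (ball 0 1)) :
    AEStronglyMeasurable (rC v) nu := by
  have h1 : AEStronglyMeasurable (dx v) nu :=
    (FR.cont_dx hv).aestronglyMeasurable measurableSet_ball
  have h2 : AEStronglyMeasurable (dy v) nu :=
    (FR.cont_dy hv).aestronglyMeasurable measurableSet_ball
  unfold rC
  exact (continuous_ofReal.comp_aestronglyMeasurable h2).sub
    ((continuous_ofReal.comp_aestronglyMeasurable h1).mul_const I)

theorem gC_memLp {v : ℂ → ℝ} (hv : ContDiffOn ℝ 1 v (ball 0 1))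
    (he : IntegrableOn (g2 v) (ball 0 1)) : MemLp (gC v) 2 nu := by
  rw [memLp_two_iff_integrable_sq_norm (gC_meas hv)]
  simp_rw [gC_norm]
  exact he

theorem rC_memLp {v : ℂ → ℝ} (hv : ContDiffOn ℝ 1 v (ball 0 1))
    (he : IntegrableOn (g2 v) (ball 0 1)) : MemLp (rC v) 2 nu := by
  rw [memLp_two_iff_integrable_sq_norm (rC_meas hv)]
  simp_rw [rC_norm]
  exact he

/-! ### test functions -/

theorem smc {v : ℂ → ℝ} (hv : ContDiff ℝ ∞ v) : ContDiff ℝ 1 v :=
  hv.of_le (by exact_mod_cast le_top)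

theorem en_of {v : ℂ → ℝ} (hv : ContDiff ℝ ∞ v) : IntegrableOn (g2 v) (ball 0 1) := by
  have h1 : Continuous (g2 v) := by
    have : Continuous (fderiv ℝ v) := hv.continuous_fderiv (by simp)
    unfold g2 dx dy
    fun_prop
  exact (h1.continuousOn.integrableOn_compact (isCompact_closedBall (0 : ℂ) 1)).mono_set
    ball_subset_closedBall

theorem testAdm {φ : ℂ → ℂ} (hφ : Conf φ) {v : ℂ → ℝ} (hv : ContDiff ℝ ∞ v) : Adm φ v where
  c1 := (smc hv).contDiffOn
  l2 := by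
    obtain ⟨C, hC⟩ := (isCompact_closedBall (0 : ℂ) 1).exists_bound_of_continuousOn
      hv.continuous.continuousOn
    have h1 : IntegrableOn (fun z => C ^ 2 * rho φ z) (ball 0 1) := hφ.rho_int.const_mul _
    refine Integrable.mono' h1 ?_ ?_
    · exact ((FR.cont_rho hφ).mul (hv.continuous.continuousOn.pow 2)).aestronglyMeasurable
        measurableSet_ball
    · refine (ae_restrict_iff' measurableSet_ball).2 (Eventually.of_forall fun z hz => ?_)
      have h0 := FR.rho_nonneg φ z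
      rw [Real.norm_eq_abs, abs_of_nonneg (by positivity), mul_comm]
      refine mul_le_mul_of_nonneg_right ?_ h0
      have := hC z (ball_subset_closedBall hz)
      rw [Real.norm_eq_abs] at this
      nlinarith [abs_nonneg (v z), sq_abs (v z)]
  en := en_of hv

theorem smLin {v w : ℂ → ℝ} (hv : ContDiff ℝ ∞ v) (hw : ContDiff ℝ ∞ w) (a b : ℝ) :
    ContDiff ℝ ∞ (fun z => a * v z + b * w z) :=
  (contDiff_const.mul hv).add (contDiff_const.mul hw)

theorem gC_lin {v w : ℂ → ℝ} (hv : ContDiffOn ℝ 1 v (ball 0 1))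
    (hw : ContDiffOn ℝ 1 w (ball 0 1)) (a b : ℝ) {z : ℂ} (hz : z ∈ ball (0 : ℂ) 1) :
    gC (fun z => a * v z + b * w z) z = a * gC v z + b * gC w z := by
  simp only [gC, FR.dx_lin (FR.diffAt hv hz) (FR.diffAt hw hz),
    FR.dy_lin (FR.diffAt hv hz) (FR.diffAt hw hz)]
  push_cast; ring

theorem rC_lin {v w : ℂ → ℝ} (hv : ContDiffOn ℝ 1 v (ball 0 1))
    (hw : ContDiffOn ℝ 1 w (ball 0 1)) (a b : ℝ) {z : ℂ} (hz : z ∈ ball (0 : ℂ) 1) :
    rC (fun z => a * v z + b * w z) z = a * rC v z + b * rC w z := by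
  simp only [rC, FR.dx_lin (FR.diffAt hv hz) (FR.diffAt hw hz),
    FR.dy_lin (FR.diffAt hv hz) (FR.diffAt hw hz)]
  push_cast; ring

/-- compactly supported smooth functions of the disc -/
structure Cs (B : ℂ → ℝ) : Prop where
  sm : ContDiff ℝ ∞ B
  cs : HasCompactSupport B
  ts : tsupport B ⊆ ball 0 1

theorem Cs.c1 {B : ℂ → ℝ} (h : Cs B) : ContDiff ℝ 1 B := h.sm.of_le (by exact_mod_cast le_top)

theorem Cs.circ {B : ℂ → ℝ} (h : Cs B) (z : ℂ) (hz : ‖z‖ = 1) : B z = 0 := by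
  refine image_eq_zero_of_notMem_tsupport fun hm => ?_
  have := h.ts hm
  rw [mem_ball_zero_iff, hz] at this
  exact lt_irrefl _ this

theorem Cs.lin {v w : ℂ → ℝ} (hv : Cs v) (hw : Cs w) (a b : ℝ) :
    Cs (fun z => a * v z + b * w z) where
  sm := (contDiff_const.mul hv.sm).add (contDiff_const.mul hw.sm)
  cs := by
    refine HasCompactSupport.add (f := fun z => a * v z) (f' := fun z => b * w z) ?_ ?_
    · exact hv.cs.mul_left
    · exact hw.cs.mul_left
  ts := by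
    have h1 : tsupport (fun z => a * v z + b * w z) ⊆ tsupport v ∪ tsupport w := by
      refine closure_minimal ?_ ((isClosed_tsupport v).union (isClosed_tsupport w))
      intro z hz
      by_contra hne
      rw [mem_union, not_or] at hne
      apply hz
      simp only [image_eq_zero_of_notMem_tsupport hne.1, image_eq_zero_of_notMem_tsupport hne.2,
        mul_zero, add_zero]
    exact h1.trans (union_subset hv.ts hw.ts)

/-- space of gradients -/
noncomputable def GG : Submodule ℝ (Lp ℂ 2 nu) where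
  carrier := {x | ∃ v, ContDiff ℝ ∞ v ∧ x =ᵐ[nu] gC v}
  add_mem' := by
    rintro x y ⟨v, hv, hx⟩ ⟨w, hw, hy⟩
    refine ⟨fun z => 1 * v z + 1 * w z, smLin hv hw 1 1, ?_⟩
    filter_upwards [Lp.coeFn_add x y, hx, hy, ae_restrict_mem measurableSet_ball]
      with z h1 h2 h3 hz
    rw [h1, Pi.add_apply, h2, h3, gC_lin (smc hv).contDiffOn (smc hw).contDiffOn 1 1 hz]
    simp only [ofReal_one, one_mul]
  zero_mem' := by
    refine ⟨fun _ => 0, contDiff_const, ?_⟩
    filter_upwards [Lp.coeFn_zero ℂ 2 nu] with z h1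
    rw [h1]; simp [gC, dx, dy]
  smul_mem' := by
    rintro c x ⟨v, hv, hx⟩
    refine ⟨fun z => c * v z + 0 * v z, smLin hv hv c 0, ?_⟩
    filter_upwards [Lp.coeFn_smul c x, hx, ae_restrict_mem measurableSet_ball] with z h1 h2 hz
    rw [h1, Pi.smul_apply, h2, gC_lin (smc hv).contDiffOn (smc hv).contDiffOn c 0 hz, real_smul]
    simp only [ofReal_zero, zero_mul, add_zero]

/-- space of rotated gradients -/
noncomputable def KK : Submodule ℝ (Lp ℂ 2 nu) where
  carrier := {x | ∃ B, Cs B ∧ x =ᵐ[nu] rC B}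
  add_mem' := by
    rintro x y ⟨v, hv, hx⟩ ⟨w, hw, hy⟩
    refine ⟨fun z => 1 * v z + 1 * w z, Cs.lin hv hw 1 1, ?_⟩
    filter_upwards [Lp.coeFn_add x y, hx, hy, ae_restrict_mem measurableSet_ball]
      with z h1 h2 h3 hz
    rw [h1, Pi.add_apply, h2, h3, rC_lin hv.c1.contDiffOn hw.c1.contDiffOn 1 1 hz]
    simp only [ofReal_one, one_mul]
  zero_mem' := by
    refine ⟨fun _ => 0, ⟨contDiff_const, HasCompactSupport.zero, ?_⟩, ?_⟩
    · rw [show (fun _ : ℂ => (0 : ℝ)) = 0 from rfl, tsupport_zero]; exact empty_subset _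
    · filter_upwards [Lp.coeFn_zero ℂ 2 nu] with z h1
      rw [h1]; simp [rC, dx, dy]
  smul_mem' := by
    rintro c x ⟨v, hv, hx⟩
    refine ⟨fun z => c * v z + 0 * v z, Cs.lin hv hv c 0, ?_⟩
    filter_upwards [Lp.coeFn_smul c x, hx, ae_restrict_mem measurableSet_ball] with z h1 h2 hz
    rw [h1, Pi.smul_apply, h2, rC_lin hv.c1.contDiffOn hv.c1.contDiffOn c 0 hz, real_smul]
    simp only [ofReal_zero, zero_mul, add_zero]

theorem inner_congr (x y : Lp ℂ 2 nu) {f g : ℂ → ℂ} (hx : x =ᵐ[nu] f) (hy : y =ᵐ[nu] g) :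
    ⟪x, y⟫_ℝ = ∫ z in ball (0 : ℂ) 1, ((f z).re * (g z).re + (f z).im * (g z).im) := by
  rw [L2.inner_def]
  refine integral_congr_ae ?_
  filter_upwards [hx, hy] with z h1 h2
  rw [h1, h2, inner_eq]

theorem normsq_congr (x : Lp ℂ 2 nu) {f : ℂ → ℂ} (hx : x =ᵐ[nu] f) :
    ‖x‖ ^ 2 = ∫ z in ball (0 : ℂ) 1, ‖f z‖ ^ 2 := by
  rw [← real_inner_self_eq_norm_sq, inner_congr x x hx hx]
  refine integral_congr_ae (Eventually.of_forall fun z => ?_)
  simp only [sq_norm_eq]; ring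

/-! ### orthogonality of gradients and rotated gradients -/

theorem orth {v B : ℂ → ℝ} (hv : ContDiffOn ℝ 1 v (ball 0 1)) (hB : Cs B) :
    ∫ z in ball (0 : ℂ) 1, (dx v z * dy B z - dy v z * dx B z) = 0 := by
  have hsm : ContDiff ℝ ∞ (fderiv ℝ B) := hB.sm.fderiv_right (by simp)
  have hdx : ContDiff ℝ ∞ (dx B) := hsm.clm_apply contDiff_const
  have hdy : ContDiff ℝ ∞ (dy B) := hsm.clm_apply contDiff_const
  have cdx : HasCompactSupport (dx B) := hB.cs.fderiv_apply ℝ 1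
  have cdy : HasCompactSupport (dy B) := hB.cs.fderiv_apply ℝ I
  have tdx : tsupport (dx B) ⊆ ball 0 1 := (tsupport_fderiv_apply_subset ℝ 1).trans hB.ts
  have tdy : tsupport (dy B) ⊆ ball 0 1 := (tsupport_fderiv_apply_subset ℝ I).trans hB.ts
  have e1 := FR.ibp (hdy.of_le (by exact_mod_cast le_top)) cdy tdy hv 1
  have e2 := FR.ibp (hdx.of_le (by exact_mod_cast le_top)) cdx tdx hv I
  have hsymm : ∀ z, fderiv ℝ (dy B) z 1 = fderiv ℝ (dx B) z I := by
    intro z
    have hs : IsSymmSndFDerivAt ℝ B z :=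
      hB.sm.contDiffAt.isSymmSndFDerivAt (by
        simp only [minSmoothness_of_isRCLikeNormedField]
        exact WithTop.coe_le_coe.2 (le_top : (2 : ℕ∞) ≤ ⊤))
    have hd : DifferentiableAt ℝ (fderiv ℝ B) z := hsm.differentiable (by simp) z
    have a1 : fderiv ℝ (dy B) z 1 = fderiv ℝ (fderiv ℝ B) z 1 I := by
      have h1 := hd.hasFDerivAt.clm_apply (hasFDerivAt_const I z)
      have h2 : fderiv ℝ (dy B) z = _ := h1.fderiv
      rw [h2]; simp
    have a2 : fderiv ℝ (dx B) z I = fderiv ℝ (fderiv ℝ B) z I 1 := by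
      have h1 := hd.hasFDerivAt.clm_apply (hasFDerivAt_const (1 : ℂ) z)
      have h2 : fderiv ℝ (dx B) z = _ := h1.fderiv
      rw [h2]; simp
    rw [a1, a2]
    exact hs 1 I
  have i1 : IntegrableOn (fun z => dx v z * dy B z) (ball 0 1) := by
    have := (FR.integrable_mul hdy.continuous cdy tdy (FR.cont_dx hv)).integrableOn
      (s := ball (0 : ℂ) 1)
    refine this.congr_fun (fun z _ => mul_comm _ _) measurableSet_ball
  have i2 : IntegrableOn (fun z => dy v z * dx B z) (ball 0 1) := by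
    have := (FR.integrable_mul hdx.continuous cdx tdx (FR.cont_dy hv)).integrableOn
      (s := ball (0 : ℂ) 1)
    refine this.congr_fun (fun z _ => mul_comm _ _) measurableSet_ball
  rw [integral_sub i1 i2]
  have f1 : ∫ z in ball (0 : ℂ) 1, dx v z * dy B z =
      ∫ z in ball (0 : ℂ) 1, dy B z * fderiv ℝ v z 1 :=
    integral_congr_ae (Eventually.of_forall fun z => mul_comm _ _)
  have f2 : ∫ z in ball (0 : ℂ) 1, dy v z * dx B z =
      ∫ z in ball (0 : ℂ) 1, dx B z * fderiv ℝ v z I :=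
    integral_congr_ae (Eventually.of_forall fun z => mul_comm _ _)
  rw [f1, f2]
  simp_rw [hsymm] at e1
  linarith

/-- `v = Re (c z^(k+1)) / (k+1)` -/
theorem powTest (c : ℂ) (k : ℕ) :
    ∃ v : ℂ → ℝ, ContDiff ℝ ∞ v ∧ ∀ z, gC v z = conj (c * z ^ k) := by
  refine ⟨fun z => (c / (k + 1) * z ^ (k + 1)).re, ?_, ?_⟩
  · have h1 : ContDiff ℝ ∞ fun z : ℂ => c / (k + 1) * z ^ (k + 1) :=
      contDiff_const.mul (contDiff_id.pow _)
    exact reCLM.contDiff.comp h1
  · intro z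
    have hk : (k + 1 : ℂ) ≠ 0 := by exact_mod_cast Nat.succ_ne_zero k
    have h1 : HasDerivAt (fun z : ℂ => c / (k + 1) * z ^ (k + 1)) (c * z ^ k) z := by
      have := (hasDerivAt_pow (k + 1) z).const_mul (c / (k + 1))
      refine this.congr_deriv ?_
      push_cast
      field_simp
    have h2 := (reCLM.hasFDerivAt.comp z (h1.hasFDerivAt.restrictScalars ℝ)).fderiv
    have h3 : (reCLM ∘ fun z : ℂ => c / (k + 1) * z ^ (k + 1)) =
      fun z : ℂ => (c / (k + 1) * z ^ (k + 1)).re := rfl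
    rw [h3] at h2
    unfold gC dx dy
    rw [h2]
    generalize c * z ^ k = w
    apply Complex.ext
    · simp
    · simp

theorem perp (x : Lp ℂ 2 nu) (hG : ∀ g ∈ GG, ⟪g, x⟫_ℝ = 0) (hK : ∀ k ∈ KK, ⟪k, x⟫_ℝ = 0) :
    x = 0 := by
  have hx2 : MemLp x 2 nu := Lp.memLp x
  have hx1 : Integrable x nu := hx2.integrable (by norm_num)
  have hG' : ∀ v, ContDiff ℝ ∞ v → ∫ z in ball (0 : ℂ) 1,
      ((gC v z).re * (x z).re + (gC v z).im * (x z).im) = 0 := by
    intro v hv
    have hm := gC_memLp (smc hv).contDiffOn (en_of hv)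
    have hmem : hm.toLp (gC v) ∈ GG := ⟨v, hv, hm.coeFn_toLp⟩
    rw [← inner_congr _ _ hm.coeFn_toLp (EventuallyEq.refl _ _)]
    exact hG _ hmem
  have hK' : ∀ B, Cs B → ∫ z in ball (0 : ℂ) 1,
      ((rC B z).re * (x z).re + (rC B z).im * (x z).im) = 0 := by
    intro B hB
    have hm := rC_memLp hB.c1.contDiffOn (en_of hB.sm)
    have hmem : hm.toLp (rC B) ∈ KK := ⟨B, hB, hm.coeFn_toLp⟩
    rw [← inner_congr _ _ hm.coeFn_toLp (EventuallyEq.refl _ _)]
    exact hK _ hmem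
  have hF : IntegrableOn (fun z => conj (x z)) (ball 0 1) := by
    have := (conjCLE : ℂ →L[ℝ] ℂ).integrable_comp hx1
    exact this
  have hzero : ∀ᵐ z ∂nu, conj (x z) = 0 := by
    refine hol_zero hF ?_ ?_
    · intro B hB hc hs
      have hCs : Cs B := ⟨hB, hc, hs⟩
      have hcont : Continuous (gC B) := by
        have : Continuous (fderiv ℝ B) := hCs.c1.continuous_fderiv one_ne_zero
        unfold gC dx dy
        fun_prop
      obtain ⟨C, hC⟩ := (isCompact_closedBall (0 : ℂ) 1).exists_bound_of_continuousOn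
        hcont.continuousOn
      have hint : IntegrableOn (fun z => conj (x z) * ((dx B z : ℂ) + dy B z * I)) (ball 0 1) := by
        refine Integrable.mul_bdd (c := C) hF hcont.aestronglyMeasurable ?_
        refine (ae_restrict_iff' measurableSet_ball).2 (Eventually.of_forall fun z hz => ?_)
        exact hC z (ball_subset_closedBall hz)
      apply Complex.ext
      · have := (reCLM.integral_comp_comm hint).symm
        simp only [reCLM_apply] at this
        rw [this, zero_re, ← hG' B hB]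
        refine integral_congr_ae (Eventually.of_forall fun z => ?_)
        simp only [gC_re, gC_im]
        simp
        ring
      · have := (imCLM.integral_comp_comm hint).symm
        simp only [imCLM_apply] at this
        rw [this, zero_im, ← hK' B hCs]
        refine integral_congr_ae (Eventually.of_forall fun z => ?_)
        simp only [rC_re, rC_im]
        simp
        ring
    · intro k
      have hint : IntegrableOn (fun z => x z * z ^ k) (ball 0 1) := by
        refine Integrable.mul_bdd (c := 1) hx1 (Continuous.aestronglyMeasurable (by fun_prop)) ?_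
        refine (ae_restrict_iff' measurableSet_ball).2 (Eventually.of_forall fun z hz => ?_)
        have hz1 : ‖z‖ ≤ 1 := by
          simpa using (ball_subset_closedBall hz : z ∈ closedBall (0 : ℂ) 1)
        rw [norm_pow]; exact pow_le_one₀ (norm_nonneg _) hz1
      have e : ∫ z in ball (0 : ℂ) 1, conj (x z) * conj z ^ k =
          conj (∫ z in ball (0 : ℂ) 1, x z * z ^ k) := by
        rw [← integral_conj]
        refine integral_congr_ae (Eventually.of_forall fun z => ?_)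
        simp
      rw [e]
      have : ∫ z in ball (0 : ℂ) 1, x z * z ^ k = 0 := by
        apply Complex.ext
        · have h1 := (reCLM.integral_comp_comm hint).symm
          simp only [reCLM_apply] at h1
          obtain ⟨v, hv, hvg⟩ := powTest 1 k
          rw [h1, zero_re, ← hG' v hv]
          refine integral_congr_ae (Eventually.of_forall fun z => ?_)
          simp only [hvg]
          generalize z ^ k = w
          simp
          try ring
        · have h1 := (imCLM.integral_comp_comm hint).symm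
          simp only [imCLM_apply] at h1
          obtain ⟨v, hv, hvg⟩ := powTest (-I) k
          rw [h1, zero_im, ← hG' v hv]
          refine integral_congr_ae (Eventually.of_forall fun z => ?_)
          simp only [hvg]
          generalize z ^ k = w
          simp
          try ring
      rw [this]; simp
  rw [Lp.eq_zero_iff_ae_eq_zero]
  filter_upwards [hzero] with z hz
  simpa using hz

end Hdg

/-- P3 (Hodge inequality).  `V = (V1, V2)`; `p` = weak divergence (including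
tangentiality), `r` = weak curl, both with weight `ρ` (signs: `∫ V·∇v = ∫ ρ p v`,
`∫ V·(∂_y B, -∂_x B) = ∫ ρ r B`). -/
theorem hodge {φ : ℂ → ℂ} {U : ℂ → ℝ} {μ : ℝ} (h : Setting φ U μ)
    {V1 V2 p r : ℂ → ℝ}
    (hV1 : AEStronglyMeasurable V1 (volume.restrict (ball 0 1)))
    (hV2 : AEStronglyMeasurable V2 (volume.restrict (ball 0 1)))
    (hp : AEStronglyMeasurable p (volume.restrict (ball 0 1)))
    (hr : AEStronglyMeasurable r (volume.restrict (ball 0 1)))
    (hV : IntegrableOn (fun z => V1 z ^ 2 + V2 z ^ 2) (ball 0 1))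
    (hp2 : IntegrableOn (fun z => rho φ z * p z ^ 2) (ball 0 1))
    (hr2 : IntegrableOn (fun z => rho φ z * r z ^ 2) (ball 0 1))
    (hdiv : ∀ v : ℂ → ℝ, ContDiff ℝ ∞ v → ∫ z in ball (0 : ℂ) 1, (V1 z * dx v z + V2 z * dy v z) =
      ∫ z in ball (0 : ℂ) 1, rho φ z * p z * v z)
    (hcurl : ∀ B : ℂ → ℝ, ContDiff ℝ ∞ B → (∀ z, ‖z‖ = 1 → B z = 0) →
      ∫ z in ball (0 : ℂ) 1, (V1 z * dy B z - V2 z * dx B z) =
      ∫ z in ball (0 : ℂ) 1, rho φ z * r z * B z) :
    μ * ∫ z in ball (0 : ℂ) 1, (V1 z ^ 2 + V2 z ^ 2) ≤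
      (∫ z in ball (0 : ℂ) 1, rho φ z * p z ^ 2) + ∫ z in ball (0 : ℂ) 1, rho φ z * r z ^ 2 := by
  open Hdg in
  have hφ := h.conf
  have hμ := h.μpos
  set Pp := ∫ z in ball (0 : ℂ) 1, rho φ z * p z ^ 2 with hPp
  set Rr := ∫ z in ball (0 : ℂ) 1, rho φ z * r z ^ 2 with hRr
  have hP0 : 0 ≤ Pp := integral_nonneg fun z => mul_nonneg (FR.rho_nonneg φ z) (sq_nonneg _)
  have hR0 : 0 ≤ Rr := integral_nonneg fun z => mul_nonneg (FR.rho_nonneg φ z) (sq_nonneg _)
  have hrm : AEStronglyMeasurable (rho φ) nu :=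
    (FR.cont_rho hφ).aestronglyMeasurable measurableSet_ball
  -- integrability of `ρ q v`
  have hint : ∀ q : ℂ → ℝ, AEStronglyMeasurable q nu →
      IntegrableOn (fun z => rho φ z * q z ^ 2) (ball 0 1) → ∀ v, Adm φ v →
      IntegrableOn (fun z => rho φ z * q z * v z) (ball 0 1) := by
    intro q hq hq2 v hv
    refine Integrable.mono' (hq2.add hv.l2)
      ((hrm.mul hq).mul (hv.c1.continuousOn.aestronglyMeasurable measurableSet_ball)) ?_
    refine ae_of_all _ fun z => ?_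
    have h0 := FR.rho_nonneg φ z
    simp only [Pi.add_apply, Real.norm_eq_abs]
    rw [mul_assoc, abs_mul, abs_of_nonneg h0, ← mul_add]
    refine mul_le_mul_of_nonneg_left ?_ h0
    rw [abs_le]
    constructor <;> nlinarith [sq_nonneg (q z + v z), sq_nonneg (q z - v z), sq_nonneg (v z),
      sq_nonneg (q z)]
  -- the vector field
  set VC : ℂ → ℂ := fun z => (V1 z : ℂ) + V2 z * I with hVC
  have hVCm : AEStronglyMeasurable VC nu :=
    (continuous_ofReal.comp_aestronglyMeasurable hV1).add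
      ((continuous_ofReal.comp_aestronglyMeasurable hV2).mul_const I)
  have hVCre : ∀ z, (VC z).re = V1 z := fun z => by simp [hVC]
  have hVCim : ∀ z, (VC z).im = V2 z := fun z => by simp [hVC]
  have hVCn : ∀ z, ‖VC z‖ ^ 2 = V1 z ^ 2 + V2 z ^ 2 := fun z => by
    rw [sq_norm_eq, hVCre, hVCim]
  have hVL : MemLp VC 2 nu := by
    rw [memLp_two_iff_integrable_sq_norm hVCm]
    simp_rw [hVCn]; exact hV
  set X : Lp ℂ 2 nu := hVL.toLp VC with hX
  have hXe : X =ᵐ[nu] VC := hVL.coeFn_toLp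
  -- mean zero of `p`
  have hp0 : ∫ z in ball (0 : ℂ) 1, rho φ z * p z = 0 := by
    have := hdiv (fun _ => 1) contDiff_const
    simp only [mul_one] at this
    rw [← this]
    have : ∀ z : ℂ, V1 z * dx (fun _ => (1 : ℝ)) z + V2 z * dy (fun _ => (1 : ℝ)) z = 0 := by
      intro z; simp [dx, dy]
    simp_rw [this]; simp
  have main := hodge_abstract GG KK (V := X) (A := Real.sqrt (Pp / μ)) (B := Real.sqrt (Rr / μ))
    ?_ perp (Real.sqrt_nonneg _) (Real.sqrt_nonneg _) ?_ ?_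
  · rw [Real.sq_sqrt (by positivity), Real.sq_sqrt (by positivity), normsq_congr X hXe] at main
    simp_rw [hVCn] at main
    have h1 := mul_le_mul_of_nonneg_left main hμ.le
    have h2 : μ * (Pp / μ + Rr / μ) = Pp + Rr := by field_simp
    linarith
  · rintro g ⟨v, hv, hg⟩ k ⟨B, hB, hk⟩
    rw [inner_congr g k hg hk, ← orth (smc hv).contDiffOn hB]
    refine integral_congr_ae (Eventually.of_forall fun z => ?_)
    simp only [gC_re, gC_im, rC_re, rC_im]
    ring
  · rintro g ⟨v, hv, hg⟩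
    have hadm := testAdm hφ hv
    have h1a : Adm φ (fun _ => (1 : ℝ)) := testAdm hφ contDiff_const
    have hI : ⟪X, g⟫_ℝ = ∫ z in ball (0 : ℂ) 1, rho φ z * p z * v z := by
      rw [inner_congr X g hXe hg, ← hdiv v hv]
      refine integral_congr_ae (Eventually.of_forall fun z => ?_)
      simp only [gC_re, gC_im, hVCre, hVCim]
    have hn : ‖g‖ ^ 2 = ∫ z in ball (0 : ℂ) 1, g2 v z := by
      rw [normsq_congr g hg]; simp_rw [gC_norm]
    have hpos := FR.rho_integral_pos hφ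
    set c := (∫ z in ball (0 : ℂ) 1, rho φ z * v z) / ∫ z in ball (0 : ℂ) 1, rho φ z with hc
    have hvc : Adm φ (fun z => 1 * v z + (-c) * 1) := FR.Adm_lin hφ hadm h1a 1 (-c)
    have hi1 := FR.int_rho1 hφ hadm
    have hmz : ∫ z in ball (0 : ℂ) 1, rho φ z * (1 * v z + (-c) * 1) = 0 := by
      have e : ∀ z, rho φ z * (1 * v z + (-c) * 1) = rho φ z * v z - c * rho φ z := by
        intro z; ring
      simp_rw [e]
      rw [integral_sub hi1 (hφ.rho_int.const_mul c), integral_const_mul, hc]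
      field_simp
      ring
    have hray := h.ray _ hvc hmz
    have hg2 : ∫ z in ball (0 : ℂ) 1, g2 (fun z => 1 * v z + (-c) * 1) z =
        ∫ z in ball (0 : ℂ) 1, g2 v z := by
      refine setIntegral_congr_fun measurableSet_ball fun z hz => ?_
      rw [FR.g2_lin hadm.c1 h1a.c1 1 (-c) hz]
      simp [g2, ip, dx, dy]
    rw [hg2, ← hn] at hray
    have hipv : ∫ z in ball (0 : ℂ) 1, rho φ z * p z * v z =
        ∫ z in ball (0 : ℂ) 1, rho φ z * p z * (1 * v z + (-c) * 1) := by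
      have e : ∀ z, rho φ z * p z * (1 * v z + (-c) * 1) =
          rho φ z * p z * v z - c * (rho φ z * p z * 1) := by
        intro z; ring
      simp_rw [e]
      rw [integral_sub (hint p hp hp2 v hadm) ((hint p hp hp2 _ h1a).const_mul c),
        integral_const_mul]
      simp_rw [mul_one]
      rw [hp0]; ring
    have hcs := wcs (FR.rho_nonneg φ) hp2 hvc.l2 (hint p hp hp2 _ hvc)
    rw [hI, hipv]
    refine (le_abs_self _).trans ?_
    rw [← Real.sqrt_sq (norm_nonneg g), ← Real.sqrt_mul (by positivity), ← Real.sqrt_sq_eq_abs]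
    apply Real.sqrt_le_sqrt
    refine hcs.trans ?_
    rw [div_mul_eq_mul_div, le_div_iff₀ hμ]
    have := mul_le_mul_of_nonneg_left hray hP0
    nlinarith
  · rintro k ⟨B, hB, hk⟩
    have hadm := testAdm hφ hB.sm
    have hI : ⟪X, k⟫_ℝ = ∫ z in ball (0 : ℂ) 1, rho φ z * r z * B z := by
      rw [inner_congr X k hXe hk, ← hcurl B hB.sm hB.circ]
      refine integral_congr_ae (Eventually.of_forall fun z => ?_)
      simp only [rC_re, rC_im, hVCre, hVCim]
      ring
    have hn : ‖k‖ ^ 2 = ∫ z in ball (0 : ℂ) 1, g2 B z := by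
      rw [normsq_congr k hk]; simp_rw [rC_norm]
    have hfr := dirichlet_ge h hB.sm hB.cs hB.ts
    rw [← hn] at hfr
    have hcs := wcs (FR.rho_nonneg φ) hr2 hadm.l2 (hint r hr hr2 _ hadm)
    rw [hI]
    refine (le_abs_self _).trans ?_
    rw [← Real.sqrt_sq (norm_nonneg k), ← Real.sqrt_mul (by positivity), ← Real.sqrt_sq_eq_abs]
    apply Real.sqrt_le_sqrt
    refine hcs.trans ?_
    rw [div_mul_eq_mul_div, le_div_iff₀ hμ]
    have := mul_le_mul_of_nonneg_left hfr hR0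
    nlinarith

end Crest.Agent.R101
end

-- ▼ part R101/EnE
section

/-! Row 101, part P5 (helper251): assembly of the energy inequality (with the `A`-energy identity
as a hypothesis). -/

set_option autoImplicit false

open MeasureTheory Metric Set Filter Topology Complex
open scoped ContDiff ComplexConjugate

namespace Crest.Agent.R101.En

open Crest.Agent.R101

variable {φ : ℂ → ℂ} {U W : ℂ → ℝ} {μ c0 : ℝ} {β : ℂ}

theorem ae_D0 : ∀ᵐ z ∂(volume.restrict (ball (0:ℂ) 1)), z ∈ D0 := by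
  filter_upwards [ae_restrict_mem measurableSet_ball, ae_ne_zero_disc] with z hz hz0
  exact ⟨hz, by simpa using hz0⟩

/-- first component of the field `V`. -/
noncomputable def V1 (φ : ℂ → ℂ) (W : ℂ → ℝ) (c0 : ℝ) (β z : ℂ) : ℝ :=
  VA1 β W z + c0 * (TT φ β z).re
/-- second component of the field `V`. -/
noncomputable def V2 (φ : ℂ → ℂ) (W : ℂ → ℝ) (c0 : ℝ) (β z : ℂ) : ℝ :=
  VA2 β W z - c0 * (TT φ β z).im

/-- `h = μ M W conj(φ') + c0 conj((M φ)')`. -/
noncomputable def hh (φ : ℂ → ℂ) (W : ℂ → ℝ) (μ c0 : ℝ) (β z : ℂ) : ℂ :=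
  (μ : ℂ) * MM β z * (W z : ℂ) * conj (deriv φ z) + (c0 : ℂ) * conj (hp φ β z)

noncomputable def pp (φ : ℂ → ℂ) (W : ℂ → ℝ) (μ c0 : ℝ) (β z : ℂ) : ℝ :=
  (hh φ W μ c0 β z / conj (deriv φ z)).re
noncomputable def rr (φ : ℂ → ℂ) (W : ℂ → ℝ) (μ c0 : ℝ) (β z : ℂ) : ℝ :=
  (hh φ W μ c0 β z / conj (deriv φ z)).im

theorem dphi_ne (h : Conf φ) {z : ℂ} (hz : z ∈ D0) : deriv φ z ≠ 0 :=
  Crest.Agent.Lib.deriv_ne_zero_of_injOn isOpen_ball h.holo h.inj hz.1

theorem rho_mul_div (h : Conf φ) {z : ℂ} (hz : z ∈ D0) (x : ℂ) :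
    ((rho φ z : ℝ) : ℂ) * (x / conj (deriv φ z)) = deriv φ z * x := by
  have hne := dphi_ne h hz
  have hne' : conj (deriv φ z) ≠ 0 := by simpa using hne
  rw [rho, ← normSq_eq_norm_sq, ← Complex.mul_conj]
  field_simp

theorem rho_pp (h : Conf φ) {z : ℂ} (hz : z ∈ D0) :
    rho φ z * pp φ W μ c0 β z = (deriv φ z * hh φ W μ c0 β z).re := by
  rw [← rho_mul_div h hz, re_ofReal_mul, pp]

theorem rho_rr (h : Conf φ) {z : ℂ} (hz : z ∈ D0) :
    rho φ z * rr φ W μ c0 β z = (deriv φ z * hh φ W μ c0 β z).im := by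
  rw [← rho_mul_div h hz, im_ofReal_mul, rr]

theorem rho_pr_sq (h : Conf φ) {z : ℂ} (hz : z ∈ D0) :
    rho φ z * pp φ W μ c0 β z ^ 2 + rho φ z * rr φ W μ c0 β z ^ 2 = ‖hh φ W μ c0 β z‖ ^ 2 := by
  have hne := dphi_ne h hz
  have h1 : ‖hh φ W μ c0 β z / conj (deriv φ z)‖ ^ 2 = pp φ W μ c0 β z ^ 2 + rr φ W μ c0 β z ^ 2 := by
    rw [← normSq_eq_norm_sq, normSq_apply, pp, rr]; ring
  rw [← mul_add, ← h1, norm_div, norm_conj, rho, div_pow]
  have : ‖deriv φ z‖ ≠ 0 := by simpa using hne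
  field_simp

theorem ofReal_rho (z : ℂ) : ((rho φ z : ℝ) : ℂ) = deriv φ z * conj (deriv φ z) := by
  rw [rho, ← normSq_eq_norm_sq, ← Complex.mul_conj]

/-- components identity for `φ' h`. -/
theorem dphi_hh (z : ℂ) : deriv φ z * hh φ W μ c0 β z =
    (rho φ z * (c0 + μ * W z) : ℝ) * MM β z
      - (c0 : ℂ) * (2 * I * (RR β z : ℂ) * (deriv φ z * conj (deriv φ z))
      - deriv φ z * conj (MM' β z * φ z)) := by
  have h1 : (MM β z) - conj (MM β z) = 2 * I * (RR β z : ℂ) := by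
    rw [RR]
    apply Complex.ext <;> simp <;> ring
  rw [hh, hp, map_add, map_mul (starRingEnd ℂ) (MM β z)]
  push_cast
  rw [ofReal_rho, ← h1]
  ring

section

variable (h : Setting φ U μ) (hW : WSet φ W μ c0) (hβ : ‖β‖ = 1)

theorem gr_mul_TT (v : ℂ → ℝ) (z : ℂ) : ((TT φ β z) * gr v z).re =
    (TT φ β z).re * dx v z - (TT φ β z).im * dy v z := by
  rw [mul_re, gr_re, gr_im]

theorem gr_mul_TT' (v : ℂ → ℝ) (z : ℂ) : (-I * ((TT φ β z) * gr v z)).re =
    (TT φ β z).re * dy v z + (TT φ β z).im * dx v z := by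
  simp only [mul_re, mul_im, neg_re, neg_im, I_re, I_im, gr_re, gr_im]
  ring

include hW hβ in
theorem weak_div (hc : Conf φ) {v : ℂ → ℝ} (hv : ContDiff ℝ ∞ v) :
    ∫ z in ball (0 : ℂ) 1, (V1 φ W c0 β z * dx v z + V2 φ W c0 β z * dy v z) =
      ∫ z in ball (0 : ℂ) 1, rho φ z * pp φ W μ c0 β z * v z := by
  obtain ⟨i1, i2, e12⟩ := div_A hc hW hβ hv
  obtain ⟨j1, j2, f12⟩ := TT_weak hc hβ hv (c := 1) (by simp)
  have e1 : ∫ z in ball (0 : ℂ) 1, (V1 φ W c0 β z * dx v z + V2 φ W c0 β z * dy v z) =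
      (∫ z in ball (0 : ℂ) 1, (VA1 β W z * dx v z + VA2 β W z * dy v z)) +
      ∫ z in ball (0 : ℂ) 1, c0 * (1 * (TT φ β z * gr v z)).re := by
    rw [← integral_add i1 (j1.const_mul c0)]
    apply integral_congr_ae
    refine Eventually.of_forall fun z => ?_
    simp only [one_mul]
    rw [gr_mul_TT, V1, V2]
    ring
  have e2 : ∫ z in ball (0 : ℂ) 1, rho φ z * pp φ W μ c0 β z * v z =
      (∫ z in ball (0 : ℂ) 1, rho φ z * (c0 + μ * W z) * (MM β z).re * v z) -
      ∫ z in ball (0 : ℂ) 1, c0 * (1 * ((2 * I * (RR β z : ℂ) * (deriv φ z * conj (deriv φ z))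
      - deriv φ z * conj (MM' β z * φ z)) * (v z : ℂ))).re := by
    rw [← integral_sub i2 (j2.const_mul c0)]
    apply integral_congr_ae
    filter_upwards [ae_D0] with z hz
    rw [rho_pp hc hz, dphi_hh, one_mul, sub_re, re_ofReal_mul, re_ofReal_mul, re_mul_ofReal]
    ring
  rw [e1, e2, integral_const_mul, integral_const_mul, e12, f12]
  ring

include hW hβ in
theorem weak_curl (hc : Conf φ) {B : ℂ → ℝ} (hB : ContDiff ℝ ∞ B) (hB0 : ∀ z, ‖z‖ = 1 → B z = 0) :
    ∫ z in ball (0 : ℂ) 1, (V1 φ W c0 β z * dy B z - V2 φ W c0 β z * dx B z) =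
      ∫ z in ball (0 : ℂ) 1, rho φ z * rr φ W μ c0 β z * B z := by
  obtain ⟨i1, i2, e12⟩ := curl_A hc hW hβ hB hB0
  obtain ⟨j1, j2, f12⟩ := TT_weak hc hβ hB (c := -I) (by simp)
  have e1 : ∫ z in ball (0 : ℂ) 1, (V1 φ W c0 β z * dy B z - V2 φ W c0 β z * dx B z) =
      (∫ z in ball (0 : ℂ) 1, (VA1 β W z * dy B z - VA2 β W z * dx B z)) +
      ∫ z in ball (0 : ℂ) 1, c0 * (-I * (TT φ β z * gr B z)).re := by
    rw [← integral_add i1 (j1.const_mul c0)]
    apply integral_congr_ae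
    refine Eventually.of_forall fun z => ?_
    simp only
    rw [gr_mul_TT', V1, V2]
    ring
  have e2 : ∫ z in ball (0 : ℂ) 1, rho φ z * rr φ W μ c0 β z * B z =
      (∫ z in ball (0 : ℂ) 1, rho φ z * (c0 + μ * W z) * RR β z * B z) -
      ∫ z in ball (0 : ℂ) 1, c0 * (-I * ((2 * I * (RR β z : ℂ) * (deriv φ z * conj (deriv φ z))
      - deriv φ z * conj (MM' β z * φ z)) * (B z : ℂ))).re := by
    rw [← integral_sub i2 (j2.const_mul c0)]
    apply integral_congr_ae
    filter_upwards [ae_D0] with z hz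
    have hI : ∀ x : ℂ, (-I * (x * (B z : ℂ))).re = x.im * B z := by
      intro x; simp
    rw [rho_rr hc hz, dphi_hh, hI, sub_im, im_ofReal_mul, im_ofReal_mul, RR]
    ring
  rw [e1, e2, integral_const_mul, integral_const_mul, e12, f12]
  ring

end

/-! ### Pointwise expansions -/

theorem V_sq (z : ℂ) : V1 φ W c0 β z ^ 2 + V2 φ W c0 β z ^ 2 =
    ‖MM β z‖ ^ 2 * g2 W z + c0 ^ 2 * (RR β z ^ 2 * ‖φ z‖ ^ 2 * rho φ z)
      + 2 * c0 * (XX φ W β z).im := by
  rw [V1, V2, VA1, VA2, XX, TT, rho, g2, ← normSq_eq_norm_sq, ← normSq_eq_norm_sq,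
    ← normSq_eq_norm_sq, normSq_apply, normSq_apply, normSq_apply]
  simp only [RR, mul_re, mul_im, conj_re, conj_im, I_re, I_im, ofReal_re, ofReal_im, gr_re, gr_im]
  ring

theorem hh_sq (z : ℂ) : ‖hh φ W μ c0 β z‖ ^ 2 =
    μ ^ 2 * (rho φ z * ‖MM β z‖ ^ 2 * W z ^ 2) + c0 ^ 2 * ‖hp φ β z‖ ^ 2
      + 2 * μ * c0 * (W z * (conj (deriv φ z) * MM β z * hp φ β z).re) := by
  rw [hh, rho, ← normSq_eq_norm_sq, ← normSq_eq_norm_sq,
    ← normSq_eq_norm_sq, ← normSq_eq_norm_sq, normSq_apply, normSq_apply, normSq_apply, normSq_apply]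
  simp only [add_re, add_im, mul_re, mul_im, conj_re, conj_im, ofReal_re, ofReal_im]
  ring

theorem lin_identity (z : ℂ) :
    -2 * (RR β z * kap φ β z * W z) - rho φ z * W z * (MM β z ^ 2).re =
      rho φ z * ‖MM β z‖ ^ 2 * W z
      + 2 * (W z * (conj (deriv φ z) * MM' β z * (MM β z * φ z)).re)
      - 4 * (W z * (RR β z * (conj (deriv φ z) * hp φ β z).im))
      - 2 * (W z * (conj (deriv φ z) * MM β z * hp φ β z).re) := by
  rw [kap, hp, rho, ← normSq_eq_norm_sq, ← normSq_eq_norm_sq, normSq_apply, normSq_apply, pow_two (MM β z)]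
  simp only [RR, add_re, add_im, mul_re, mul_im, conj_re, conj_im]
  ring

/-! ### More integrability -/

theorem int_rhoMW (h : Conf φ) (hW : WSet φ W μ c0) (hβ : ‖β‖ = 1)
    (hL2 : IntegrableOn (fun z => W z ^ 2) (ball 0 1)) :
    IntegrableOn (fun z => rho φ z * ‖MM β z‖ ^ 2 * W z) (ball (0:ℂ) 1) ∧
    IntegrableOn (fun z => rho φ z * W z * (MM β z ^ 2).re) (ball (0:ℂ) 1) := by
  have h1 := (contDiffOn_dphi h 0).continuousOn
  have h4 := (contDiffOn_MM β 0).continuousOn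
  have hρ : ContinuousOn (rho φ) D0 := by unfold rho; exact h1.norm.pow 2
  have hM : ∀ z ∈ D0, ‖MM β z‖ ^ 2 ≤ 4 / ‖z‖ ^ 2 := by
    intro z hz
    have := pow_le_pow_left₀ (norm_nonneg _) (norm_MM_le hβ (mem_D0.1 hz).2 (mem_D0.1 hz).1.le) 2
    calc _ ≤ (2 / ‖z‖) ^ 2 := this
      _ = 4 / ‖z‖ ^ 2 := by ring
  constructor
  · refine intW h hW hL2 ((hρ.mul (h4.norm.pow 2)).mul (Wcont hW)) (K := 4) (by norm_num) ?_
    intro z hz
    have hρ0 := rho_nonneg (φ := φ) z
    have hzn : 0 < ‖z‖ := norm_pos_iff.2 (mem_D0.1 hz).2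
    rw [abs_mul, abs_mul, abs_of_nonneg hρ0, abs_of_nonneg (by positivity : 0 ≤ ‖MM β z‖ ^ 2)]
    calc rho φ z * ‖MM β z‖ ^ 2 * |W z| ≤ rho φ z * (4 / ‖z‖ ^ 2) * |W z| := by
          gcongr; exact hM z hz
      _ = 4 * (|W z| * rho φ z / ‖z‖ ^ 2) := by ring
      _ ≤ 4 * (|W z| * (‖deriv φ z‖ + rho φ z) / ‖z‖ ^ 2) := by
          gcongr; linarith [norm_nonneg (deriv φ z)]
  · refine intW h hW hL2 ((hρ.mul (Wcont hW)).mul
      (Complex.continuous_re.comp_continuousOn (h4.pow 2))) (K := 4) (by norm_num) ?_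
    intro z hz
    have hρ0 := rho_nonneg (φ := φ) z
    have hzn : 0 < ‖z‖ := norm_pos_iff.2 (mem_D0.1 hz).2
    rw [abs_mul, abs_mul, abs_of_nonneg hρ0]
    have h5 : |(MM β z ^ 2).re| ≤ 4 / ‖z‖ ^ 2 := by
      refine (abs_re_le_norm _).trans ?_
      rw [norm_pow]; exact hM z hz
    calc rho φ z * |W z| * |(MM β z ^ 2).re| ≤ rho φ z * |W z| * (4 / ‖z‖ ^ 2) := by
          gcongr
      _ = 4 * (|W z| * rho φ z / ‖z‖ ^ 2) := by ring
      _ ≤ 4 * (|W z| * (‖deriv φ z‖ + rho φ z) / ‖z‖ ^ 2) := by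
          gcongr; linarith [norm_nonneg (deriv φ z)]

theorem int4 (h : Conf φ) (hW : WSet φ W μ c0) (hβ : ‖β‖ = 1)
    (hL2 : IntegrableOn (fun z => W z ^ 2) (ball 0 1)) :
    IntegrableOn (fun z => W z * (conj (deriv φ z) * MM β z * hp φ β z).re)
      (ball (0:ℂ) 1) := by
  obtain ⟨C, hC, hb⟩ := norm_hp_le h hβ
  refine intW h hW hL2 ?_ (K := 2 * C) (by positivity) ?_
  · have h1 := (contDiffOn_dphi h 0).continuousOn
    have h3 := (contDiffOn_MM β 0).continuousOn
    have h4 := (contDiffOn_hp h β 0).continuousOn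
    exact (Wcont hW).mul (Complex.continuous_re.comp_continuousOn
      (((Complex.continuous_conj.comp_continuousOn h1).mul h3).mul h4))
  · intro z hz
    have hz0 := (mem_D0.1 hz).2
    have hz1 := (mem_D0.1 hz).1
    have hzn : 0 < ‖z‖ := norm_pos_iff.2 hz0
    rw [abs_mul]
    have a0 : |(conj (deriv φ z) * MM β z * hp φ β z).re| ≤
        ‖deriv φ z‖ * ((2 / ‖z‖) * (C * ((1 + ‖deriv φ z‖) / ‖z‖))) := by
      refine (abs_re_le_norm _).trans ?_
      rw [norm_mul, norm_mul, norm_conj, mul_assoc]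
      exact mul_le_mul_of_nonneg_left (mul_le_mul (norm_MM_le hβ hz0 hz1.le) (hb z hz)
        (norm_nonneg _) (by positivity)) (norm_nonneg _)
    calc |W z| * |(conj (deriv φ z) * MM β z * hp φ β z).re|
        ≤ |W z| * (‖deriv φ z‖ * ((2 / ‖z‖) * (C * ((1 + ‖deriv φ z‖) / ‖z‖)))) :=
          mul_le_mul_of_nonneg_left a0 (abs_nonneg _)
      _ = 2 * C * (|W z| * (‖deriv φ z‖ + rho φ z) / ‖z‖ ^ 2) := by rw [rho]; field_simp

theorem int_T (h : Conf φ) (hβ : ‖β‖ = 1) :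
    IntegrableOn (fun z => RR β z ^ 2 * ‖φ z‖ ^ 2 * rho φ z) (ball (0:ℂ) 1) := by
  obtain ⟨C, hC, hb⟩ := conf_norm_le h
  have h1 := (contDiffOn_dphi h 0).continuousOn
  have h2 := (contDiffOn_phi h 0).continuousOn
  have h3 := (contDiffOn_RR β 0).continuousOn
  have hρ : ContinuousOn (rho φ) D0 := by unfold rho; exact h1.norm.pow 2
  apply Integrable.mono' (h.rho_int.const_mul (C ^ 2))
    (aesm_of_continuousOn (((h3.pow 2).mul (h2.norm.pow 2)).mul hρ))
  filter_upwards [ae_D0] with z hz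
  have hz0 := (mem_D0.1 hz).2
  have hz1 := (mem_D0.1 hz).1
  have hzn : 0 < ‖z‖ := norm_pos_iff.2 hz0
  have hρ0 := rho_nonneg (φ := φ) z
  have a1 : |RR β z| * ‖φ z‖ ≤ 1 / ‖z‖ * (C * ‖z‖) :=
    mul_le_mul (abs_RR_le' hβ hz0 hz1.le) (hb z hz.1) (norm_nonneg _) (by positivity)
  have a2 : 1 / ‖z‖ * (C * ‖z‖) = C := by field_simp
  rw [a2] at a1
  have a3 := pow_le_pow_left₀ (by positivity) a1 2
  change ‖RR β z ^ 2 * ‖φ z‖ ^ 2 * rho φ z‖ ≤ C ^ 2 * rho φ z
  rw [Real.norm_eq_abs, abs_mul, abs_of_nonneg hρ0, abs_mul, abs_of_nonneg (sq_nonneg _),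
    abs_of_nonneg (by positivity : 0 ≤ ‖φ z‖ ^ 2), ← sq_abs (RR β z), ← mul_pow]
  exact mul_le_mul_of_nonneg_right a3 hρ0

/-- **Energy inequality**, given the energy identity of the `A` part. -/
theorem energy_le_of (h : Setting φ U μ) (hW : WSet φ W μ c0) (hβ : ‖β‖ = 1)
    (hL2 : IntegrableOn (fun z => W z ^ 2) (ball 0 1))
    (hhp : IntegrableOn (fun ζ => ‖hp φ β ζ‖ ^ 2) (ball 0 1))
    (hA1 : IntegrableOn (fun z => ‖MM β z‖ ^ 2 * g2 W z) (ball 0 1))
    (hA2 : IntegrableOn (fun z => rho φ z * (c0 + μ * W z) * ‖MM β z‖ ^ 2 * W z) (ball 0 1))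
    (hA3 : IntegrableOn (fun z => W z ^ 2 * ‖MM' β z‖ ^ 2) (ball 0 1))
    (hAe : ∫ z in ball (0:ℂ) 1, ‖MM β z‖ ^ 2 * g2 W z =
      (∫ z in ball (0:ℂ) 1, rho φ z * (c0 + μ * W z) * ‖MM β z‖ ^ 2 * W z)
      + 2 * ∫ z in ball (0:ℂ) 1, W z ^ 2 * ‖MM' β z‖ ^ 2) :
    IntegrableOn (fun ζ => c0 ^ 2 * (RR β ζ ^ 2 * ‖φ ζ‖ ^ 2 * rho φ ζ)
      + 2 * (W ζ ^ 2 * ‖MM' β ζ‖ ^ 2) - 2 * c0 * (RR β ζ * kap φ β ζ * W ζ)) (ball 0 1) ∧
    μ * ∫ ζ in ball (0 : ℂ) 1, (c0 ^ 2 * (RR β ζ ^ 2 * ‖φ ζ‖ ^ 2 * rho φ ζ)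
      + 2 * (W ζ ^ 2 * ‖MM' β ζ‖ ^ 2) - 2 * c0 * (RR β ζ * kap φ β ζ * W ζ)) ≤
    c0 ^ 2 * (∫ ζ in ball (0 : ℂ) 1, ‖hp φ β ζ‖ ^ 2) +
      c0 * μ * ∫ ζ in ball (0 : ℂ) 1, rho φ ζ * W ζ * (MM β ζ ^ 2).re := by
  have hc := h.conf
  have hμ := h.μpos
  have iT := int_T hc hβ
  have iX := intX hc hW hβ
  obtain ⟨iS, iJ⟩ := int_rhoMW hc hW hβ hL2
  have iQ := int4 hc hW hβ hL2
  have iY := int2 hc hW hβ hL2
  have iZ := int3 hc hW hβ hL2
  have cross := cross_term hc hW hβ hL2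
  -- `ρ |M|² W²`
  have iP : IntegrableOn (fun z => rho φ z * ‖MM β z‖ ^ 2 * W z ^ 2) (ball (0:ℂ) 1) := by
    apply ((hA2.sub (iS.const_mul c0)).const_mul μ⁻¹).congr
    refine Eventually.of_forall fun z => ?_
    simp only [Pi.sub_apply]
    field_simp
    ring
  have hS : ∫ z in ball (0:ℂ) 1, rho φ z * (c0 + μ * W z) * ‖MM β z‖ ^ 2 * W z =
      c0 * (∫ z in ball (0:ℂ) 1, rho φ z * ‖MM β z‖ ^ 2 * W z)
      + μ * ∫ z in ball (0:ℂ) 1, rho φ z * ‖MM β z‖ ^ 2 * W z ^ 2 := by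
    rw [← integral_const_mul, ← integral_const_mul, ← integral_add (iS.const_mul c0) (iP.const_mul μ)]
    apply integral_congr_ae
    refine Eventually.of_forall fun z => ?_
    ring
  -- `R κ W`
  have iN : IntegrableOn (fun z => RR β z * kap φ β z * W z) (ball (0:ℂ) 1) := by
    apply ((((iS.add (iY.const_mul 2)).sub (iZ.const_mul 4)).sub (iQ.const_mul 2)).add iJ
      |>.const_mul (-1/2)).congr
    refine Eventually.of_forall fun z => ?_
    have := lin_identity (φ := φ) (W := W) (β := β) z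
    simp only [Pi.sub_apply, Pi.add_apply]
    linarith
  have hN : -2 * (∫ z in ball (0:ℂ) 1, RR β z * kap φ β z * W z)
      - ∫ z in ball (0:ℂ) 1, rho φ z * W z * (MM β z ^ 2).re =
      (∫ z in ball (0:ℂ) 1, rho φ z * ‖MM β z‖ ^ 2 * W z)
      + 2 * (∫ z in ball (0:ℂ) 1, W z * (conj (deriv φ z) * MM' β z * (MM β z * φ z)).re)
      - 4 * (∫ z in ball (0:ℂ) 1, W z * (RR β z * (conj (deriv φ z) * hp φ β z).im))
      - 2 * ∫ z in ball (0:ℂ) 1, W z * (conj (deriv φ z) * MM β z * hp φ β z).re := by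
    have j1 : IntegrableOn (fun z => rho φ z * ‖MM β z‖ ^ 2 * W z
      + 2 * (W z * (conj (deriv φ z) * MM' β z * (MM β z * φ z)).re)) (ball (0:ℂ) 1) :=
      iS.add (iY.const_mul 2)
    have j2 : IntegrableOn (fun z => rho φ z * ‖MM β z‖ ^ 2 * W z
      + 2 * (W z * (conj (deriv φ z) * MM' β z * (MM β z * φ z)).re)
      - 4 * (W z * (RR β z * (conj (deriv φ z) * hp φ β z).im))) (ball (0:ℂ) 1) :=
      j1.sub (iZ.const_mul 4)
    rw [← integral_const_mul, ← integral_const_mul, ← integral_const_mul, ← integral_const_mul,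
      ← integral_sub (iN.const_mul (-2)) iJ, ← integral_add iS (iY.const_mul 2),
      ← integral_sub j1 (iZ.const_mul 4), ← integral_sub j2 (iQ.const_mul 2)]
    apply integral_congr_ae
    refine Eventually.of_forall fun z => ?_
    exact lin_identity z
  -- total `|V|²`
  have iAT : IntegrableOn (fun z => ‖MM β z‖ ^ 2 * g2 W z
      + c0 ^ 2 * (RR β z ^ 2 * ‖φ z‖ ^ 2 * rho φ z)) (ball (0:ℂ) 1) := hA1.add (iT.const_mul _)
  have iV : IntegrableOn (fun z => V1 φ W c0 β z ^ 2 + V2 φ W c0 β z ^ 2) (ball (0:ℂ) 1) := by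
    apply (iAT.add (iX.const_mul (2 * c0))).congr
    refine Eventually.of_forall fun z => ?_
    simp only [Pi.add_apply]
    rw [V_sq]
  have hV : ∫ z in ball (0:ℂ) 1, (V1 φ W c0 β z ^ 2 + V2 φ W c0 β z ^ 2) =
      (∫ z in ball (0:ℂ) 1, ‖MM β z‖ ^ 2 * g2 W z)
      + c0 ^ 2 * (∫ z in ball (0:ℂ) 1, RR β z ^ 2 * ‖φ z‖ ^ 2 * rho φ z)
      + 2 * c0 * ∫ z in ball (0:ℂ) 1, (XX φ W β z).im := by
    rw [← integral_const_mul, ← integral_const_mul, ← integral_add hA1 (iT.const_mul _),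
      ← integral_add iAT (iX.const_mul _)]
    apply integral_congr_ae
    refine Eventually.of_forall fun z => ?_
    exact V_sq z
  -- total `|h|²`
  have iPH : IntegrableOn (fun z => μ ^ 2 * (rho φ z * ‖MM β z‖ ^ 2 * W z ^ 2)
      + c0 ^ 2 * ‖hp φ β z‖ ^ 2) (ball (0:ℂ) 1) := (iP.const_mul _).add (hhp.const_mul _)
  have iH : IntegrableOn (fun z => ‖hh φ W μ c0 β z‖ ^ 2) (ball (0:ℂ) 1) := by
    apply (iPH.add (iQ.const_mul (2 * μ * c0))).congr
    refine Eventually.of_forall fun z => ?_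
    simp only [Pi.add_apply]
    rw [hh_sq]
  have hH : ∫ z in ball (0:ℂ) 1, ‖hh φ W μ c0 β z‖ ^ 2 =
      μ ^ 2 * (∫ z in ball (0:ℂ) 1, rho φ z * ‖MM β z‖ ^ 2 * W z ^ 2)
      + c0 ^ 2 * (∫ z in ball (0:ℂ) 1, ‖hp φ β z‖ ^ 2)
      + 2 * μ * c0 * ∫ z in ball (0:ℂ) 1, W z * (conj (deriv φ z) * MM β z * hp φ β z).re := by
    rw [← integral_const_mul, ← integral_const_mul, ← integral_const_mul,
      ← integral_add (iP.const_mul _) (hhp.const_mul _), ← integral_add iPH (iQ.const_mul _)]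
    apply integral_congr_ae
    refine Eventually.of_forall fun z => ?_
    exact hh_sq z
  -- continuity / measurability
  have cφ' := (contDiffOn_dphi hc 0).continuousOn
  have cφ := (contDiffOn_phi hc 0).continuousOn
  have cM := (contDiffOn_MM β 0).continuousOn
  have chp := (contDiffOn_hp hc β 0).continuousOn
  have cR := (contDiffOn_RR β 0).continuousOn
  have cT := (contDiffOn_TT (β := β) hc 0).continuousOn
  have cW := Wcont hW
  have cg := grcont hW
  have cdx : ContinuousOn (dx W) D0 := by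
    refine (Complex.continuous_re.comp_continuousOn cg).congr fun z _ => ?_
    exact (gr_re W z).symm
  have cdy : ContinuousOn (dy W) D0 := by
    refine (Complex.continuous_im.comp_continuousOn cg).congr fun z _ => ?_
    exact (gr_im W z).symm
  have cρ : ContinuousOn (rho φ) D0 := by unfold rho; exact cφ'.norm.pow 2
  have cMre : ContinuousOn (fun z => (MM β z).re) D0 := Complex.continuous_re.comp_continuousOn cM
  have cV1 : ContinuousOn (V1 φ W c0 β) D0 :=
    ((cMre.mul cdx).add (cR.mul cdy)).add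
      (continuousOn_const.mul (Complex.continuous_re.comp_continuousOn cT))
  have cV2 : ContinuousOn (V2 φ W c0 β) D0 :=
    ((cMre.mul cdy).sub (cR.mul cdx)).sub
      (continuousOn_const.mul (Complex.continuous_im.comp_continuousOn cT))
  have chh : ContinuousOn (hh φ W μ c0 β) D0 :=
    (((continuousOn_const.mul cM).mul (Complex.continuous_ofReal.comp_continuousOn cW)).mul
      (Complex.continuous_conj.comp_continuousOn cφ')).add
      (continuousOn_const.mul (Complex.continuous_conj.comp_continuousOn chp))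
  have cq : ContinuousOn (fun z => hh φ W μ c0 β z / conj (deriv φ z)) D0 := by
    apply chh.div (Complex.continuous_conj.comp_continuousOn cφ')
    intro z hz
    have := dphi_ne hc hz
    simpa using this
  have cpp : ContinuousOn (pp φ W μ c0 β) D0 := Complex.continuous_re.comp_continuousOn cq
  have crr : ContinuousOn (rr φ W μ c0 β) D0 := Complex.continuous_im.comp_continuousOn cq
  have ip : IntegrableOn (fun z => rho φ z * pp φ W μ c0 β z ^ 2) (ball (0:ℂ) 1) := by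
    apply Integrable.mono' iH (aesm_of_continuousOn (cρ.mul (cpp.pow 2)))
    filter_upwards [ae_D0] with z hz
    have h1 := rho_pr_sq (W := W) (μ := μ) (c0 := c0) (β := β) hc hz
    have hρ0 := rho_nonneg (φ := φ) z
    have h2 : 0 ≤ rho φ z * rr φ W μ c0 β z ^ 2 := by positivity
    change ‖rho φ z * pp φ W μ c0 β z ^ 2‖ ≤ _
    rw [Real.norm_eq_abs, abs_of_nonneg (by positivity)]
    linarith
  have ir : IntegrableOn (fun z => rho φ z * rr φ W μ c0 β z ^ 2) (ball (0:ℂ) 1) := by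
    apply Integrable.mono' iH (aesm_of_continuousOn (cρ.mul (crr.pow 2)))
    filter_upwards [ae_D0] with z hz
    have h1 := rho_pr_sq (W := W) (μ := μ) (c0 := c0) (β := β) hc hz
    have hρ0 := rho_nonneg (φ := φ) z
    have h2 : 0 ≤ rho φ z * pp φ W μ c0 β z ^ 2 := by positivity
    change ‖rho φ z * rr φ W μ c0 β z ^ 2‖ ≤ _
    rw [Real.norm_eq_abs, abs_of_nonneg (by positivity)]
    linarith
  have hodge' := hodge h (aesm_of_continuousOn cV1) (aesm_of_continuousOn cV2)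
    (aesm_of_continuousOn cpp) (aesm_of_continuousOn crr) iV ip ir
    (fun v hv => weak_div hW hβ hc hv) (fun B hB hB0 => weak_curl hW hβ hc hB hB0)
  have hsum : (∫ z in ball (0 : ℂ) 1, rho φ z * pp φ W μ c0 β z ^ 2)
      + ∫ z in ball (0 : ℂ) 1, rho φ z * rr φ W μ c0 β z ^ 2 =
      ∫ z in ball (0:ℂ) 1, ‖hh φ W μ c0 β z‖ ^ 2 := by
    rw [← integral_add ip ir]
    apply integral_congr_ae
    filter_upwards [ae_D0] with z hz
    exact rho_pr_sq hc hz
  rw [hsum, hV, hH, hAe, hS, cross] at hodge'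
  -- conclusion
  have iTE : IntegrableOn (fun ζ => c0 ^ 2 * (RR β ζ ^ 2 * ‖φ ζ‖ ^ 2 * rho φ ζ)
      + 2 * (W ζ ^ 2 * ‖MM' β ζ‖ ^ 2)) (ball (0:ℂ) 1) := (iT.const_mul _).add (hA3.const_mul 2)
  have iF : IntegrableOn (fun ζ => c0 ^ 2 * (RR β ζ ^ 2 * ‖φ ζ‖ ^ 2 * rho φ ζ)
      + 2 * (W ζ ^ 2 * ‖MM' β ζ‖ ^ 2) - 2 * c0 * (RR β ζ * kap φ β ζ * W ζ)) (ball (0:ℂ) 1) :=
    iTE.sub (iN.const_mul _)
  refine ⟨iF, ?_⟩
  rw [integral_sub iTE (iN.const_mul _), integral_add (iT.const_mul _) (hA3.const_mul 2),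
    integral_const_mul, integral_const_mul, integral_const_mul]
  have h3 := congrArg (fun x => μ * c0 * x) hN
  linarith [hodge', h3]

end Crest.Agent.R101.En
end

-- ▼ part R101/CoreD
section

/-! Row 101: the energy identity for `A = M (W_x - i W_y)`:
`∫ |M|² |∇W|² = ∫ ρ (c0 + μ W) |M|² W + 2 ∫ W² |M'|²`. -/

set_option autoImplicit false

open MeasureTheory Metric Set Complex ComplexConjugate Filter Topology
open scoped ContDiff

namespace Crest.Agent.R101

theorem dx_add {v w : ℂ → ℝ} {z : ℂ} (hv : DifferentiableAt ℝ v z) (hw : DifferentiableAt ℝ w z) :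
    dx (fun z => v z + w z) z = dx v z + dx w z := by
  unfold dx
  rw [fderiv_fun_add hv hw]
  simp only [_root_.add_apply]

theorem dy_add {v w : ℂ → ℝ} {z : ℂ} (hv : DifferentiableAt ℝ v z) (hw : DifferentiableAt ℝ w z) :
    dy (fun z => v z + w z) z = dy v z + dy w z := by
  unfold dy
  rw [fderiv_fun_add hv hw]
  simp only [_root_.add_apply]


theorem dy_sub {v w : ℂ → ℝ} {z : ℂ} (hv : DifferentiableAt ℝ v z) (hw : DifferentiableAt ℝ w z) :
    dy (fun z => v z - w z) z = dy v z - dy w z := by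
  unfold dy
  rw [fderiv_fun_sub hv hw]
  simp only [_root_.sub_apply]

theorem contDiffOn_MM' (β : ℂ) {k : ℕ∞} : ContDiffOn ℝ k (MM' β) (ball 0 1 \ {0}) := by
  intro z hz
  have h0 : z ≠ 0 := hz.2
  apply ContDiffAt.contDiffWithinAt
  unfold MM'
  have h1 : ContDiffAt ℝ k (fun z : ℂ => -β * (z⁻¹ ^ 2)) z :=
    contDiffAt_const.mul ((contDiffAt_inv ℝ h0).pow 2)
  have e1 : (fun z : ℂ => -β / z ^ 2 + conj β) = fun z => -β * (z⁻¹ ^ 2) + conj β := by
    funext y; rw [div_eq_mul_inv, inv_pow]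
  rw [e1]
  exact h1.add contDiffAt_const

theorem contDiffOn_M're (β : ℂ) {k : ℕ∞} : ContDiffOn ℝ k (fun z => (MM' β z).re) (ball 0 1 \ {0}) :=
  Complex.reCLM.contDiff.comp_contDiffOn (contDiffOn_MM' β)

theorem contDiffOn_M'im (β : ℂ) {k : ℕ∞} : ContDiffOn ℝ k (fun z => (MM' β z).im) (ball 0 1 \ {0}) :=
  Complex.imCLM.contDiff.comp_contDiffOn (contDiffOn_MM' β)

theorem dx_M're (β : ℂ) {z : ℂ} (h0 : z ≠ 0) : dx (fun z => (MM' β z).re) z = (2 * β / z ^ 3).re :=
  dx_re (hasDerivAt_MM' β h0)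
theorem dy_M're (β : ℂ) {z : ℂ} (h0 : z ≠ 0) : dy (fun z => (MM' β z).re) z = -(2 * β / z ^ 3).im :=
  dy_re (hasDerivAt_MM' β h0)
theorem dx_M'im (β : ℂ) {z : ℂ} (h0 : z ≠ 0) : dx (fun z => (MM' β z).im) z = (2 * β / z ^ 3).im :=
  dx_im (hasDerivAt_MM' β h0)
theorem dy_M'im (β : ℂ) {z : ℂ} (h0 : z ≠ 0) : dy (fun z => (MM' β z).im) z = (2 * β / z ^ 3).re :=
  dy_im (hasDerivAt_MM' β h0)

/-- `|M|²` -/
noncomputable def kM (β z : ℂ) : ℝ := (MM β z).re * (MM β z).re + RR β z * RR β z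
/-- `½ ∂ₓ |M|²` -/
noncomputable def aM (β z : ℂ) : ℝ := (MM β z).re * (MM' β z).re + RR β z * (MM' β z).im
/-- `½ ∂_y |M|²` -/
noncomputable def bM (β z : ℂ) : ℝ := RR β z * (MM' β z).re - (MM β z).re * (MM' β z).im

theorem kM_eq (β z : ℂ) : kM β z = ‖MM β z‖ ^ 2 := by
  rw [Complex.sq_norm, Complex.normSq_apply]; rfl

theorem contDiffOn_kM (β : ℂ) {k : ℕ∞} : ContDiffOn ℝ k (kM β) (ball 0 1 \ {0}) :=
  ((contDiffOn_Mre β).mul (contDiffOn_Mre β)).add ((contDiffOn_RR β).mul (contDiffOn_RR β))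

theorem contDiffOn_aM (β : ℂ) {k : ℕ∞} : ContDiffOn ℝ k (aM β) (ball 0 1 \ {0}) :=
  ((contDiffOn_Mre β).mul (contDiffOn_M're β)).add ((contDiffOn_RR β).mul (contDiffOn_M'im β))

theorem contDiffOn_bM (β : ℂ) {k : ℕ∞} : ContDiffOn ℝ k (bM β) (ball 0 1 \ {0}) :=
  ((contDiffOn_RR β).mul (contDiffOn_M're β)).sub ((contDiffOn_Mre β).mul (contDiffOn_M'im β))

theorem dx_kM (β : ℂ) {z : ℂ} (hz : z ∈ ball (0 : ℂ) 1) (h0 : z ≠ 0) : dx (kM β) z = 2 * aM β z := by
  have d1 : DifferentiableAt ℝ (fun z => (MM β z).re) z :=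
    diffAt_of_c1' (contDiffOn_Mre β (k := 1)) hz h0
  have d2 : DifferentiableAt ℝ (RR β) z := diffAt_of_c1' (contDiffOn_RR β (k := 1)) hz h0
  unfold kM aM
  rw [dx_add (d1.fun_mul d1) (d2.fun_mul d2), dx_mul d1 d1, dx_mul d2 d2, dx_Mre β h0, dx_RR β h0]
  ring

theorem dy_kM (β : ℂ) {z : ℂ} (hz : z ∈ ball (0 : ℂ) 1) (h0 : z ≠ 0) : dy (kM β) z = 2 * bM β z := by
  have d1 : DifferentiableAt ℝ (fun z => (MM β z).re) z :=
    diffAt_of_c1' (contDiffOn_Mre β (k := 1)) hz h0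
  have d2 : DifferentiableAt ℝ (RR β) z := diffAt_of_c1' (contDiffOn_RR β (k := 1)) hz h0
  unfold kM bM
  rw [dy_add (d1.fun_mul d1) (d2.fun_mul d2), dy_mul d1 d1, dy_mul d2 d2, dy_Mre β h0, dy_RR β h0]
  ring

theorem div_ab (β : ℂ) {z : ℂ} (hz : z ∈ ball (0 : ℂ) 1) (h0 : z ≠ 0) :
    dx (aM β) z + dy (bM β) z = 2 * ‖MM' β z‖ ^ 2 := by
  have d1 : DifferentiableAt ℝ (fun z => (MM β z).re) z :=
    diffAt_of_c1' (contDiffOn_Mre β (k := 1)) hz h0
  have d2 : DifferentiableAt ℝ (RR β) z := diffAt_of_c1' (contDiffOn_RR β (k := 1)) hz h0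
  have d3 : DifferentiableAt ℝ (fun z => (MM' β z).re) z :=
    diffAt_of_c1' (contDiffOn_M're β (k := 1)) hz h0
  have d4 : DifferentiableAt ℝ (fun z => (MM' β z).im) z :=
    diffAt_of_c1' (contDiffOn_M'im β (k := 1)) hz h0
  unfold aM bM
  rw [dx_add (d1.fun_mul d3) (d2.fun_mul d4), dy_sub (d2.fun_mul d3) (d1.fun_mul d4), dx_mul d1 d3, dx_mul d2 d4,
    dy_mul d2 d3, dy_mul d1 d4, dx_Mre β h0, dy_Mre β h0, dx_RR β h0, dy_RR β h0,
    dx_M're β h0, dy_M're β h0, dx_M'im β h0, dy_M'im β h0, Complex.sq_norm, Complex.normSq_apply]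
  ring

theorem abs_aM_le {β z : ℂ} (hβ : ‖β‖ = 1) (hz1 : ‖z‖ < 1) (h0 : z ≠ 0) :
    |aM β z| ≤ 4 / ‖z‖ ^ 3 ∧ |bM β z| ≤ 4 / ‖z‖ ^ 3 := by
  have hz : 0 < ‖z‖ := norm_pos_iff.2 h0
  have h : ‖conj (MM β z) * MM' β z‖ ≤ 4 / ‖z‖ ^ 3 := by
    rw [norm_mul, RCLike.norm_conj]
    calc ‖MM β z‖ * ‖MM' β z‖ ≤ (2 / ‖z‖) * (2 / ‖z‖ ^ 2) :=
          mul_le_mul (norm_MM_le hβ hz1 h0) (norm_MM'_le hβ hz1 h0) (norm_nonneg _) (by positivity)
      _ = 4 / ‖z‖ ^ 3 := by field_simp; norm_num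
  constructor
  · have e : aM β z = (conj (MM β z) * MM' β z).re := by
      unfold aM RR; simp [Complex.mul_re]
    rw [e]; exact (Complex.abs_re_le_norm _).trans h
  · have e : bM β z = -(conj (MM β z) * MM' β z).im := by
      unfold bM RR; simp [Complex.mul_im]; ring
    rw [e, abs_neg]; exact (Complex.abs_im_le_norm _).trans h

theorem radial_ab {β z : ℂ} (hβ : ‖β‖ = 1) (h0 : z ≠ 0) :
    z.re * aM β z + z.im * bM β z = -((1 - ‖z‖ ^ 2) * (1 + ‖z‖ ^ 2) / ‖z‖ ^ 2) := by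
  have hz : 0 < ‖z‖ := norm_pos_iff.2 h0
  have e1 : z.re * aM β z + z.im * bM β z = (conj (MM β z) * (z * MM' β z)).re := by
    unfold aM bM RR
    simp only [Complex.mul_re, Complex.mul_im, Complex.conj_re, Complex.conj_im]
    ring
  have e2 : conj (MM β z) * (z * MM' β z) =
      (((‖z‖ ^ 2 - 1 / ‖z‖ ^ 2 : ℝ)) : ℂ) + (conj (β / z) * (conj β * z) - conj (conj (β / z) * (conj β * z))) := by
    have hzz : z * MM' β z = -(β / z) + conj β * z := by
      unfold MM'; field_simp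
    rw [hzz]
    unfold MM
    have n1 : conj (β / z) * (β / z) = ((1 / ‖z‖ ^ 2 : ℝ) : ℂ) := by
      rw [← Complex.normSq_eq_conj_mul_self, Complex.normSq_eq_norm_sq, norm_div, hβ]
      congr 1
      rw [div_pow, one_pow]
    have n2 : conj (conj β * z) * (conj β * z) = ((‖z‖ ^ 2 : ℝ) : ℂ) := by
      rw [← Complex.normSq_eq_conj_mul_self, Complex.normSq_eq_norm_sq, norm_mul, RCLike.norm_conj, hβ,
        one_mul]
    have n3 : conj (conj (β / z) * (conj β * z)) = conj (conj β * z) * (β / z) := by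
      rw [map_mul, Complex.conj_conj]; ring
    rw [n3, Complex.ofReal_sub, ← n1, ← n2, map_add]
    ring
  rw [e1, e2, Complex.add_re, Complex.ofReal_re, Complex.sub_re, Complex.conj_re, sub_self, add_zero]
  field_simp
  ring

/-! ### dominating function -/

noncomputable def HH (W : ℂ → ℝ) (z : ℂ) : ℝ := W z ^ 2 / ‖z‖ ^ 4 + gr W z ^ 2 / ‖z‖ ^ 2

theorem HH_nonneg (W : ℂ → ℝ) (z : ℂ) : 0 ≤ HH W z := by unfold HH; positivity

theorem HH1 (W : ℂ → ℝ) (z : ℂ) : W z ^ 2 / ‖z‖ ^ 4 ≤ HH W z := by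
  unfold HH; have : 0 ≤ gr W z ^ 2 / ‖z‖ ^ 2 := by positivity
  linarith

theorem HH2 (W : ℂ → ℝ) (z : ℂ) : gr W z ^ 2 / ‖z‖ ^ 2 ≤ HH W z := by
  unfold HH; have : 0 ≤ W z ^ 2 / ‖z‖ ^ 4 := by positivity
  linarith

theorem HH3 (W : ℂ → ℝ) {z : ℂ} (h0 : z ≠ 0) : |W z| * gr W z / ‖z‖ ^ 3 ≤ HH W z / 2 := by
  have hz : 0 < ‖z‖ := norm_pos_iff.2 h0
  have e : |W z| * gr W z / ‖z‖ ^ 3 = (|W z| / ‖z‖ ^ 2) * (gr W z / ‖z‖) := by field_simp
  have e1 : W z ^ 2 / ‖z‖ ^ 4 = (|W z| / ‖z‖ ^ 2) ^ 2 := by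
    rw [div_pow, sq_abs]; congr 1; ring
  have e2 : gr W z ^ 2 / ‖z‖ ^ 2 = (gr W z / ‖z‖) ^ 2 := by rw [div_pow]
  unfold HH
  rw [e, e1, e2]
  nlinarith [sq_nonneg (|W z| / ‖z‖ ^ 2 - gr W z / ‖z‖)]

variable {φ : ℂ → ℂ} {W : ℂ → ℝ} {μ c0 : ℝ}

theorem HH_int (hW : WSet φ W μ c0) (hL2 : IntegrableOn (fun z => W z ^ 2) (ball 0 1)) :
    IntegrableOn (HH W) (ball 0 1) := by
  obtain ⟨C, r, hr, hr1, hC⟩ := hW.growth
  have hG : IntegrableOn (fun z : ℂ => 5 * C ^ 2 + (W z ^ 2 / r ^ 4 + 2 * g2 W z / r ^ 2)) (ball 0 1) := by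
    apply Integrable.add
    · exact integrableOn_const (measure_ball_lt_top.ne)
    · apply Integrable.add
      · exact hL2.div_const _
      · exact (hW.adm.en.const_mul _).div_const _
  refine integrableOn_of_le ?_ hG ?_
  · unfold HH
    refine AEStronglyMeasurable.add ?_ ?_
    · refine AEMeasurable.aestronglyMeasurable ?_
      exact ((aesm_of_c1 hW.adm.c1).aemeasurable.pow_const 2).div
        (Measurable.aemeasurable (by fun_prop))
    · exact (((measurable_gr W).pow_const 2).div (by fun_prop)).aestronglyMeasurable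
  · intro z hz h0
    have hz' : 0 < ‖z‖ := norm_pos_iff.2 h0
    rw [abs_of_nonneg (HH_nonneg W z)]
    by_cases hzr : ‖z‖ < r
    · have h1 := hC z (mem_ball_zero_iff.2 hzr)
      have h2 : gr W z ≤ 2 * |C| * ‖z‖ := by
        unfold gr
        have : C * ‖z‖ ≤ |C| * ‖z‖ := mul_le_mul_of_nonneg_right (le_abs_self C) hz'.le
        linarith [h1.2.1, h1.2.2]
      have h3 : gr W z ^ 2 / ‖z‖ ^ 2 ≤ 4 * C ^ 2 := by
        rw [div_le_iff₀ (by positivity)]
        calc gr W z ^ 2 ≤ (2 * |C| * ‖z‖) ^ 2 := pow_le_pow_left₀ (gr_nonneg _ _) h2 2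
          _ = 4 * |C| ^ 2 * ‖z‖ ^ 2 := by ring
          _ = _ := by rw [sq_abs]
      have h4 : W z ^ 2 / ‖z‖ ^ 4 ≤ C ^ 2 := by
        rw [div_le_iff₀ (by positivity)]
        calc W z ^ 2 = |W z| ^ 2 := (sq_abs _).symm
          _ ≤ (C * ‖z‖ ^ 2) ^ 2 := pow_le_pow_left₀ (abs_nonneg _) h1.1 2
          _ = _ := by ring
      have h5 : 0 ≤ W z ^ 2 / r ^ 4 + 2 * g2 W z / r ^ 2 := by have := g2_nonneg W z; positivity
      unfold HH
      linarith
    · push Not at hzr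
      have h5 : W z ^ 2 / ‖z‖ ^ 4 ≤ W z ^ 2 / r ^ 4 := by
        apply div_le_div_of_nonneg_left (sq_nonneg _) (by positivity)
        gcongr
      have h6 : gr W z ^ 2 / ‖z‖ ^ 2 ≤ 2 * g2 W z / r ^ 2 := by
        apply div_le_div₀ (by have := g2_nonneg W z; positivity) (gr_sq_le W z) (by positivity)
        gcongr
      have h7 : 0 ≤ 5 * C ^ 2 := by positivity
      unfold HH
      linarith

theorem rhoW_dom (hW : WSet φ W μ c0) {β : ℂ} (hβ : ‖β‖ = 1) :
    ∃ K : ℝ, ∀ z ∈ ball (0 : ℂ) 1, z ≠ 0 →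
      rho φ z * |c0 + μ * W z| * |kM β z * W z| ≤ K * (rho φ z + rho φ z * W z ^ 2) := by
  obtain ⟨C, r, hr, hr1, hC⟩ := hW.growth
  refine ⟨4 * (|C| + 1 / r ^ 2) * (|c0| + |μ|), ?_⟩
  intro z hz h0
  have hz' : 0 < ‖z‖ := norm_pos_iff.2 h0
  have hz1 : ‖z‖ < 1 := mem_ball_zero_iff.1 hz
  have hrn := rho_nonneg φ z
  have hk : |kM β z| ≤ 4 / ‖z‖ ^ 2 := by
    rw [kM_eq, abs_of_nonneg (by positivity)]
    calc ‖MM β z‖ ^ 2 ≤ (2 / ‖z‖) ^ 2 := pow_le_pow_left₀ (norm_nonneg _) (norm_MM_le hβ hz1 h0) 2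
      _ = 4 / ‖z‖ ^ 2 := by rw [div_pow]; norm_num
  have hab : |c0 + μ * W z| ≤ |c0| + |μ| * |W z| := by
    rw [← abs_mul]; exact abs_add_le _ _
  have h6 : |W z| ≤ 1 + W z ^ 2 := by
    have := sq_abs (W z)
    nlinarith [sq_nonneg (|W z| - 1)]
  have hc0 := abs_nonneg c0
  have hμ := abs_nonneg μ
  have hCn := abs_nonneg C
  have hWn := abs_nonneg (W z)
  -- key estimate
  have key : |c0 + μ * W z| * (4 * |W z| / ‖z‖ ^ 2) ≤ 4 * (|C| + 1 / r ^ 2) * (|c0| + |μ|) * (1 + W z ^ 2) := by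
    by_cases hzr : ‖z‖ < r
    · have h1 := (hC z (mem_ball_zero_iff.2 hzr)).1
      have h2 : 4 * |W z| / ‖z‖ ^ 2 ≤ 4 * |C| := by
        rw [div_le_iff₀ (by positivity)]
        have : C * ‖z‖ ^ 2 ≤ |C| * ‖z‖ ^ 2 := mul_le_mul_of_nonneg_right (le_abs_self C) (by positivity)
        nlinarith
      have h3 : |c0 + μ * W z| ≤ (|c0| + |μ|) * (1 + W z ^ 2) := by
        nlinarith [mul_nonneg hc0 (sq_nonneg (W z)), mul_le_mul_of_nonneg_left h6 hμ]
      calc |c0 + μ * W z| * (4 * |W z| / ‖z‖ ^ 2) ≤ ((|c0| + |μ|) * (1 + W z ^ 2)) * (4 * |C|) :=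
            mul_le_mul h3 h2 (by positivity) (by positivity)
        _ = 4 * |C| * (|c0| + |μ|) * (1 + W z ^ 2) := by ring
        _ ≤ _ := by
          have : 0 ≤ 1 / r ^ 2 := by positivity
          gcongr
          linarith
    · push Not at hzr
      have h2 : 4 * |W z| / ‖z‖ ^ 2 ≤ 4 * |W z| * (1 / r ^ 2) := by
        rw [mul_one_div]
        apply div_le_div_of_nonneg_left (by positivity) (by positivity)
        gcongr
      have h3 : |c0 + μ * W z| * |W z| ≤ (|c0| + |μ|) * (1 + W z ^ 2) := by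
        calc |c0 + μ * W z| * |W z| ≤ (|c0| + |μ| * |W z|) * |W z| :=
              mul_le_mul_of_nonneg_right hab hWn
          _ = |c0| * |W z| + |μ| * W z ^ 2 := by rw [← sq_abs (W z)]; ring
          _ ≤ |c0| * (1 + W z ^ 2) + |μ| * (1 + W z ^ 2) := by
            gcongr
            linarith
          _ = _ := by ring
      calc |c0 + μ * W z| * (4 * |W z| / ‖z‖ ^ 2) ≤ |c0 + μ * W z| * (4 * |W z| * (1 / r ^ 2)) :=
            mul_le_mul_of_nonneg_left h2 (abs_nonneg _)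
        _ = 4 * (1 / r ^ 2) * (|c0 + μ * W z| * |W z|) := by ring
        _ ≤ 4 * (1 / r ^ 2) * ((|c0| + |μ|) * (1 + W z ^ 2)) := by
            apply mul_le_mul_of_nonneg_left h3; positivity
        _ = 4 * (1 / r ^ 2) * (|c0| + |μ|) * (1 + W z ^ 2) := by ring
        _ ≤ _ := by
          gcongr
          linarith
  calc rho φ z * |c0 + μ * W z| * |kM β z * W z| = rho φ z * (|c0 + μ * W z| * (|kM β z| * |W z|)) := by
        rw [abs_mul]; ring
    _ ≤ rho φ z * (|c0 + μ * W z| * ((4 / ‖z‖ ^ 2) * |W z|)) := by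
        gcongr
    _ = rho φ z * (|c0 + μ * W z| * (4 * |W z| / ‖z‖ ^ 2)) := by ring
    _ ≤ rho φ z * (4 * (|C| + 1 / r ^ 2) * (|c0| + |μ|) * (1 + W z ^ 2)) :=
        mul_le_mul_of_nonneg_left key hrn
    _ = _ := by ring

theorem abs_kM_le {β z : ℂ} (hβ : ‖β‖ = 1) (hz1 : ‖z‖ < 1) (h0 : z ≠ 0) :
    |kM β z| ≤ 4 / ‖z‖ ^ 2 := by
  rw [kM_eq, abs_of_nonneg (by positivity)]
  calc ‖MM β z‖ ^ 2 ≤ (2 / ‖z‖) ^ 2 := pow_le_pow_left₀ (norm_nonneg _) (norm_MM_le hβ hz1 h0) 2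
    _ = 4 / ‖z‖ ^ 2 := by rw [div_pow]; norm_num

theorem gr_kM_le {β z : ℂ} (hβ : ‖β‖ = 1) (hz : z ∈ ball (0 : ℂ) 1) (h0 : z ≠ 0) :
    gr (kM β) z ≤ 16 / ‖z‖ ^ 3 := by
  have hz1 : ‖z‖ < 1 := mem_ball_zero_iff.1 hz
  have h := abs_aM_le hβ hz1 h0
  unfold gr
  rw [dx_kM β hz h0, dy_kM β hz h0, abs_mul, abs_mul, abs_two]
  have e : 16 / ‖z‖ ^ 3 = 2 * (4 / ‖z‖ ^ 3) + 2 * (4 / ‖z‖ ^ 3) := by ring
  linarith [h.1, h.2]

theorem c1_kMW (hW : WSet φ W μ c0) (β : ℂ) :
    ContDiffOn ℝ 1 (fun z => kM β z * W z) (ball 0 1 \ {0}) :=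
  (contDiffOn_kM β (k := 1)).mul (hW.adm.c1.mono sdiff_subset)

theorem gr_kMW_le (hW : WSet φ W μ c0) {β z : ℂ} (hβ : ‖β‖ = 1) (hz : z ∈ ball (0 : ℂ) 1) (h0 : z ≠ 0) :
    gr (fun z => kM β z * W z) z ≤ 4 * gr W z / ‖z‖ ^ 2 + 16 * |W z| / ‖z‖ ^ 3 := by
  have hz1 : ‖z‖ < 1 := mem_ball_zero_iff.1 hz
  have hz' : 0 < ‖z‖ := norm_pos_iff.2 h0
  have hm := gr_mul_le (diffAt_of_c1' (contDiffOn_kM β (k := 1)) hz h0) (diffAt_of_c1 hW.adm.c1 hz)
  refine hm.trans ?_
  have t1 : |kM β z| * gr W z ≤ 4 * gr W z / ‖z‖ ^ 2 := by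
    calc |kM β z| * gr W z ≤ 4 / ‖z‖ ^ 2 * gr W z :=
          mul_le_mul_of_nonneg_right (abs_kM_le hβ hz1 h0) (gr_nonneg _ _)
      _ = _ := by ring
  have t2 : |W z| * gr (kM β) z ≤ 16 * |W z| / ‖z‖ ^ 3 := by
    calc |W z| * gr (kM β) z ≤ |W z| * (16 / ‖z‖ ^ 3) :=
          mul_le_mul_of_nonneg_left (gr_kM_le hβ hz h0) (abs_nonneg _)
      _ = _ := by ring
  linarith

theorem adm_cut_kMW (hW : WSet φ W μ c0) {β : ℂ} (hβ : ‖β‖ = 1)
    (hL2 : IntegrableOn (fun z => W z ^ 2) (ball 0 1)) (n : ℕ) :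
    Adm φ (fun z => cut n z * (kM β z * W z)) := by
  have hC := C0_pos
  have hn0 : (0 : ℝ) ≤ n := Nat.cast_nonneg n
  have hc1 : ContDiffOn ℝ 1 (fun z => cut n z * (kM β z * W z)) (ball 0 1) :=
    contDiffOn_cut_mul (k := 1) (c1_kMW hW β) n
  refine ⟨hc1, ?_, ?_⟩
  · refine integrableOn_of_le ?_ (hW.adm.l2.const_mul ((4 * n) ^ 2)) ?_
    · exact (measurable_rho φ).aestronglyMeasurable.mul ((aesm_of_c1 hc1).pow 2)
    · intro z hz h0
      have hz1 : ‖z‖ < 1 := mem_ball_zero_iff.1 hz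
      have hz' : 0 < ‖z‖ := norm_pos_iff.2 h0
      have hr := rho_nonneg φ z
      rw [abs_of_nonneg (mul_nonneg hr (sq_nonneg _))]
      have hb : |cut n z * (kM β z * W z)| ≤ 4 * n * |W z| := by
        by_cases h : (n : ℝ) * ‖z‖ ^ 2 < 1
        · rw [cut_eq_zero h.le, zero_mul, abs_zero]; positivity
        · push Not at h
          have k1 : 1 / ‖z‖ ^ 2 ≤ n := by rw [div_le_iff₀ (by positivity)]; exact h
          rw [abs_mul, abs_mul, abs_of_nonneg (cut_nonneg n z)]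
          calc cut n z * (|kM β z| * |W z|) ≤ 1 * ((4 / ‖z‖ ^ 2) * |W z|) := by
                apply mul_le_mul (cut_le_one n z) _ (by positivity) zero_le_one
                exact mul_le_mul_of_nonneg_right (abs_kM_le hβ hz1 h0) (abs_nonneg _)
            _ = 4 * (1 / ‖z‖ ^ 2) * |W z| := by ring
            _ ≤ 4 * n * |W z| := by gcongr
      calc rho φ z * (cut n z * (kM β z * W z)) ^ 2 = rho φ z * |cut n z * (kM β z * W z)| ^ 2 := by
            rw [sq_abs]
        _ ≤ rho φ z * (4 * n * |W z|) ^ 2 := by gcongr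
        _ = (4 * n) ^ 2 * (rho φ z * W z ^ 2) := by rw [mul_pow, sq_abs]; ring
  · refine integrableOn_of_le (measurable_g2 _).aestronglyMeasurable
      ((HH_int hW hL2).const_mul (2 * n * (4 ^ 2 + (16 + 32 * C0) ^ 2))) ?_
    intro z hz h0
    have hz1 : ‖z‖ < 1 := mem_ball_zero_iff.1 hz
    have hz' : 0 < ‖z‖ := norm_pos_iff.2 h0
    rw [abs_of_nonneg (g2_nonneg _ z)]
    have hH := HH_nonneg W z
    have hd : DifferentiableAt ℝ (fun z => kM β z * W z) z := diffAt_of_c1' (c1_kMW hW β) hz h0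
    have hc : DifferentiableAt ℝ (cut n) z := (contDiff_cut n (k := 1)).differentiable (by simp) z
    have hm := gr_mul_le hc hd
    refine (g2_le _ z).trans ?_
    by_cases h : (n : ℝ) * ‖z‖ ^ 2 < 1
    · rw [cut_eq_zero h.le, gr_cut_zero h] at hm
      simp only [abs_zero, zero_mul, mul_zero, add_zero] at hm
      have h1 : gr (fun z => cut n z * (kM β z * W z)) z = 0 := le_antisymm hm (gr_nonneg _ _)
      rw [h1, zero_pow two_ne_zero]; positivity
    · push Not at h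
      have k1 : 1 / ‖z‖ ^ 2 ≤ n := by rw [div_le_iff₀ (by positivity)]; exact h
      have hg := gr_kMW_le hW hβ hz h0
      have gW := gr_nonneg W z
      have hb : gr (fun z => cut n z * (kM β z * W z)) z ≤
          4 * (gr W z / ‖z‖ ^ 2) + (16 + 32 * C0) * (|W z| / ‖z‖ ^ 3) := by
        refine hm.trans ?_
        have t1 : |cut n z| * gr (fun z => kM β z * W z) z ≤
            4 * gr W z / ‖z‖ ^ 2 + 16 * |W z| / ‖z‖ ^ 3 := by
          rw [abs_of_nonneg (cut_nonneg n z)]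
          calc cut n z * gr (fun z => kM β z * W z) z ≤ 1 * gr (fun z => kM β z * W z) z :=
                mul_le_mul_of_nonneg_right (cut_le_one n z) (gr_nonneg _ _)
            _ ≤ _ := by rw [one_mul]; exact hg
        have t2 : |kM β z * W z| * gr (cut n) z ≤ 32 * C0 * (|W z| / ‖z‖ ^ 3) := by
          rw [abs_mul]
          calc |kM β z| * |W z| * gr (cut n) z ≤ (4 / ‖z‖ ^ 2) * |W z| * (8 * C0 / ‖z‖) := by
                apply mul_le_mul _ (gr_cut_le n h0) (gr_nonneg _ _) (by positivity)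
                exact mul_le_mul_of_nonneg_right (abs_kM_le hβ hz1 h0) (abs_nonneg _)
            _ = _ := by field_simp; ring
        have e : 4 * (gr W z / ‖z‖ ^ 2) + (16 + 32 * C0) * (|W z| / ‖z‖ ^ 3) =
          (4 * gr W z / ‖z‖ ^ 2 + 16 * |W z| / ‖z‖ ^ 3) + 32 * C0 * (|W z| / ‖z‖ ^ 3) := by ring
        linarith
      have q1 : (gr W z / ‖z‖ ^ 2) ^ 2 ≤ n * HH W z := by
        calc (gr W z / ‖z‖ ^ 2) ^ 2 = (1 / ‖z‖ ^ 2) * (gr W z ^ 2 / ‖z‖ ^ 2) := by field_simp
          _ ≤ n * HH W z := mul_le_mul k1 (HH2 W z) (by positivity) hn0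
      have q2 : (|W z| / ‖z‖ ^ 3) ^ 2 ≤ n * HH W z := by
        calc (|W z| / ‖z‖ ^ 3) ^ 2 = (1 / ‖z‖ ^ 2) * (W z ^ 2 / ‖z‖ ^ 4) := by
              rw [div_pow, sq_abs]; field_simp
          _ ≤ n * HH W z := mul_le_mul k1 (HH1 W z) (by positivity) hn0
      calc gr (fun z => cut n z * (kM β z * W z)) z ^ 2
          ≤ (4 * (gr W z / ‖z‖ ^ 2) + (16 + 32 * C0) * (|W z| / ‖z‖ ^ 3)) ^ 2 :=
            pow_le_pow_left₀ (gr_nonneg _ _) hb 2
        _ ≤ 2 * (4 ^ 2 * (gr W z / ‖z‖ ^ 2) ^ 2) + 2 * ((16 + 32 * C0) ^ 2 * (|W z| / ‖z‖ ^ 3) ^ 2) := by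
            nlinarith [sq_nonneg (4 * (gr W z / ‖z‖ ^ 2) - (16 + 32 * C0) * (|W z| / ‖z‖ ^ 3))]
        _ ≤ 2 * (4 ^ 2 * (n * HH W z)) + 2 * ((16 + 32 * C0) ^ 2 * (n * HH W z)) := by
            gcongr
        _ = _ := by ring

/-- the weak equation tested with `|M|² W` -/
theorem en_A_weak (hφ : Conf φ) (hW : WSet φ W μ c0) {β : ℂ} (hβ : ‖β‖ = 1)
    (hL2 : IntegrableOn (fun z => W z ^ 2) (ball 0 1)) :
    IntegrableOn (fun z => rho φ z * (c0 + μ * W z) * (kM β z * W z)) (ball 0 1) ∧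
    ∫ z in ball (0 : ℂ) 1, ip W (fun z => kM β z * W z) z =
      ∫ z in ball (0 : ℂ) 1, rho φ z * (c0 + μ * W z) * (kM β z * W z) := by
  obtain ⟨K, hK⟩ := rhoW_dom hW hβ
  have hG2 : IntegrableOn (fun z => K * (rho φ z + rho φ z * W z ^ 2)) (ball 0 1) :=
    (hφ.rho_int.add hW.adm.l2).const_mul K
  have hG1 : IntegrableOn (fun z => 14 * HH W z) (ball 0 1) := (HH_int hW hL2).const_mul _
  have h1 : ∀ z ∈ ball (0 : ℂ) 1, z ≠ 0 → gr W z * gr (fun z => kM β z * W z) z +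
      gr W z * (|kM β z * W z| / ‖z‖) ≤ 14 * HH W z := by
    intro z hz h0
    have hz1 : ‖z‖ < 1 := mem_ball_zero_iff.1 hz
    have hz' : 0 < ‖z‖ := norm_pos_iff.2 h0
    have hg := gr_kMW_le hW hβ hz h0
    have gW := gr_nonneg W z
    have a : gr W z * gr (fun z => kM β z * W z) z ≤
        4 * (gr W z ^ 2 / ‖z‖ ^ 2) + 16 * (|W z| * gr W z / ‖z‖ ^ 3) := by
      calc gr W z * gr (fun z => kM β z * W z) z ≤
            gr W z * (4 * gr W z / ‖z‖ ^ 2 + 16 * |W z| / ‖z‖ ^ 3) := mul_le_mul_of_nonneg_left hg gW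
        _ = _ := by ring
    have b : gr W z * (|kM β z * W z| / ‖z‖) ≤ 4 * (|W z| * gr W z / ‖z‖ ^ 3) := by
      rw [abs_mul]
      calc gr W z * (|kM β z| * |W z| / ‖z‖) ≤ gr W z * ((4 / ‖z‖ ^ 2) * |W z| / ‖z‖) := by
            have := abs_kM_le hβ hz1 h0
            gcongr
        _ = _ := by field_simp
    have := HH2 W z
    have := HH3 W h0
    linarith
  have h2 : ∀ z ∈ ball (0 : ℂ) 1, z ≠ 0 → rho φ z * |c0 + μ * W z| * |kM β z * W z| ≤
      K * (rho φ z + rho φ z * W z ^ 2) := hK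
  refine ⟨?_, weak_lim hW (c1_kMW hW β) (adm_cut_kMW hW hβ hL2) hG1 hG2 h1 h2⟩
  refine integrableOn_of_le ?_ hG2 ?_
  · refine (rhs_aesm hW).mul ?_
    have hm : ContinuousOn (fun z => kM β z * W z) (ball 0 1 \ {0}) := (c1_kMW hW β).continuousOn
    have h3 : AEStronglyMeasurable (fun z => kM β z * W z) (volume.restrict (ball 0 1 \ {0})) :=
      hm.aestronglyMeasurable (measurableSet_ball.diff (measurableSet_singleton 0))
    rwa [Measure.restrict_congr_set (sdiff_null_ae_eq_self (measure_singleton (0 : ℂ)))] at h3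
  · intro z hz h0
    rw [abs_mul, abs_mul, abs_of_nonneg (rho_nonneg φ z)]
    exact h2 z hz h0

/-! ### the divergence identity -/

theorem c1_Wa (hW : WSet φ W μ c0) (β : ℂ) :
    ContDiffOn ℝ 1 (fun z => W z * W z * aM β z) (ball 0 1 \ {0}) :=
  ((hW.adm.c1.mono sdiff_subset).mul (hW.adm.c1.mono sdiff_subset)).mul (contDiffOn_aM β (k := 1))

theorem c1_Wb (hW : WSet φ W μ c0) (β : ℂ) :
    ContDiffOn ℝ 1 (fun z => W z * W z * bM β z) (ball 0 1 \ {0}) :=
  ((hW.adm.c1.mono sdiff_subset).mul (hW.adm.c1.mono sdiff_subset)).mul (contDiffOn_bM β (k := 1))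

theorem div_Wab (hW : WSet φ W μ c0) (β : ℂ) {z : ℂ} (hz : z ∈ ball (0 : ℂ) 1) (h0 : z ≠ 0) :
    dx (fun z => W z * W z * aM β z) z + dy (fun z => W z * W z * bM β z) z =
      W z * ip W (kM β) z + 2 * W z ^ 2 * ‖MM' β z‖ ^ 2 := by
  have d1 : DifferentiableAt ℝ W z := diffAt_of_c1 hW.adm.c1 hz
  have d2 : DifferentiableAt ℝ (aM β) z := diffAt_of_c1' (contDiffOn_aM β (k := 1)) hz h0
  have d3 : DifferentiableAt ℝ (bM β) z := diffAt_of_c1' (contDiffOn_bM β (k := 1)) hz h0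
  rw [dx_mul (d1.fun_mul d1) d2, dy_mul (d1.fun_mul d1) d3, dx_mul d1 d1, dy_mul d1 d1]
  have e := div_ab β hz h0
  unfold ip
  rw [dx_kM β hz h0, dy_kM β hz h0]
  have e2 : dy (bM β) z = 2 * ‖MM' β z‖ ^ 2 - dx (aM β) z := by linarith
  rw [e2]; ring

theorem set_dx_zero {F : ℂ → ℝ} (hF : ContDiff ℝ 1 F) (hc : HasCompactSupport F)
    (hs : tsupport F ⊆ ball 0 1) :
    IntegrableOn (dx F) (ball 0 1) ∧ ∫ z in ball (0 : ℂ) 1, dx F z = 0 := by
  have hd : Continuous (fun z => fderiv ℝ F z 1) :=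
    (hF.continuous_fderiv (by simp)).clm_apply continuous_const
  have hi : Integrable (fun z => fderiv ℝ F z 1) := hd.integrable_of_hasCompactSupport
    (hc.fderiv_apply (𝕜 := ℝ) 1)
  refine ⟨hi.integrableOn, ?_⟩
  rw [setIntegral_eq_integral_of_forall_compl_eq_zero, integral_dx_zero hF hc]
  intro z hz
  unfold dx
  rw [fderiv_of_notMem_tsupport ℝ (fun h => hz (hs h))]; simp

theorem set_dy_zero {F : ℂ → ℝ} (hF : ContDiff ℝ 1 F) (hc : HasCompactSupport F)
    (hs : tsupport F ⊆ ball 0 1) :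
    IntegrableOn (dy F) (ball 0 1) ∧ ∫ z in ball (0 : ℂ) 1, dy F z = 0 := by
  have hd : Continuous (fun z => fderiv ℝ F z I) :=
    (hF.continuous_fderiv (by simp)).clm_apply continuous_const
  have hi : Integrable (fun z => fderiv ℝ F z I) := hd.integrable_of_hasCompactSupport
    (hc.fderiv_apply (𝕜 := ℝ) I)
  refine ⟨hi.integrableOn, ?_⟩
  rw [setIntegral_eq_integral_of_forall_compl_eq_zero, integral_dy_zero hF hc]
  intro z hz
  unfold dy
  rw [fderiv_of_notMem_tsupport ℝ (fun h => hz (hs h))]; simp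

theorem abs_WipkM_le {W : ℂ → ℝ} {β z : ℂ} (hβ : ‖β‖ = 1) (hz : z ∈ ball (0 : ℂ) 1) (h0 : z ≠ 0) :
    |W z * ip W (kM β) z| ≤ 8 * HH W z := by
  have hz' : 0 < ‖z‖ := norm_pos_iff.2 h0
  have a := abs_ip_le W (kM β) z
  have b := gr_kM_le hβ hz h0
  have gW := gr_nonneg W z
  rw [abs_mul]
  calc |W z| * |ip W (kM β) z| ≤ |W z| * (gr W z * (16 / ‖z‖ ^ 3)) := by
        apply mul_le_mul_of_nonneg_left _ (abs_nonneg _)
        exact a.trans (mul_le_mul_of_nonneg_left b gW)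
    _ = 16 * (|W z| * gr W z / ‖z‖ ^ 3) := by ring
    _ ≤ 8 * HH W z := by linarith [HH3 W h0]

theorem WM'_le {W : ℂ → ℝ} {β z : ℂ} (hβ : ‖β‖ = 1) (hz : z ∈ ball (0 : ℂ) 1) (h0 : z ≠ 0) :
    W z ^ 2 * ‖MM' β z‖ ^ 2 ≤ 4 * HH W z := by
  have hz1 : ‖z‖ < 1 := mem_ball_zero_iff.1 hz
  have hz' : 0 < ‖z‖ := norm_pos_iff.2 h0
  calc W z ^ 2 * ‖MM' β z‖ ^ 2 ≤ W z ^ 2 * (2 / ‖z‖ ^ 2) ^ 2 := by
        have := norm_MM'_le hβ hz1 h0
        gcongr
    _ = 4 * (W z ^ 2 / ‖z‖ ^ 4) := by field_simp; norm_num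
    _ ≤ 4 * HH W z := by linarith [HH1 W z]

theorem aesm_WM' (hW : WSet φ W μ c0) (β : ℂ) :
    AEStronglyMeasurable (fun z => W z ^ 2 * ‖MM' β z‖ ^ 2) (volume.restrict (ball 0 1)) := by
  refine ((aesm_of_c1 hW.adm.c1).pow 2).mul ?_
  have hm : Measurable (fun z => ‖MM' β z‖ ^ 2) := by
    unfold MM'; fun_prop
  exact hm.aestronglyMeasurable

theorem en_A_div (hW : WSet φ W μ c0) {β : ℂ} (hβ : ‖β‖ = 1)
    (hL2 : IntegrableOn (fun z => W z ^ 2) (ball 0 1)) :
    ∫ z in ball (0 : ℂ) 1, (W z * ip W (kM β) z + 2 * W z ^ 2 * ‖MM' β z‖ ^ 2) = 0 := by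
  have hC := C0_pos
  set F1 : ℂ → ℝ := fun z => W z * W z * aM β z with hF1
  set F2 : ℂ → ℝ := fun z => W z * W z * bM β z with hF2
  have c1 : ContDiffOn ℝ 1 F1 (ball 0 1 \ {0}) := c1_Wa hW β
  have c2 : ContDiffOn ℝ 1 F2 (ball 0 1 \ {0}) := c1_Wb hW β
  have hpt : ∀ n, ∀ z ∈ ball (0 : ℂ) 1, z ≠ 0 →
      dx (fun z => cut n z * bc n z * F1 z) z + dy (fun z => cut n z * bc n z * F2 z) z
      = cut n z * bc n z * (W z * ip W (kM β) z + 2 * W z ^ 2 * ‖MM' β z‖ ^ 2) +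
        (bc n z * (dx (cut n) z * F1 z + dy (cut n) z * F2 z) +
          cut n z * (dx (bc n) z * F1 z + dy (bc n) z * F2 z)) := by
    intro n z hz h0
    have hd1 := diffAt_of_c1' c1 hz h0
    have hd2 := diffAt_of_c1' c2 hz h0
    have hc : DifferentiableAt ℝ (cut n) z := (contDiff_cut n (k := 1)).differentiable (by simp) z
    have hb : DifferentiableAt ℝ (bc n) z := (contDiff_bc n (k := 1)).differentiable (by simp) z
    have hcb : DifferentiableAt ℝ (fun z => cut n z * bc n z) z := hc.mul hb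
    rw [dx_mul hcb hd1, dy_mul hcb hd2, dx_mul hc hb, dy_mul hc hb, ← div_Wab hW β hz h0]
    ring
  have hz : ∀ n, ∫ z in ball (0 : ℂ) 1, (dx (fun z => cut n z * bc n z * F1 z) z +
      dy (fun z => cut n z * bc n z * F2 z) z) = 0 := by
    intro n
    have s1 := set_dx_zero (contDiff_cutbc (k := 1) c1 n) (hcs_cutbc n F1)
      ((ts_cutbc n F1).trans ((Kn_sub n).trans sdiff_subset))
    have s2 := set_dy_zero (contDiff_cutbc (k := 1) c2 n) (hcs_cutbc n F2)
      ((ts_cutbc n F2).trans ((Kn_sub n).trans sdiff_subset))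
    rw [integral_add s1.1 s2.1, s1.2, s2.2, add_zero]
  have L : Tendsto (fun n => ∫ z in ball (0 : ℂ) 1, (dx (fun z => cut n z * bc n z * F1 z) z +
      dy (fun z => cut n z * bc n z * F2 z) z)) atTop
      (𝓝 (∫ z in ball (0 : ℂ) 1, (W z * ip W (kM β) z + 2 * W z ^ 2 * ‖MM' β z‖ ^ 2))) := by
    apply dct (G := fun z => (16 + 40 * C0) * HH W z)
    · intro n
      exact ((measurable_dx _).add (measurable_dy _)).aestronglyMeasurable
    · exact (HH_int hW hL2).const_mul _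
    · intro n z hz h0
      have hz' : 0 < ‖z‖ := norm_pos_iff.2 h0
      have hz1 : ‖z‖ < 1 := mem_ball_zero_iff.1 hz
      have hz2 : 0 < 1 - ‖z‖ ^ 2 := by nlinarith
      have hH := HH_nonneg W z
      rw [hpt n z hz h0]
      have a3 := gr_cut_le n h0
      have g3 := gr_nonneg (cut n) z
      have k1 := cut_nonneg n z
      have k2 := cut_le_one n z
      have b1 := bc_nonneg n z
      have b2 := bc_le_one n z
      have u1 := abs_WipkM_le (W := W) hβ hz h0
      have u2 := WM'_le (W := W) hβ hz h0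
      have v := abs_aM_le hβ hz1 h0
      have t1 : |cut n z * bc n z * (W z * ip W (kM β) z + 2 * W z ^ 2 * ‖MM' β z‖ ^ 2)| ≤
          16 * HH W z := by
        rw [abs_mul, abs_of_nonneg (mul_nonneg k1 b1)]
        have e0 : |W z * ip W (kM β) z + 2 * W z ^ 2 * ‖MM' β z‖ ^ 2| ≤ 16 * HH W z := by
          refine (abs_add_le _ _).trans ?_
          rw [abs_of_nonneg (show 0 ≤ 2 * W z ^ 2 * ‖MM' β z‖ ^ 2 by positivity)]
          linarith
        calc cut n z * bc n z * |W z * ip W (kM β) z + 2 * W z ^ 2 * ‖MM' β z‖ ^ 2|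
            ≤ 1 * (16 * HH W z) := by
              apply mul_le_mul _ e0 (abs_nonneg _) zero_le_one
              nlinarith
          _ = _ := one_mul _
      have w1 : |F1 z| ≤ 4 * (W z ^ 2 / ‖z‖ ^ 3) := by
        rw [hF1]; simp only
        rw [abs_mul, abs_mul_self]
        calc W z * W z * |aM β z| ≤ W z * W z * (4 / ‖z‖ ^ 3) :=
              mul_le_mul_of_nonneg_left v.1 (mul_self_nonneg _)
          _ = _ := by ring
      have w2 : |F2 z| ≤ 4 * (W z ^ 2 / ‖z‖ ^ 3) := by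
        rw [hF2]; simp only
        rw [abs_mul, abs_mul_self]
        calc W z * W z * |bM β z| ≤ W z * W z * (4 / ‖z‖ ^ 3) :=
              mul_le_mul_of_nonneg_left v.2 (mul_self_nonneg _)
          _ = _ := by ring
      have t2 : |bc n z * (dx (cut n) z * F1 z + dy (cut n) z * F2 z)| ≤ 32 * C0 * HH W z := by
        rw [abs_mul, abs_of_nonneg b1]
        have e0 : |dx (cut n) z * F1 z + dy (cut n) z * F2 z| ≤ gr (cut n) z * (4 * (W z ^ 2 / ‖z‖ ^ 3)) := by
          refine (abs_add_le _ _).trans ?_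
          have q1 : |dx (cut n) z * F1 z| ≤ |dx (cut n) z| * (4 * (W z ^ 2 / ‖z‖ ^ 3)) := by
            rw [abs_mul]; exact mul_le_mul_of_nonneg_left w1 (abs_nonneg _)
          have q2 : |dy (cut n) z * F2 z| ≤ |dy (cut n) z| * (4 * (W z ^ 2 / ‖z‖ ^ 3)) := by
            rw [abs_mul]; exact mul_le_mul_of_nonneg_left w2 (abs_nonneg _)
          unfold gr
          rw [add_mul]
          exact add_le_add q1 q2
        calc bc n z * |dx (cut n) z * F1 z + dy (cut n) z * F2 z|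
            ≤ 1 * ((8 * C0 / ‖z‖) * (4 * (W z ^ 2 / ‖z‖ ^ 3))) := by
              apply mul_le_mul b2 _ (abs_nonneg _) zero_le_one
              refine e0.trans ?_
              gcongr
          _ = 32 * C0 * (W z ^ 2 / ‖z‖ ^ 4) := by field_simp; ring
          _ ≤ 32 * C0 * HH W z := by
              apply mul_le_mul_of_nonneg_left (HH1 W z); positivity
      have t3 : |cut n z * (dx (bc n) z * F1 z + dy (bc n) z * F2 z)| ≤ 8 * C0 * HH W z := by
        rw [abs_mul, abs_of_nonneg k1]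
        have e0 : dx (bc n) z * F1 z + dy (bc n) z * F2 z =
            deriv Real.smoothTransition (n * (1 - ‖z‖ ^ 2) - 1) *
              (2 * (n * (1 - ‖z‖ ^ 2)) * ((1 + ‖z‖ ^ 2) * (W z ^ 2 / ‖z‖ ^ 2))) := by
          have hr := radial_ab hβ h0
          rw [dx_bc, dy_bc, hF1, hF2]
          simp only
          have : -(deriv Real.smoothTransition (n * (1 - ‖z‖ ^ 2) - 1) * (n * (2 * z.re))) * (W z * W z * aM β z)
            + -(deriv Real.smoothTransition (n * (1 - ‖z‖ ^ 2) - 1) * (n * (2 * z.im))) * (W z * W z * bM β z)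
            = -(deriv Real.smoothTransition (n * (1 - ‖z‖ ^ 2) - 1) * (2 * n * W z ^ 2 *
              (z.re * aM β z + z.im * bM β z))) := by ring
          rw [this, hr]; ring
        have e1 : |dx (bc n) z * F1 z + dy (bc n) z * F2 z| ≤ 8 * C0 * HH W z := by
          rw [e0, abs_mul]
          by_cases h : deriv Real.smoothTransition (n * (1 - ‖z‖ ^ 2) - 1) = 0
          · rw [h, abs_zero, zero_mul]; positivity
          have h2 : (n : ℝ) * (1 - ‖z‖ ^ 2) ≤ 2 := by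
            by_contra hh
            push Not at hh
            exact h (st_gt (by linarith))
          have hn : (0 : ℝ) ≤ n * (1 - ‖z‖ ^ 2) := mul_nonneg (Nat.cast_nonneg n) hz2.le
          have hst := st_le (n * (1 - ‖z‖ ^ 2) - 1)
          rw [abs_of_nonneg (show 0 ≤ 2 * ((n : ℝ) * (1 - ‖z‖ ^ 2)) * ((1 + ‖z‖ ^ 2) * (W z ^ 2 / ‖z‖ ^ 2)) by
            positivity)]
          calc |deriv Real.smoothTransition (n * (1 - ‖z‖ ^ 2) - 1)| *
                (2 * (n * (1 - ‖z‖ ^ 2)) * ((1 + ‖z‖ ^ 2) * (W z ^ 2 / ‖z‖ ^ 2)))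
              ≤ C0 * (2 * 2 * (2 * (W z ^ 2 / ‖z‖ ^ 4))) := by
                apply mul_le_mul hst _ (by positivity) hC.le
                apply mul_le_mul (by linarith) _ (by positivity) (by norm_num)
                apply mul_le_mul (by nlinarith) _ (by positivity) (by norm_num)
                apply div_le_div_of_nonneg_left (sq_nonneg _) (by positivity)
                have : ‖z‖ ^ 2 ≤ 1 := by nlinarith
                calc ‖z‖ ^ 4 = ‖z‖ ^ 2 * ‖z‖ ^ 2 := by ring
                  _ ≤ ‖z‖ ^ 2 * 1 := by gcongr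
                  _ = ‖z‖ ^ 2 := mul_one _
            _ = 8 * C0 * (W z ^ 2 / ‖z‖ ^ 4) := by ring
            _ ≤ 8 * C0 * HH W z := by
              apply mul_le_mul_of_nonneg_left (HH1 W z); positivity
        calc cut n z * |dx (bc n) z * F1 z + dy (bc n) z * F2 z| ≤ 1 * (8 * C0 * HH W z) :=
              mul_le_mul k2 e1 (abs_nonneg _) zero_le_one
          _ = _ := one_mul _
      refine (abs_add_le _ _).trans ?_
      have t4 := abs_add_le (bc n z * (dx (cut n) z * F1 z + dy (cut n) z * F2 z))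
        (cut n z * (dx (bc n) z * F1 z + dy (bc n) z * F2 z))
      have e2 : (16 + 40 * C0) * HH W z = 16 * HH W z + 32 * C0 * HH W z + 8 * C0 * HH W z := by ring
      rw [e2]
      linarith
    · intro z hz h0
      have hz1 : ‖z‖ < 1 := mem_ball_zero_iff.1 hz
      apply tendsto_const_nhds.congr'
      filter_upwards [cut_eventually h0, bc_eventually hz1] with n hn hb
      rw [hpt n z hz h0, hn.1, hb.1]
      have e1 : dx (cut n) z = 0 ∧ dy (cut n) z = 0 := by
        have h := hn.2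
        unfold gr at h
        have p1 := abs_nonneg (dx (cut n) z)
        have p2 := abs_nonneg (dy (cut n) z)
        exact ⟨abs_eq_zero.1 (by linarith), abs_eq_zero.1 (by linarith)⟩
      have e2 : dx (bc n) z = 0 ∧ dy (bc n) z = 0 := by
        have h := hb.2
        unfold gr at h
        have p1 := abs_nonneg (dx (bc n) z)
        have p2 := abs_nonneg (dy (bc n) z)
        exact ⟨abs_eq_zero.1 (by linarith), abs_eq_zero.1 (by linarith)⟩
      rw [e1.1, e1.2, e2.1, e2.2]; ring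
  refine tendsto_nhds_unique L ?_
  refine tendsto_const_nhds.congr ?_
  intro n
  exact (hz n).symm

/-- **Energy identity for `A`.** -/
theorem en_A (hφ : Conf φ) (hW : WSet φ W μ c0) {β : ℂ} (hβ : ‖β‖ = 1)
    (hL2 : IntegrableOn (fun z => W z ^ 2) (ball 0 1)) :
    IntegrableOn (fun z => ‖MM β z‖ ^ 2 * g2 W z) (ball 0 1) ∧
    IntegrableOn (fun z => rho φ z * (c0 + μ * W z) * ‖MM β z‖ ^ 2 * W z) (ball 0 1) ∧
    IntegrableOn (fun z => W z ^ 2 * ‖MM' β z‖ ^ 2) (ball 0 1) ∧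
    ∫ z in ball (0 : ℂ) 1, ‖MM β z‖ ^ 2 * g2 W z =
      (∫ z in ball (0 : ℂ) 1, rho φ z * (c0 + μ * W z) * ‖MM β z‖ ^ 2 * W z) +
        2 * ∫ z in ball (0 : ℂ) 1, W z ^ 2 * ‖MM' β z‖ ^ 2 := by
  obtain ⟨i2, e2⟩ := en_A_weak hφ hW hβ hL2
  have e3 : (fun z => rho φ z * (c0 + μ * W z) * (kM β z * W z)) =
      fun z => rho φ z * (c0 + μ * W z) * ‖MM β z‖ ^ 2 * W z := by
    funext z; rw [kM_eq]; ring
  rw [e3] at i2 e2
  have iH := HH_int hW hL2
  have i3 : IntegrableOn (fun z => W z ^ 2 * ‖MM' β z‖ ^ 2) (ball 0 1) := by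
    refine integrableOn_of_le (aesm_WM' hW β) (iH.const_mul 4) ?_
    intro z hz h0
    rw [abs_of_nonneg (by positivity)]
    exact WM'_le hβ hz h0
  have i1 : IntegrableOn (fun z => ‖MM β z‖ ^ 2 * g2 W z) (ball 0 1) := by
    refine integrableOn_of_le ?_ (iH.const_mul 4) ?_
    · have hm : Measurable (fun z => ‖MM β z‖ ^ 2) := by
        unfold MM; fun_prop
      exact (hm.mul (measurable_g2 W)).aestronglyMeasurable
    · intro z hz h0
      have hz1 : ‖z‖ < 1 := mem_ball_zero_iff.1 hz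
      have hz' : 0 < ‖z‖ := norm_pos_iff.2 h0
      have hg := g2_nonneg W z
      rw [abs_of_nonneg (by positivity), ← kM_eq]
      have h1 := abs_kM_le hβ hz1 h0
      have h2 := g2_le W z
      calc kM β z * g2 W z ≤ (4 / ‖z‖ ^ 2) * gr W z ^ 2 :=
            mul_le_mul ((le_abs_self _).trans h1) h2 hg (by positivity)
        _ = 4 * (gr W z ^ 2 / ‖z‖ ^ 2) := by ring
        _ ≤ 4 * HH W z := by linarith [HH2 W z]
  have i4 : IntegrableOn (fun z => W z * ip W (kM β) z) (ball 0 1) := by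
    refine integrableOn_of_le ?_ (iH.const_mul 8) ?_
    · refine (aesm_of_c1 hW.adm.c1).mul ?_
      unfold ip
      exact (((measurable_dx _).mul (measurable_dx _)).add
        ((measurable_dy _).mul (measurable_dy _))).aestronglyMeasurable
    · intro z hz h0
      exact abs_WipkM_le hβ hz h0
  have hpt : ∀ z ∈ ball (0 : ℂ) 1, z ≠ 0 → ip W (fun z => kM β z * W z) z =
      ‖MM β z‖ ^ 2 * g2 W z + W z * ip W (kM β) z := by
    intro z hz h0
    have d1 : DifferentiableAt ℝ (kM β) z := diffAt_of_c1' (contDiffOn_kM β (k := 1)) hz h0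
    have d2 : DifferentiableAt ℝ W z := diffAt_of_c1 hW.adm.c1 hz
    unfold ip g2
    rw [dx_mul d1 d2, dy_mul d1 d2, ← kM_eq]
    ring
  refine ⟨i1, i2, i3, ?_⟩
  have s1 : ∫ z in ball (0 : ℂ) 1, ip W (fun z => kM β z * W z) z =
      (∫ z in ball (0 : ℂ) 1, ‖MM β z‖ ^ 2 * g2 W z) + ∫ z in ball (0 : ℂ) 1, W z * ip W (kM β) z := by
    rw [integral_congr_punct hpt, integral_add i1 i4]
  have s2 := en_A_div hW hβ hL2
  have i5 : IntegrableOn (fun z => 2 * W z ^ 2 * ‖MM' β z‖ ^ 2) (ball 0 1) := by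
    have := i3.const_mul 2
    refine this.congr ?_
    filter_upwards with z
    ring
  rw [integral_add i4 i5] at s2
  have s3 : ∫ z in ball (0 : ℂ) 1, 2 * W z ^ 2 * ‖MM' β z‖ ^ 2 =
      2 * ∫ z in ball (0 : ℂ) 1, W z ^ 2 * ‖MM' β z‖ ^ 2 := by
    rw [← integral_const_mul]
    congr 1; funext z; ring
  rw [s3] at s2
  rw [s1] at e2
  linarith

end Crest.Agent.R101
end

-- ▼ part R101/EnF

/-! Row 101, part P5: `energy_le` (statement of `Iface.lean`). -/

set_option autoImplicit false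

open MeasureTheory Metric Set Filter Topology Complex
open scoped ContDiff ComplexConjugate

namespace Crest.Agent.R101

theorem hp_lin (φ : ℂ → ℂ) (β z : ℂ) :
    hp φ β z = (β.re : ℂ) * hp φ 1 z + (β.im : ℂ) * hp φ I z := by
  obtain ⟨a, b⟩ := β
  have h1 : (⟨a, b⟩ : ℂ) = (a : ℂ) + (b : ℂ) * I := by apply Complex.ext <;> simp
  have h2 : conj (⟨a, b⟩ : ℂ) = (a : ℂ) - (b : ℂ) * I := by apply Complex.ext <;> simp
  have h3 : ((a : ℂ) + (b : ℂ) * I).re = a := by simp
  have h4 : ((a : ℂ) + (b : ℂ) * I).im = b := by simp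
  rw [hp, hp, hp, MM, MM', MM, MM', MM, MM', h2, h1, h3, h4]
  simp only [map_one, conj_I]
  ring

theorem hp_sq_int' {φ : ℂ → ℂ} (h : Conf φ) (β : ℂ) :
    IntegrableOn (fun ζ => ‖hp φ β ζ‖ ^ 2) (ball 0 1) := by
  obtain ⟨h1, h2, _⟩ := parseval h
  have hb : IntegrableOn (fun ζ => 2 * (β.re ^ 2 * ‖hp φ 1 ζ‖ ^ 2 + β.im ^ 2 * ‖hp φ I ζ‖ ^ 2))
      (ball 0 1) := ((h1.const_mul _).add (h2.const_mul _)).const_mul 2
  apply Integrable.mono' hb
    (En.aesm_of_continuousOn ((En.contDiffOn_hp h β 0).continuousOn.norm.pow 2))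
  refine Eventually.of_forall fun z => ?_
  change ‖‖hp φ β z‖ ^ 2‖ ≤ _
  rw [Real.norm_eq_abs, abs_of_nonneg (by positivity), hp_lin φ β z]
  have h3 : ‖(β.re : ℂ) * hp φ 1 z + (β.im : ℂ) * hp φ I z‖ ≤
      |β.re| * ‖hp φ 1 z‖ + |β.im| * ‖hp φ I z‖ := by
    refine (norm_add_le _ _).trans ?_
    rw [norm_mul, norm_mul, norm_real, norm_real, Real.norm_eq_abs, Real.norm_eq_abs]
  have h4 := pow_le_pow_left₀ (norm_nonneg _) h3 2
  refine h4.trans ?_
  rw [← sq_abs β.re, ← sq_abs β.im]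
  nlinarith [sq_nonneg (|β.re| * ‖hp φ 1 z‖ - |β.im| * ‖hp φ I z‖)]

/-- P5 (energy identity + Hodge). -/
theorem energy_le {φ : ℂ → ℂ} {U W : ℂ → ℝ} {μ c0 : ℝ} (h : Setting φ U μ) (hW : WSet φ W μ c0)
    {β : ℂ} (hβ : ‖β‖ = 1) :
    IntegrableOn (fun ζ => c0 ^ 2 * (RR β ζ ^ 2 * ‖φ ζ‖ ^ 2 * rho φ ζ)
      + 2 * (W ζ ^ 2 * ‖MM' β ζ‖ ^ 2) - 2 * c0 * (RR β ζ * kap φ β ζ * W ζ)) (ball 0 1) ∧
    μ * ∫ ζ in ball (0 : ℂ) 1, (c0 ^ 2 * (RR β ζ ^ 2 * ‖φ ζ‖ ^ 2 * rho φ ζ)
      + 2 * (W ζ ^ 2 * ‖MM' β ζ‖ ^ 2) - 2 * c0 * (RR β ζ * kap φ β ζ * W ζ)) ≤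
    c0 ^ 2 * (∫ ζ in ball (0 : ℂ) 1, ‖hp φ β ζ‖ ^ 2) +
      c0 * μ * ∫ ζ in ball (0 : ℂ) 1, rho φ ζ * W ζ * (MM β ζ ^ 2).re := by
  have hL2 := sq_integrable hW.adm.c1 hW.adm.en
  obtain ⟨a1, a2, a3, ae⟩ := en_A h.conf hW hβ hL2
  exact En.energy_le_of h hW hβ hL2 (hp_sq_int' h.conf β) a1 a2 a3 ae

end Crest.Agent.R101
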